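import Mathlib
import Vale.Agent.P226.Assemble
import Vale.Agent.P226.Dim

/-!
Basic objects for the proof of the full propeller conjecture.

`u : ι → E` is an optimal nondegenerate family (`Opt u`): pairwise inner products are negative,
the sum is zero, `firstMoment (cone u i) = u i`, and the Gaussian measures of the cones add up
to one. `K = Fintype.card ι` is the number of cells.
-/

open MeasureTheory ProbabilityTheory Set
open scoped RealInnerProductSpace ENNReal NNReal

set_option linter.unusedSectionVars false

namespace Vale.Agent.P226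

variable {E : Type*} [NormedAddCommGroup E] [InnerProductSpace ℝ E] [FiniteDimensional ℝ E]
  [MeasurableSpace E] [BorelSpace E] {ι : Type*} [Fintype ι] [DecidableEq ι]

/-- the measure of the cell -/
noncomputable def pr (u : ι → E) (i : ι) : ℝ := (stdGaussian E).real (cone u i)

/-- the largest of the other functionals -/
noncomputable def omax (u : ι → E) (i : ι) (x : E) : ℝ := ⨆ j : {j // j ≠ i}, ⟪u j, x⟫

/-- `E (X_i - max_{j ≠ i} X_j)_+` -/
noncomputable def dgap (u : ι → E) (i : ι) : ℝ :=
  ∫ x, max 0 (⟪u i, x⟫ - omax u i x) ∂(stdGaussian E)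

/-- the sum of the vectors outside `J` -/
noncomputable def rest (u : ι → E) (J : Finset ι) : E := ∑ l ∈ Jᶜ, u l

/-- recentred vector: `∑ j ∈ J, cvec u J j = 0` when `∑ u = 0` -/
noncomputable def cvec (u : ι → E) (J : Finset ι) (j : ι) : E :=
  u j + ((J.card : ℝ)⁻¹ : ℝ) • rest u J

/-- the maximum over `J` of the recentred functionals -/
noncomputable def cmax (u : ι → E) (J : Finset ι) (x : E) : ℝ :=
  ⨆ j : {j // j ∈ J}, ⟪cvec u J j, x⟫

/-- union of the cells outside `J` -/
def outside (u : ι → E) (J : Finset ι) : Set E := ⋃ i ∈ Jᶜ, cone u i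

end Vale.Agent.P226
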