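import Mathlib
import Vale.Agent.P226.Full.Base

/-! [E1] independence of the norm and the direction; scaling of the standard Gaussian. -/

open MeasureTheory ProbabilityTheory Set
open scoped RealInnerProductSpace ENNReal NNReal

set_option linter.unusedSectionVars false

namespace Vale.Agent.P226

/-- variance of the scaled measure -/
noncomputable def sv (c : ℝ) : ℝ≥0 := ⟨(c⁻¹) ^ 2, sq_nonneg _⟩

lemma map_inv_mul_gauss (c : ℝ) :
    (gaussianReal 0 1).map (fun t => c⁻¹ * t) = gaussianReal 0 (sv c) := by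
  rw [gaussianReal_map_const_mul, mul_zero, mul_one]
  rfl

lemma pdf_scale {c : ℝ} (hc : 0 < c) (t : ℝ) :
    gaussianPDF 0 (sv c) t =
      gaussianPDF 0 1 t * ENNReal.ofReal (c * Real.exp (-((c ^ 2 - 1) * t ^ 2 / 2))) := by
  rw [gaussianPDF_def, gaussianPDF_def, ← ENNReal.ofReal_mul (gaussianPDFReal_nonneg _ _ _)]
  rw [gaussianPDFReal_def, gaussianPDFReal_def]
  have h1 : ((sv c : ℝ≥0) : ℝ) = (c⁻¹) ^ 2 := rfl
  simp only [h1, NNReal.coe_one, mul_one, sub_zero]
  have h2 : Real.sqrt (2 * Real.pi * c⁻¹ ^ 2) = Real.sqrt (2 * Real.pi) * c⁻¹ := by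
    rw [Real.sqrt_mul (by positivity), Real.sqrt_sq (by positivity)]
  rw [h2, mul_inv, inv_inv]
  have h3 : Real.exp (-t ^ 2 / (2 * c⁻¹ ^ 2)) =
      Real.exp (-t ^ 2 / 2) * Real.exp (-((c ^ 2 - 1) * t ^ 2 / 2)) := by
    rw [← Real.exp_add]
    congr 1
    field_simp
    ring
  rw [h3]
  congr 1
  ring

lemma sv_ne_zero {c : ℝ} (hc : 0 < c) : sv c ≠ 0 := by
  intro h
  have h1 : ((sv c : ℝ≥0) : ℝ) = (c⁻¹) ^ 2 := rfl
  rw [h] at h1
  have : 0 < (c⁻¹) ^ 2 := by positivity
  rw [← h1] at this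
  simp at this

lemma gauss_scale_one {c : ℝ} (hc : 0 < c) {B : Set ℝ} (hB : MeasurableSet B) :
    gaussianReal 0 (sv c) B =
      ∫⁻ t in B, ENNReal.ofReal (c * Real.exp (-((c ^ 2 - 1) * t ^ 2 / 2)))
        ∂(gaussianReal 0 1) := by
  rw [gaussianReal_apply 0 (sv_ne_zero hc), gaussianReal_of_var_ne_zero 0 one_ne_zero,
    setLIntegral_withDensity_eq_setLIntegral_mul _ (measurable_gaussianPDF 0 1) (by fun_prop) hB]
  exact lintegral_congr fun t => pdf_scale hc t

/-- product form of the scaled density -/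
lemma lintegral_prod_box {n : ℕ} (f : ℝ → ℝ) (hf : Measurable f) (hf0 : ∀ t, 0 ≤ f t) {M : ℝ}
    (hfM : ∀ t, f t ≤ M) (B : Fin n → Set ℝ) (hB : ∀ i, MeasurableSet (B i)) :
    ∫⁻ x in Set.univ.pi B, ENNReal.ofReal (∏ i, f (x i)) ∂(Measure.pi fun _ => gaussianReal 0 1) =
      ∏ i, ∫⁻ t in B i, ENNReal.ofReal (f t) ∂(gaussianReal 0 1) := by
  have hint1 : ∀ i, IntegrableOn f (B i) (gaussianReal 0 1) := fun i =>
    (Integrable.of_bound hf.aestronglyMeasurable M
      (Filter.Eventually.of_forall fun t => by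
        rw [Real.norm_of_nonneg (hf0 t)]; exact hfM t)).integrableOn
  have h1 : ∀ i, ∫⁻ t in B i, ENNReal.ofReal (f t) ∂(gaussianReal 0 1) =
      ENNReal.ofReal (∫ t, (B i).indicator f t ∂(gaussianReal 0 1)) := by
    intro i
    rw [integral_indicator (hB i), ofReal_integral_eq_lintegral_ofReal (hint1 i)
      (Filter.Eventually.of_forall fun t => hf0 t)]
  have hind0 : ∀ i t, 0 ≤ (B i).indicator f t := fun i t => Set.indicator_nonneg (fun t _ => hf0 t) t
  rw [Finset.prod_congr rfl fun i _ => h1 i,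
    ← ENNReal.ofReal_prod_of_nonneg (fun i _ => integral_nonneg fun t => hind0 i t),
    ← integral_fintype_prod_eq_prod, ofReal_integral_eq_lintegral_ofReal]
  · rw [← lintegral_indicator (MeasurableSet.univ_pi hB)]
    refine lintegral_congr fun x => ?_
    by_cases hx : x ∈ Set.univ.pi B
    · rw [Set.indicator_of_mem hx]
      congr 1
      refine Finset.prod_congr rfl fun i _ => ?_
      rw [Set.indicator_of_mem (hx i (Set.mem_univ i))]
    · rw [Set.indicator_of_notMem hx]
      rw [Set.mem_univ_pi] at hx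
      push Not at hx
      obtain ⟨i, hi⟩ := hx
      rw [Finset.prod_eq_zero (Finset.mem_univ i) (Set.indicator_of_notMem hi f)]
      simp
  · refine Integrable.of_bound (C := |M| ^ n) ?_ (Filter.Eventually.of_forall fun x => ?_)
    · refine Measurable.aestronglyMeasurable ?_
      exact Finset.measurable_prod _ fun i _ =>
        (hf.indicator (hB i)).comp (measurable_pi_apply i)
    · rw [Real.norm_of_nonneg (Finset.prod_nonneg fun i _ => hind0 i (x i))]
      calc ∏ i, (B i).indicator f (x i) ≤ ∏ _i : Fin n, |M| := by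
            refine Finset.prod_le_prod (fun i _ => hind0 i (x i)) fun i _ => ?_
            refine Set.indicator_apply_le' (fun _ => (hfM _).trans (le_abs_self M)) fun _ => abs_nonneg M
        _ = |M| ^ n := by simp
  · exact Filter.Eventually.of_forall fun x => Finset.prod_nonneg fun i _ => hind0 i (x i)

lemma withDensity_pi {n : ℕ} {c : ℝ} (hc : 1 ≤ c) :
    (Measure.pi fun _ : Fin n => gaussianReal 0 1).withDensity
      (fun x => ENNReal.ofReal (∏ i, (c * Real.exp (-((c ^ 2 - 1) * x i ^ 2 / 2))))) =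
      (Measure.pi fun _ : Fin n => gaussianReal 0 1).map (fun x => c⁻¹ • x) := by
  have hc0 : 0 < c := by linarith
  have h1 : (Measure.pi fun _ : Fin n => gaussianReal 0 1).map (fun x => c⁻¹ • x) =
      Measure.pi fun _ : Fin n => gaussianReal 0 (sv c) := by
    have h2 := Measure.pi_map_pi (μ := fun _ : Fin n => gaussianReal 0 1)
      (f := fun _ t => c⁻¹ * t) (fun i => by fun_prop)
    rw [show (fun x : Fin n → ℝ => c⁻¹ • x) = fun x i => c⁻¹ * x i from rfl, h2]
    simp_rw [map_inv_mul_gauss]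
  rw [h1]
  refine (Measure.pi_eq fun B hB => ?_).symm
  rw [withDensity_apply _ (MeasurableSet.univ_pi hB)]
  rw [lintegral_prod_box (fun t => c * Real.exp (-((c ^ 2 - 1) * t ^ 2 / 2))) (by fun_prop)
    (fun t => by positivity) (M := c) (fun t => ?_) B hB]
  · exact Finset.prod_congr rfl fun i _ => (gauss_scale_one hc0 (hB i)).symm
  · have h3 : Real.exp (-((c ^ 2 - 1) * t ^ 2 / 2)) ≤ 1 := by
      refine Real.exp_le_one_iff.mpr ?_
      have : 0 ≤ (c ^ 2 - 1) * t ^ 2 := mul_nonneg (by nlinarith) (sq_nonneg t)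
      linarith
    nlinarith

/-- exponential moments of the squared norm on a cone -/
lemma cone_exp {n : ℕ} (A : Set (EuclideanSpace ℝ (Fin n))) (hA : MeasurableSet A)
    (hcone : ∀ x ∈ A, ∀ t : ℝ, 0 < t → t • x ∈ A) {c : ℝ} (hc : 1 ≤ c) :
    ∫⁻ x in A, ENNReal.ofReal (Real.exp (-((c ^ 2 - 1) * ‖x‖ ^ 2 / 2)))
        ∂(stdGaussian (EuclideanSpace ℝ (Fin n))) =
      ENNReal.ofReal ((c⁻¹) ^ n) * stdGaussian (EuclideanSpace ℝ (Fin n)) A := by
  have hc0 : 0 < c := by linarith
  have hmp : Measurable (WithLp.toLp 2 : (Fin n → ℝ) → EuclideanSpace ℝ (Fin n)) := by fun_prop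
  rw [← map_pi_eq_stdGaussian, Measure.map_apply hmp hA,
    setLIntegral_map hA (by fun_prop) hmp]
  set S : Set (Fin n → ℝ) := (WithLp.toLp 2 : (Fin n → ℝ) → EuclideanSpace ℝ (Fin n)) ⁻¹' A with hS
  have hSm : MeasurableSet S := hmp hA
  have h1 : (Measure.pi fun _ : Fin n => gaussianReal 0 1) S =
      ∫⁻ x in S, ENNReal.ofReal (∏ i, (c * Real.exp (-((c ^ 2 - 1) * x i ^ 2 / 2))))
        ∂(Measure.pi fun _ : Fin n => gaussianReal 0 1) := by
    rw [← withDensity_apply _ hSm, withDensity_pi hc, Measure.map_apply (by fun_prop) hSm]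
    congr 1
    ext x
    constructor
    · intro hx
      exact hcone _ hx (c⁻¹) (by positivity)
    · intro hx
      have h2 := hcone _ (show WithLp.toLp 2 (c⁻¹ • x) ∈ A from hx) c hc0
      have h3 : c • (WithLp.toLp 2 (c⁻¹ • x) : EuclideanSpace ℝ (Fin n)) = WithLp.toLp 2 x := by
        rw [WithLp.toLp_smul, smul_smul, mul_inv_cancel₀ hc0.ne', one_smul]
      rw [h3] at h2
      exact h2
  rw [h1, ← lintegral_const_mul' _ _ ENNReal.ofReal_ne_top]
  refine lintegral_congr fun x => ?_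
  rw [← ENNReal.ofReal_mul (by positivity)]
  congr 1
  rw [Finset.prod_mul_distrib, Finset.prod_const, Finset.card_univ, Fintype.card_fin,
    ← Real.exp_sum, ← mul_assoc, ← mul_pow, inv_mul_cancel₀ hc0.ne', one_pow, one_mul]
  congr 1
  rw [EuclideanSpace.norm_sq_eq]
  simp only [Real.norm_eq_abs, sq_abs]
  rw [Finset.sum_neg_distrib, Finset.mul_sum, Finset.sum_div]

end Vale.Agent.P226
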