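import Mathlib
import Vale.Agent.P226.Full.CapA

/-! [E1] independence of the norm and the direction: mean norm on a cone. -/

open MeasureTheory ProbabilityTheory Set
open scoped RealInnerProductSpace ENNReal NNReal

set_option linter.unusedSectionVars false

namespace Vale.Agent.P226

/-- the kernel -/
noncomputable def kG (σ : ℝ) : ℝ≥0∞ := ENNReal.ofReal ((1 - Real.exp (-(σ / 2))) * σ ^ (-(3 / 2) : ℝ))

/-- its integral -/
noncomputable def kap : ℝ≥0∞ := ∫⁻ σ in Ioi (0 : ℝ), kG σ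

lemma measurable_kG : Measurable kG := by
  unfold kG
  fun_prop

lemma kap_ne_top : kap ≠ ⊤ := by
  have h1 : ∫⁻ σ in Ioc (0 : ℝ) 1, kG σ < ⊤ := by
    have hi : IntegrableOn (fun σ : ℝ => σ ^ (-(1 / 2) : ℝ)) (Ioc 0 1) := by
      have := (intervalIntegral.intervalIntegrable_rpow' (a := 0) (b := 1)
        (r := -(1 / 2)) (by norm_num)).1
      exact this
    have h2 : ∫⁻ σ in Ioc (0 : ℝ) 1, kG σ ≤
        ∫⁻ σ in Ioc (0 : ℝ) 1, ENNReal.ofReal (σ ^ (-(1 / 2) : ℝ)) := by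
      refine setLIntegral_mono' measurableSet_Ioc fun σ hσ => ENNReal.ofReal_le_ofReal ?_
      have h3 := Real.add_one_le_exp (-(σ / 2))
      have h4 : σ ^ (-(1 / 2) : ℝ) = σ * σ ^ (-(3 / 2) : ℝ) := by
        have : (-(1 / 2) : ℝ) = 1 + (-(3 / 2)) := by norm_num
        rw [this, Real.rpow_add hσ.1, Real.rpow_one]
      rw [h4]
      have h5 : 0 ≤ σ ^ (-(3 / 2) : ℝ) := Real.rpow_nonneg hσ.1.le _
      have h6 : 1 - Real.exp (-(σ / 2)) ≤ σ := by linarith [hσ.1]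
      exact mul_le_mul_of_nonneg_right h6 h5
    exact lt_of_le_of_lt h2 hi.lintegral_lt_top
  have h2 : ∫⁻ σ in Ioi (1 : ℝ), kG σ < ⊤ := by
    have hi : IntegrableOn (fun σ : ℝ => σ ^ (-(3 / 2) : ℝ)) (Ioi 1) :=
      integrableOn_Ioi_rpow_of_lt (by norm_num) one_pos
    have h2 : ∫⁻ σ in Ioi (1 : ℝ), kG σ ≤
        ∫⁻ σ in Ioi (1 : ℝ), ENNReal.ofReal (σ ^ (-(3 / 2) : ℝ)) := by
      refine setLIntegral_mono' measurableSet_Ioi fun σ hσ => ENNReal.ofReal_le_ofReal ?_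
      have h5 : 0 ≤ σ ^ (-(3 / 2) : ℝ) := Real.rpow_nonneg (by linarith [mem_Ioi.mp hσ]) _
      have h6 : 1 - Real.exp (-(σ / 2)) ≤ 1 := by linarith [Real.exp_pos (-(σ / 2))]
      calc _ ≤ 1 * σ ^ (-(3 / 2) : ℝ) := mul_le_mul_of_nonneg_right h6 h5
        _ = _ := one_mul _
    exact lt_of_le_of_lt h2 hi.lintegral_lt_top
  have h3 : kap ≤ (∫⁻ σ in Ioc (0 : ℝ) 1, kG σ) + ∫⁻ σ in Ioi (1 : ℝ), kG σ := by
    unfold kap
    rw [← Ioc_union_Ioi_eq_Ioi (zero_le_one : (0:ℝ) ≤ 1)]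
    exact lintegral_union_le _ _ _
  exact ne_top_of_le_ne_top (ENNReal.add_ne_top.mpr ⟨h1.ne, h2.ne⟩) h3

lemma kap_ne_zero : kap ≠ 0 := by
  unfold kap
  rw [← pos_iff_ne_zero, setLIntegral_pos_iff measurable_kG]
  have h1 : Function.support kG ∩ Ioi 0 = Ioi 0 := by
    ext σ
    simp only [mem_inter_iff, Function.mem_support, mem_Ioi, and_iff_right_iff_imp]
    intro hσ
    unfold kG
    rw [Ne, ENNReal.ofReal_eq_zero, not_le]
    have h2 : Real.exp (-(σ / 2)) < Real.exp 0 := Real.exp_lt_exp.mpr (by linarith)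
    rw [Real.exp_zero] at h2
    exact mul_pos (by linarith) (Real.rpow_pos_of_pos hσ _)
  rw [h1]
  simp

lemma kernel_scale {ρ : ℝ} (hρ : 0 ≤ ρ) :
    ∫⁻ s in Ioi (0 : ℝ), ENNReal.ofReal ((1 - Real.exp (-(s * ρ ^ 2 / 2))) * s ^ (-(3 / 2) : ℝ)) =
      ENNReal.ofReal ρ * kap := by
  rcases hρ.eq_or_lt with h | h
  · subst h
    simp
  have hρ2 : 0 < ρ ^ 2 := by positivity
  have h1 : ∫⁻ s in Ioi (0 : ℝ), ENNReal.ofReal ((1 - Real.exp (-(s * ρ ^ 2 / 2))) *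
      s ^ (-(3 / 2) : ℝ)) = ∫⁻ s in Ioi (0 : ℝ), ENNReal.ofReal (ρ ^ 3) * kG (ρ ^ 2 * s) := by
    refine setLIntegral_congr_fun measurableSet_Ioi fun s hs => ?_
    have hs0 : (0:ℝ) < s := hs
    unfold kG
    rw [← ENNReal.ofReal_mul (by positivity)]
    congr 1
    have h2 : (ρ ^ 2 * s) ^ (-(3 / 2) : ℝ) = (ρ ^ 3)⁻¹ * s ^ (-(3 / 2) : ℝ) := by
      rw [Real.mul_rpow (by positivity) hs0.le]
      congr 1
      rw [Real.rpow_neg (by positivity), ← Real.rpow_natCast ρ 2, ← Real.rpow_mul h.le,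
        ← Real.rpow_natCast ρ 3]
      norm_num
    rw [h2]
    have e1 : ρ ^ 2 * s / 2 = s * ρ ^ 2 / 2 := by ring
    rw [e1]
    field_simp
  rw [h1, lintegral_const_mul' _ _ ENNReal.ofReal_ne_top]
  have h3 : ∫⁻ s in Ioi (0 : ℝ), kG (ρ ^ 2 * s) = ENNReal.ofReal ((ρ ^ 2)⁻¹) * kap := by
    have h4 : ∫⁻ s in Ioi (0 : ℝ), kG (ρ ^ 2 * s) =
        ∫⁻ s, (Ioi (0 : ℝ)).indicator kG (ρ ^ 2 * s) := by
      rw [← lintegral_indicator measurableSet_Ioi]
      refine lintegral_congr fun s => ?_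
      by_cases hs : 0 < s
      · rw [indicator_of_mem (mem_Ioi.mpr hs), indicator_of_mem (mem_Ioi.mpr (by positivity))]
      · rw [indicator_of_notMem (by simpa using hs), indicator_of_notMem]
        simp only [mem_Ioi, not_lt]
        exact mul_nonpos_of_nonneg_of_nonpos hρ2.le (not_lt.mp hs)
    rw [h4, ← lintegral_map (f := (Ioi (0 : ℝ)).indicator kG) (g := fun s => ρ ^ 2 * s)
      (measurable_kG.indicator measurableSet_Ioi) (by fun_prop),
      Real.map_volume_mul_left hρ2.ne', lintegral_smul_measure,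
      lintegral_indicator measurableSet_Ioi, abs_of_pos (inv_pos.mpr hρ2)]
    rfl
  rw [h3, ← mul_assoc, ← ENNReal.ofReal_mul (by positivity)]
  congr 2
  field_simp

lemma kap_cone {n : ℕ} (A : Set (EuclideanSpace ℝ (Fin n))) (hA : MeasurableSet A)
    (hcone : ∀ x ∈ A, ∀ t : ℝ, 0 < t → t • x ∈ A) :
    (∫⁻ x in A, ENNReal.ofReal ‖x‖ ∂(stdGaussian (EuclideanSpace ℝ (Fin n)))) * kap =
      stdGaussian (EuclideanSpace ℝ (Fin n)) A *
        ∫⁻ s in Ioi (0 : ℝ), ENNReal.ofReal ((1 - ((Real.sqrt (1 + s))⁻¹) ^ n) *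
          s ^ (-(3 / 2) : ℝ)) := by
  rw [← lintegral_mul_const' _ _ kap_ne_top]
  have h1 : ∀ x : EuclideanSpace ℝ (Fin n), ENNReal.ofReal ‖x‖ * kap =
      ∫⁻ s in Ioi (0 : ℝ), ENNReal.ofReal ((1 - Real.exp (-(s * ‖x‖ ^ 2 / 2))) *
        s ^ (-(3 / 2) : ℝ)) := fun x => (kernel_scale (norm_nonneg x)).symm
  simp_rw [h1]
  rw [lintegral_lintegral_swap (by
    refine Measurable.aemeasurable ?_
    unfold Function.uncurry
    fun_prop)]
  rw [← lintegral_const_mul' _ _ (measure_ne_top _ _)]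
  refine setLIntegral_congr_fun measurableSet_Ioi fun s hs => ?_
  have hs0 : (0:ℝ) < s := hs
  set c : ℝ := Real.sqrt (1 + s) with hc
  have hc2 : c ^ 2 - 1 = s := by rw [hc, Real.sq_sqrt (by linarith)]; ring
  have hc1 : 1 ≤ c := Real.one_le_sqrt.mpr (by linarith)
  have hc0 : 0 < c := by linarith
  have hexp := cone_exp A hA hcone hc1
  rw [hc2] at hexp
  have hle1 : ∀ x : EuclideanSpace ℝ (Fin n), Real.exp (-(s * ‖x‖ ^ 2 / 2)) ≤ 1 := by
    intro x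
    refine Real.exp_le_one_iff.mpr ?_
    have : 0 ≤ s * ‖x‖ ^ 2 := by positivity
    linarith
  have h2 : ∫⁻ x in A, ENNReal.ofReal ((1 - Real.exp (-(s * ‖x‖ ^ 2 / 2))) * s ^ (-(3 / 2) : ℝ))
      ∂(stdGaussian (EuclideanSpace ℝ (Fin n))) =
      ENNReal.ofReal (s ^ (-(3 / 2) : ℝ)) * ∫⁻ x in A, (1 - ENNReal.ofReal
        (Real.exp (-(s * ‖x‖ ^ 2 / 2)))) ∂(stdGaussian (EuclideanSpace ℝ (Fin n))) := by
    rw [← lintegral_const_mul' _ _ ENNReal.ofReal_ne_top]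
    refine lintegral_congr fun x => ?_
    rw [mul_comm, ENNReal.ofReal_mul (Real.rpow_nonneg hs0.le _),
      ENNReal.ofReal_sub _ (Real.exp_pos _).le, ENNReal.ofReal_one]
  have hfin : ENNReal.ofReal ((c⁻¹) ^ n) * stdGaussian (EuclideanSpace ℝ (Fin n)) A ≠ ⊤ :=
    ENNReal.mul_ne_top ENNReal.ofReal_ne_top (measure_ne_top _ _)
  rw [h2, lintegral_sub (by fun_prop) (by rw [hexp]; exact hfin)
    (Filter.Eventually.of_forall fun x => by
      rw [← ENNReal.ofReal_one]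
      exact ENNReal.ofReal_le_ofReal (hle1 x)), hexp]
  have hpow : (c⁻¹) ^ n ≤ 1 := pow_le_one₀ (by positivity) (inv_le_one_of_one_le₀ hc1)
  have h3 : ENNReal.ofReal ((1 - (c⁻¹) ^ n) * s ^ (-(3 / 2) : ℝ)) =
      (1 - ENNReal.ofReal ((c⁻¹) ^ n)) * ENNReal.ofReal (s ^ (-(3 / 2) : ℝ)) := by
    rw [ENNReal.ofReal_mul (by linarith), ENNReal.ofReal_sub _ (by positivity), ENNReal.ofReal_one]
  rw [h3]
  simp only [lintegral_const, one_mul, Measure.restrict_apply_univ]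
  have h4 : stdGaussian (EuclideanSpace ℝ (Fin n)) A -
      ENNReal.ofReal ((c⁻¹) ^ n) * stdGaussian (EuclideanSpace ℝ (Fin n)) A =
      stdGaussian (EuclideanSpace ℝ (Fin n)) A * (1 - ENNReal.ofReal ((c⁻¹) ^ n)) := by
    rw [ENNReal.mul_sub (fun _ _ => measure_ne_top _ _), mul_one, mul_comm (ENNReal.ofReal _)]
  rw [h4]
  ring

end Vale.Agent.P226
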