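import Mathlib
import Vale.Agent.P226.Full.CapB

/-! [E1], [E2], [E4], [G]: cap inequality for cones. -/

open MeasureTheory ProbabilityTheory Set
open scoped RealInnerProductSpace ENNReal NNReal

set_option linter.unusedSectionVars false

namespace Vale.Agent.P226

/-- [E1] for a measurable cone, `‖x‖` is independent of the event `x ∈ A`. -/
theorem cone_norm {n : ℕ} (A : Set (EuclideanSpace ℝ (Fin n))) (hA : MeasurableSet A)
    (hcone : ∀ x ∈ A, ∀ t : ℝ, 0 < t → t • x ∈ A) :
    ∫ x in A, ‖x‖ ∂(stdGaussian (EuclideanSpace ℝ (Fin n))) =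
      (∫ x, ‖x‖ ∂(stdGaussian (EuclideanSpace ℝ (Fin n)))) *
        (stdGaussian (EuclideanSpace ℝ (Fin n))).real A := by
  have h1 := kap_cone A hA hcone
  have h2 := kap_cone (univ : Set (EuclideanSpace ℝ (Fin n))) MeasurableSet.univ
    (fun _ _ _ _ => mem_univ _)
  rw [measure_univ, one_mul, Measure.restrict_univ] at h2
  rw [← h2, ← mul_assoc] at h1
  have h3 := (ENNReal.mul_left_inj kap_ne_zero kap_ne_top).mp h1
  rw [integral_eq_lintegral_of_nonneg_ae (Filter.Eventually.of_forall fun x => norm_nonneg x)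
    (by fun_prop), integral_eq_lintegral_of_nonneg_ae
    (Filter.Eventually.of_forall fun x => norm_nonneg x) (by fun_prop), h3, ENNReal.toReal_mul,
    measureReal_def, mul_comm]

lemma gauss_exp {c : ℝ} (hc : 0 < c) :
    ∫⁻ t, ENNReal.ofReal (Real.exp (-((c ^ 2 - 1) * t ^ 2 / 2))) ∂(gaussianReal 0 1) =
      ENNReal.ofReal c⁻¹ := by
  have h1 := gauss_scale_one hc MeasurableSet.univ
  have h2 : IsProbabilityMeasure (gaussianReal 0 (sv c)) := inferInstance
  rw [measure_univ, Measure.restrict_univ] at h1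
  have h3 : ∫⁻ t, ENNReal.ofReal (c * Real.exp (-((c ^ 2 - 1) * t ^ 2 / 2))) ∂(gaussianReal 0 1) =
      ENNReal.ofReal c * ∫⁻ t, ENNReal.ofReal (Real.exp (-((c ^ 2 - 1) * t ^ 2 / 2)))
        ∂(gaussianReal 0 1) := by
    rw [← lintegral_const_mul' _ _ ENNReal.ofReal_ne_top]
    exact lintegral_congr fun t => ENNReal.ofReal_mul hc.le
  rw [h3] at h1
  rw [ENNReal.ofReal_inv_of_pos hc]
  exact ENNReal.eq_inv_of_mul_eq_one_left (by rw [mul_comm]; exact h1.symm)

section perp

variable {n : ℕ} (e : EuclideanSpace ℝ (Fin n)) (he : ‖e‖ = 1)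

lemma norm_split_sq {E : Type*} [NormedAddCommGroup E] [InnerProductSpace ℝ E] [FiniteDimensional ℝ E]
    [MeasurableSpace E] [BorelSpace E] (e : E) (he : ‖e‖ = 1) (s : ℝ) (x : E) :
    ‖split e (s, x)‖ ^ 2 = s ^ 2 + ‖x - ⟪e, x⟫ • e‖ ^ 2 := by
  have h1 : ⟪e, x - ⟪e, x⟫ • e⟫ = 0 := by
    rw [inner_sub_right, inner_smul_right, real_inner_self_eq_norm_sq, he]
    ring
  unfold split
  rw [norm_add_sq_real, inner_smul_left, h1, norm_smul, he]
  simp

lemma lintegral_split {E : Type*} [NormedAddCommGroup E] [InnerProductSpace ℝ E]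
    [FiniteDimensional ℝ E] [MeasurableSpace E] [BorelSpace E] (e : E) (he : ‖e‖ = 1)
    {f : E → ℝ≥0∞} (hf : Measurable f) :
    ∫⁻ x, f x ∂(stdGaussian E) =
      ∫⁻ x, ∫⁻ s, f (split e (s, x)) ∂(gaussianReal 0 1) ∂(stdGaussian E) := by
  conv_lhs => rw [← map_split e he]
  rw [lintegral_map hf (measurable_split e),
    lintegral_prod_symm (fun p => f (split e p)) ((hf.comp (measurable_split e)).aemeasurable)]

include he in
lemma perp_exp {c : ℝ} (hc : 1 ≤ c) :
    ∫⁻ x, ENNReal.ofReal (Real.exp (-((c ^ 2 - 1) * ‖x - ⟪e, x⟫ • e‖ ^ 2 / 2)))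
      ∂(stdGaussian (EuclideanSpace ℝ (Fin n))) = ENNReal.ofReal ((c⁻¹) ^ (n - 1)) := by
  have hc0 : 0 < c := by linarith
  have hn : 1 ≤ n := by
    rcases Nat.eq_zero_or_pos n with h | h
    · subst h
      have : e = 0 := Subsingleton.elim _ _
      rw [this, norm_zero] at he
      exact absurd he zero_ne_one
    · exact h
  have h1 := cone_exp (univ : Set (EuclideanSpace ℝ (Fin n))) MeasurableSet.univ
    (fun _ _ _ _ => mem_univ _) hc
  rw [Measure.restrict_univ, measure_univ, mul_one, lintegral_split e he (by fun_prop)] at h1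
  have h2 : ∀ x : EuclideanSpace ℝ (Fin n), ∫⁻ s, ENNReal.ofReal (Real.exp (-((c ^ 2 - 1) *
      ‖split e (s, x)‖ ^ 2 / 2))) ∂(gaussianReal 0 1) = ENNReal.ofReal (Real.exp (-((c ^ 2 - 1) *
        ‖x - ⟪e, x⟫ • e‖ ^ 2 / 2))) * ENNReal.ofReal c⁻¹ := by
    intro x
    rw [← gauss_exp hc0, ← lintegral_const_mul' _ _ ENNReal.ofReal_ne_top]
    refine lintegral_congr fun s => ?_
    rw [← ENNReal.ofReal_mul (Real.exp_pos _).le, ← Real.exp_add, norm_split_sq e he]
    congr 2
    ring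
  simp_rw [h2] at h1
  rw [lintegral_mul_const' _ _ ENNReal.ofReal_ne_top] at h1
  have h3 : ENNReal.ofReal ((c⁻¹) ^ n) = ENNReal.ofReal ((c⁻¹) ^ (n - 1)) * ENNReal.ofReal c⁻¹ := by
    rw [← ENNReal.ofReal_mul (by positivity), ← pow_succ, Nat.sub_add_cancel hn]
  rw [h3] at h1
  have hc' : ENNReal.ofReal c⁻¹ ≠ 0 := by
    rw [Ne, ENNReal.ofReal_eq_zero, not_le]; positivity
  exact (ENNReal.mul_left_inj hc' ENNReal.ofReal_ne_top).mp h1

lemma half_line (N : ℝ) (hN : 0 ≤ N) :
    ∫⁻ s, (Ici N).indicator (fun s => ENNReal.ofReal s) s ∂(gaussianReal 0 1) =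
      ENNReal.ofReal (phi N) := by
  rw [lintegral_indicator measurableSet_Ici, ← integral_Ici_id N,
    ofReal_integral_eq_lintegral_ofReal]
  · exact (by simpa using integrable_pow_gauss 1 : Integrable (fun s : ℝ => s)
      (gaussianReal 0 1)).integrableOn
  · refine (ae_restrict_iff' measurableSet_Ici).mpr (Filter.Eventually.of_forall fun s hs => ?_)
    exact hN.trans hs

include he in
lemma cap_inner {t : ℝ} (ht0 : 0 < t) (ht1 : t < 1) :
    ∫⁻ x, ({x | t * ‖x‖ ≤ ⟪e, x⟫} : Set (EuclideanSpace ℝ (Fin n))).indicator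
      (fun x => ENNReal.ofReal ⟪e, x⟫) x ∂(stdGaussian (EuclideanSpace ℝ (Fin n))) =
      ENNReal.ofReal (phi 0 * Real.sqrt (1 - t ^ 2) ^ (n - 1)) := by
  have hset : MeasurableSet ({x | t * ‖x‖ ≤ ⟪e, x⟫} : Set (EuclideanSpace ℝ (Fin n))) :=
    measurableSet_le (by fun_prop) (by fun_prop)
  have ht2 : 0 < 1 - t ^ 2 := by nlinarith
  set w : ℝ := Real.sqrt (1 - t ^ 2) with hw
  have hw0 : 0 < w := Real.sqrt_pos.mpr ht2
  have hw2 : w ^ 2 = 1 - t ^ 2 := Real.sq_sqrt ht2.le
  have hw1 : w ≤ 1 := by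
    rw [hw]
    exact Real.sqrt_le_one.mpr (by nlinarith)
  set κ : ℝ := t / w with hκ
  have hκ0 : 0 < κ := div_pos ht0 hw0
  have hmeasf : Measurable (({x | t * ‖x‖ ≤ ⟪e, x⟫} : Set (EuclideanSpace ℝ (Fin n))).indicator
      (fun x => ENNReal.ofReal ⟪e, x⟫)) :=
    (by fun_prop : Measurable fun x : EuclideanSpace ℝ (Fin n) => ENNReal.ofReal ⟪e, x⟫).indicator
      hset
  rw [lintegral_split e he hmeasf]
  have hin : ∀ x : EuclideanSpace ℝ (Fin n), ∫⁻ s,
      ({x | t * ‖x‖ ≤ ⟪e, x⟫} : Set (EuclideanSpace ℝ (Fin n))).indicator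
      (fun x => ENNReal.ofReal ⟪e, x⟫) (split e (s, x)) ∂(gaussianReal 0 1) =
      ENNReal.ofReal (phi 0) * ENNReal.ofReal (Real.exp (-(((w⁻¹) ^ 2 - 1) *
        ‖x - ⟪e, x⟫ • e‖ ^ 2 / 2))) := by
    intro x
    set r : ℝ := ‖x - ⟪e, x⟫ • e‖ with hr
    have hr0 : 0 ≤ r := norm_nonneg _
    have h1 : ∀ s : ℝ, ({x | t * ‖x‖ ≤ ⟪e, x⟫} : Set (EuclideanSpace ℝ (Fin n))).indicator
        (fun x => ENNReal.ofReal ⟪e, x⟫) (split e (s, x)) =
        (Ici (κ * r)).indicator (fun s => ENNReal.ofReal s) s := by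
      intro s
      have hiff : split e (s, x) ∈ ({x | t * ‖x‖ ≤ ⟪e, x⟫} : Set (EuclideanSpace ℝ (Fin n))) ↔
          s ∈ Ici (κ * r) := by
        change t * ‖split e (s, x)‖ ≤ ⟪e, split e (s, x)⟫ ↔ κ * r ≤ s
        rw [inner_split_self e he]
        have hns := norm_split_sq e he s x
        rw [← hr] at hns
        have hnn := norm_nonneg (split e (s, x))
        have hk : κ * w = t := by rw [hκ]; field_simp
        constructor
        · intro h
          have hs0 : 0 ≤ s := le_trans (by positivity) h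
          have h2 : t ^ 2 * (s ^ 2 + r ^ 2) ≤ s ^ 2 := by
            rw [← hns, ← mul_pow]
            exact pow_le_pow_left₀ (by positivity) h 2
          have h3 : (κ * r * w) ^ 2 ≤ (s * w) ^ 2 := by
            have : κ * r * w = t * r := by rw [← hk]; ring
            rw [this, mul_pow, mul_pow, hw2]
            nlinarith
          have h4 : κ * r * w ≤ s * w := by
            exact le_of_sq_le_sq h3 (by positivity)
          exact le_of_mul_le_mul_right h4 hw0
        · intro h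
          have hs0 : 0 ≤ s := le_trans (by positivity) h
          have h2 : (t * r) ^ 2 ≤ (s * w) ^ 2 := by
            refine pow_le_pow_left₀ (by positivity) ?_ 2
            calc t * r = κ * r * w := by rw [← hk]; ring
              _ ≤ s * w := mul_le_mul_of_nonneg_right h hw0.le
          rw [mul_pow, mul_pow, hw2] at h2
          refine le_of_sq_le_sq ?_ hs0
          rw [mul_pow, hns]
          nlinarith
      by_cases hs : s ∈ Ici (κ * r)
      · rw [indicator_of_mem hs, indicator_of_mem (hiff.mpr hs), inner_split_self e he]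
      · rw [indicator_of_notMem hs, indicator_of_notMem (fun h => hs (hiff.mp h))]
    simp_rw [h1]
    rw [half_line _ (by positivity), ← ENNReal.ofReal_mul (phi_nonneg 0)]
    congr 1
    rw [phi_eq, phi_eq]
    have h5 : (w⁻¹) ^ 2 - 1 = κ ^ 2 := by
      rw [hκ, div_pow, inv_pow]
      field_simp
      linarith
    rw [h5]
    have h6 : Real.exp (-(0:ℝ) ^ 2 / 2) = 1 := by simp
    rw [h6, mul_one]
    congr 2
    ring
  simp_rw [hin]
  rw [lintegral_const_mul' _ _ ENNReal.ofReal_ne_top, perp_exp e he (one_le_inv₀ hw0 |>.mpr hw1),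
    inv_inv, ← ENNReal.ofReal_mul (phi_nonneg 0)]

end perp

/-- pointwise representation of the positive part -/
lemma pos_part_repr {c ξ ρ : ℝ} (hc0 : 0 < c) (hξ : |ξ| ≤ ρ) :
    ∫⁻ t in Ioc c 1, ENNReal.ofReal (c / t ^ 2) * ({t | t * ρ ≤ ξ} : Set ℝ).indicator
      (fun _ => ENNReal.ofReal ξ) t = ENNReal.ofReal (max 0 (ξ - c * ρ)) := by
  have hρ0 : 0 ≤ ρ := (abs_nonneg ξ).trans hξ
  obtain ⟨hξ1, hξ2⟩ := abs_le.mp hξ
  by_cases h : ξ ≤ c * ρ
  · rw [max_eq_left (by linarith), ENNReal.ofReal_zero]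
    rw [setLIntegral_congr_fun (g := fun _ => 0) measurableSet_Ioc fun t ht => ?_]
    · simp
    · by_cases htm : t * ρ ≤ ξ
      · have h1 : (t - c) * ρ ≤ 0 := by linarith
        have h2 : ρ ≤ 0 := by
          by_contra hcon
          push Not at hcon
          have := mul_pos (sub_pos.mpr ht.1) hcon
          linarith
        have h3 : ξ = 0 := by
          have : ρ = 0 := le_antisymm h2 hρ0
          rw [this] at hξ1 hξ2
          linarith
        simp [h3]
      · simp only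
        rw [indicator_of_notMem (by exact htm), mul_zero]
  · push Not at h
    have hξ0 : 0 < ξ := lt_of_le_of_lt (by positivity) h
    have hρ : 0 < ρ := lt_of_lt_of_le hξ0 hξ2
    rw [max_eq_right (by linarith)]
    set b : ℝ := ξ / ρ with hb
    have hb1 : b ≤ 1 := by rw [hb, div_le_one hρ]; exact hξ2
    have hcb : c < b := by rw [hb, lt_div_iff₀ hρ]; exact h
    have h1 : ∫⁻ t in Ioc c 1, ENNReal.ofReal (c / t ^ 2) * ({t | t * ρ ≤ ξ} : Set ℝ).indicator
        (fun _ => ENNReal.ofReal ξ) t = ∫⁻ t in Ioc c b, ENNReal.ofReal (c * ξ * t ^ (-2 : ℤ)) := by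
      rw [← lintegral_indicator measurableSet_Ioc, ← lintegral_indicator measurableSet_Ioc]
      refine lintegral_congr fun t => ?_
      by_cases ht : t ∈ Ioc c b
      · have htm : t * ρ ≤ ξ := by
          have := ht.2
          rw [hb, le_div_iff₀ hρ] at this
          exact this
        have ht0 : 0 < t := hc0.trans ht.1
        rw [indicator_of_mem ht, indicator_of_mem (show t ∈ Ioc c 1 from ⟨ht.1, ht.2.trans hb1⟩),
          indicator_of_mem (by exact htm), ← ENNReal.ofReal_mul (by positivity)]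
        congr 1
        rw [zpow_neg]
        norm_cast
        field_simp
      · rw [indicator_of_notMem ht]
        by_cases ht1 : t ∈ Ioc c 1
        · rw [indicator_of_mem ht1]
          have htm : ¬ t * ρ ≤ ξ := by
            intro h2
            apply ht
            refine ⟨ht1.1, ?_⟩
            rw [hb, le_div_iff₀ hρ]
            exact h2
          rw [indicator_of_notMem (by exact htm), mul_zero]
        · rw [indicator_of_notMem ht1]
    rw [h1]
    have hne : (0:ℝ) ∉ Set.uIcc c b := by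
      rw [Set.uIcc_of_le hcb.le]
      intro h2
      linarith [h2.1]
    have hcont : ContinuousOn (fun t : ℝ => c * ξ * t ^ (-2 : ℤ)) (Set.uIcc c b) := by
      refine ContinuousOn.mul continuousOn_const ?_
      refine ContinuousOn.zpow₀ continuousOn_id (-2) fun t ht => Or.inl ?_
      intro h2
      exact hne (h2 ▸ ht)
    rw [← ofReal_integral_eq_lintegral_ofReal]
    · congr 1
      rw [← intervalIntegral.integral_of_le hcb.le, intervalIntegral.integral_const_mul,
        integral_zpow (Or.inr ⟨by norm_num, hne⟩)]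
      have e1 : (-2 : ℤ) + 1 = -1 := by norm_num
      rw [e1, zpow_neg_one, zpow_neg_one, hb]
      push_cast
      field_simp
      ring
    · exact (hcont.intervalIntegrable).1
    · refine (ae_restrict_iff' measurableSet_Ioc).mpr (Filter.Eventually.of_forall fun t ht => ?_)
      have : 0 < t := hc0.trans ht.1
      positivity

/-- [E2] -/
theorem cap_int {n : ℕ} (hn : 2 ≤ n) (e : EuclideanSpace ℝ (Fin n)) (he : ‖e‖ = 1) {c : ℝ}
    (hc0 : 0 < c) (hc1 : c < 1) :
    ∫ x, max 0 (⟪e, x⟫ - c * ‖x‖) ∂(stdGaussian (EuclideanSpace ℝ (Fin n))) =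
      c * phi 0 * ∫ t in c..1, (1 - t ^ 2) ^ (((n : ℝ) - 1) / 2) / t ^ 2 := by
  have hexp0 : 0 < ((n : ℝ) - 1) / 2 := by
    have : (2:ℝ) ≤ n := by exact_mod_cast hn
    linarith
  have hpow : ∀ t : ℝ, 0 < t → t ≤ 1 → Real.sqrt (1 - t ^ 2) ^ (n - 1) =
      (1 - t ^ 2) ^ (((n : ℝ) - 1) / 2) := by
    intro t ht0 ht1
    have h0 : 0 ≤ 1 - t ^ 2 := by nlinarith
    rw [Real.sqrt_eq_rpow, ← Real.rpow_natCast, ← Real.rpow_mul h0]
    congr 1
    rw [Nat.cast_sub (by omega)]
    push_cast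
    ring
  rw [integral_eq_lintegral_of_nonneg_ae
    (f := fun x : EuclideanSpace ℝ (Fin n) => max 0 (⟪e, x⟫ - c * ‖x‖))
    (Filter.Eventually.of_forall fun x => le_max_left (0 : ℝ) (⟪e, x⟫ - c * ‖x‖))
    (by fun_prop)]
  have h1 : ∀ x : EuclideanSpace ℝ (Fin n), ENNReal.ofReal (max 0 (⟪e, x⟫ - c * ‖x‖)) =
      ∫⁻ t in Ioc c 1, ENNReal.ofReal (c / t ^ 2) *
        ({x | t * ‖x‖ ≤ ⟪e, x⟫} : Set (EuclideanSpace ℝ (Fin n))).indicator
          (fun x => ENNReal.ofReal ⟪e, x⟫) x := by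
    intro x
    have h2 : |⟪e, x⟫| ≤ ‖x‖ := by
      have := abs_real_inner_le_norm e x
      rwa [he, one_mul] at this
    rw [← pos_part_repr hc0 h2]
    rfl
  simp_rw [h1]
  have hmeas : Measurable (Function.uncurry fun (x : EuclideanSpace ℝ (Fin n)) (t : ℝ) =>
      ENNReal.ofReal (c / t ^ 2) *
        ({x | t * ‖x‖ ≤ ⟪e, x⟫} : Set (EuclideanSpace ℝ (Fin n))).indicator
          (fun x => ENNReal.ofReal ⟪e, x⟫) x) := by
    have hs : MeasurableSet {p : EuclideanSpace ℝ (Fin n) × ℝ | p.2 * ‖p.1‖ ≤ ⟪e, p.1⟫} :=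
      measurableSet_le (by fun_prop) (by fun_prop)
    have h3 : (Function.uncurry fun (x : EuclideanSpace ℝ (Fin n)) (t : ℝ) =>
      ENNReal.ofReal (c / t ^ 2) *
        ({x | t * ‖x‖ ≤ ⟪e, x⟫} : Set (EuclideanSpace ℝ (Fin n))).indicator
          (fun x => ENNReal.ofReal ⟪e, x⟫) x) = fun p => ENNReal.ofReal (c / p.2 ^ 2) *
        ({p : EuclideanSpace ℝ (Fin n) × ℝ | p.2 * ‖p.1‖ ≤ ⟪e, p.1⟫}).indicator
          (fun p => ENNReal.ofReal ⟪e, p.1⟫) p := by
      ext p
      rfl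
    rw [h3]
    refine Measurable.mul (by fun_prop) ?_
    exact (by fun_prop : Measurable fun p : EuclideanSpace ℝ (Fin n) × ℝ =>
      ENNReal.ofReal ⟪e, p.1⟫).indicator hs
  rw [lintegral_lintegral_swap hmeas.aemeasurable]
  have h4 : ∫⁻ t in Ioc c 1, ∫⁻ x, ENNReal.ofReal (c / t ^ 2) *
        ({x | t * ‖x‖ ≤ ⟪e, x⟫} : Set (EuclideanSpace ℝ (Fin n))).indicator
          (fun x => ENNReal.ofReal ⟪e, x⟫) x ∂(stdGaussian (EuclideanSpace ℝ (Fin n))) =
      ∫⁻ t in Ioc c 1, ENNReal.ofReal (c * phi 0 *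
        ((1 - t ^ 2) ^ (((n : ℝ) - 1) / 2) / t ^ 2)) := by
    have hae : Ioo c 1 =ᵐ[volume] Ioc c 1 := Ioo_ae_eq_Ioc
    rw [← setLIntegral_congr hae, ← setLIntegral_congr hae]
    refine setLIntegral_congr_fun measurableSet_Ioo fun t ht => ?_
    have ht0 : 0 < t := hc0.trans ht.1
    simp only
    rw [lintegral_const_mul' _ _ ENNReal.ofReal_ne_top, cap_inner e he ht0 ht.2,
      ← ENNReal.ofReal_mul (by positivity), hpow t ht0 ht.2.le]
    congr 1
    ring
  rw [h4]
  have hcont : ContinuousOn (fun t : ℝ => c * phi 0 *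
      ((1 - t ^ 2) ^ (((n : ℝ) - 1) / 2) / t ^ 2)) (Set.uIcc c 1) := by
    rw [Set.uIcc_of_le hc1.le]
    refine ContinuousOn.mul continuousOn_const (ContinuousOn.div ?_ (by fun_prop) fun t ht => ?_)
    · refine ContinuousOn.rpow_const (by fun_prop) fun t ht => Or.inr hexp0.le
    · have : 0 < t := hc0.trans_le ht.1
      positivity
  rw [← ofReal_integral_eq_lintegral_ofReal (hcont.intervalIntegrable).1, ENNReal.toReal_ofReal,
    ← intervalIntegral.integral_of_le hc1.le, intervalIntegral.integral_const_mul]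
  · refine setIntegral_nonneg measurableSet_Ioc fun t ht => ?_
    have : 0 < t := hc0.trans ht.1
    have h5 : 0 ≤ (1 - t ^ 2) ^ (((n : ℝ) - 1) / 2) := Real.rpow_nonneg (by nlinarith [ht.2]) _
    have := phi_nonneg 0
    positivity
  · refine (ae_restrict_iff' measurableSet_Ioc).mpr (Filter.Eventually.of_forall fun t ht => ?_)
    have : 0 < t := hc0.trans ht.1
    have h5 : 0 ≤ (1 - t ^ 2) ^ (((n : ℝ) - 1) / 2) := Real.rpow_nonneg (by nlinarith [ht.2]) _
    have := phi_nonneg 0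
    simp only [Pi.zero_apply]
    positivity

end Vale.Agent.P226
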