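import Mathlib
import Vale.Agent.P226.Full.CapC

/-! [E4], [G]: the cap inequality and the half space inequality for the cells. -/

open MeasureTheory ProbabilityTheory Set
open scoped RealInnerProductSpace ENNReal NNReal

set_option linter.unusedSectionVars false

namespace Vale.Agent.P226

variable {E : Type*} [NormedAddCommGroup E] [InnerProductSpace ℝ E] [FiniteDimensional ℝ E]
  [MeasurableSpace E] [BorelSpace E] {ι : Type*} [Fintype ι] [DecidableEq ι]

/-- [E4] the cap inequality for the cells. -/
theorem Opt.cap {n : ℕ} {u : ι → EuclideanSpace ℝ (Fin n)} [Nontrivial ι] (hu : Opt u) (hn : 2 ≤ n)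
    (i : ι) {c : ℝ} (hc0 : 0 < c) (hc1 : c < 1) :
    ‖u i‖ ≤ c * (∫ x, ‖x‖ ∂(stdGaussian (EuclideanSpace ℝ (Fin n)))) * pr u i +
      c * phi 0 * ∫ t in c..1, (1 - t ^ 2) ^ (((n : ℝ) - 1) / 2) / t ^ 2 := by
  have hcone : ∀ x ∈ cone u i, ∀ t : ℝ, 0 < t → t • x ∈ cone u i := by
    intro x hx t ht l
    rw [inner_smul_right]
    exact mul_nonneg ht.le (hx l)
  have h1 := cone_norm (cone u i) (measurableSet_cone u i) hcone
  have h2 := cap_int hn (dir u i) (hu.norm_dir i) hc0 hc1
  have hmax : Integrable (fun x => max 0 (⟪dir u i, x⟫ - c * ‖x‖))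
      (stdGaussian (EuclideanSpace ℝ (Fin n))) := by
    have h3 := ((integrable_inner (dir u i)).sub (integrable_normE.const_mul c)).pos_part
    refine h3.congr (Filter.Eventually.of_forall fun x => ?_)
    simp only [Pi.sub_apply]
    exact max_comm _ _
  rw [hu.norm_eq i]
  calc ∫ x in cone u i, ⟪dir u i, x⟫ ∂(stdGaussian (EuclideanSpace ℝ (Fin n)))
      ≤ ∫ x in cone u i, (c * ‖x‖ + max 0 (⟪dir u i, x⟫ - c * ‖x‖))
          ∂(stdGaussian (EuclideanSpace ℝ (Fin n))) := by
        refine setIntegral_mono (integrable_inner _).integrableOn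
          ((integrable_normE.const_mul c).add hmax).integrableOn fun x => ?_
        have := le_max_right 0 (⟪dir u i, x⟫ - c * ‖x‖)
        simp only
        linarith
    _ = c * (∫ x in cone u i, ‖x‖ ∂(stdGaussian (EuclideanSpace ℝ (Fin n)))) +
          ∫ x in cone u i, max 0 (⟪dir u i, x⟫ - c * ‖x‖)
            ∂(stdGaussian (EuclideanSpace ℝ (Fin n))) := by
        rw [integral_add (integrable_normE.const_mul c).integrableOn hmax.integrableOn,
          integral_const_mul]
    _ ≤ c * (∫ x in cone u i, ‖x‖ ∂(stdGaussian (EuclideanSpace ℝ (Fin n)))) +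
          ∫ x, max 0 (⟪dir u i, x⟫ - c * ‖x‖) ∂(stdGaussian (EuclideanSpace ℝ (Fin n))) := by
        refine add_le_add le_rfl ?_
        exact setIntegral_le_integral hmax
          (Filter.Eventually.of_forall fun x => le_max_left (0:ℝ) (⟪dir u i, x⟫ - c * ‖x‖))
    _ = _ := by
        rw [h1, h2]
        unfold pr
        ring

lemma integral_pos_part (l : ℝ) :
    ∫ s, max 0 (s - l) ∂(gaussianReal 0 1) = phi l - l * ∫ s in Ioi l, phi s := by
  have h1 : ∀ s : ℝ, max 0 (s - l) = (Ici l).indicator (fun s => s - l) s := by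
    intro s
    by_cases hs : l ≤ s
    · rw [indicator_of_mem (mem_Ici.mpr hs), max_eq_right (by linarith)]
    · rw [indicator_of_notMem (by simpa using hs), max_eq_left (by linarith)]
  simp_rw [h1]
  have hid : Integrable (fun s : ℝ => s) (gaussianReal 0 1) := by
    simpa using integrable_pow_gauss 1
  rw [integral_indicator measurableSet_Ici, integral_sub hid.integrableOn
    (integrable_const l).integrableOn, integral_Ici_id, ← real_Ici]
  simp [mul_comm]

/-- [G] the half space inequality: `‖u i‖ ≤ l p_i + φ(l) - l Φ(-l)`. -/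
theorem Opt.half {u : ι → E} [Nontrivial ι] (hu : Opt u) (i : ι) (l : ℝ) (_hl : 0 ≤ l) :
    ‖u i‖ ≤ l * pr u i + (phi l - l * ∫ s in Ioi l, phi s) := by
  have hmax : Integrable (fun x => max 0 (⟪dir u i, x⟫ - l)) (stdGaussian E) := by
    have h3 := ((integrable_inner (dir u i)).sub (integrable_const l)).pos_part
    refine h3.congr (Filter.Eventually.of_forall fun x => ?_)
    simp only [Pi.sub_apply]
    exact max_comm _ _
  have h2 : ∫ x, max 0 (⟪dir u i, x⟫ - l) ∂(stdGaussian E) =
      phi l - l * ∫ s in Ioi l, phi s := by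
    rw [← integral_pos_part, ← map_inner_unit (dir u i) (hu.norm_dir i),
      integral_map (by fun_prop) (by fun_prop)]
  rw [hu.norm_eq i]
  calc ∫ x in cone u i, ⟪dir u i, x⟫ ∂(stdGaussian E)
      ≤ ∫ x in cone u i, (l + max 0 (⟪dir u i, x⟫ - l)) ∂(stdGaussian E) := by
        refine setIntegral_mono (integrable_inner _).integrableOn
          ((integrable_const l).add hmax).integrableOn fun x => ?_
        have := le_max_right 0 (⟪dir u i, x⟫ - l)
        simp only
        linarith
    _ = l * pr u i + ∫ x in cone u i, max 0 (⟪dir u i, x⟫ - l) ∂(stdGaussian E) := by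
        rw [integral_add (integrable_const l).integrableOn hmax.integrableOn]
        unfold pr
        simp [mul_comm]
    _ ≤ l * pr u i + ∫ x, max 0 (⟪dir u i, x⟫ - l) ∂(stdGaussian E) := by
        refine add_le_add le_rfl ?_
        exact setIntegral_le_integral hmax
          (Filter.Eventually.of_forall fun x => le_max_left (0:ℝ) (⟪dir u i, x⟫ - l))
    _ = _ := by rw [h2]

end Vale.Agent.P226
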