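import Mathlib
import Vale.Agent.P226.Full.Base

/-! [E3] the density of the standard Gaussian and mean norms. -/

open MeasureTheory ProbabilityTheory Set
open scoped RealInnerProductSpace ENNReal NNReal

set_option linter.unusedSectionVars false

namespace Vale.Agent.P226

variable {E : Type*} [NormedAddCommGroup E] [InnerProductSpace ℝ E] [FiniteDimensional ℝ E]
  [MeasurableSpace E] [BorelSpace E]

/-- normalising constant of the density of the standard Gaussian measure of `E` -/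
noncomputable def gcst (E : Type*) [NormedAddCommGroup E] [InnerProductSpace ℝ E] : ℝ :=
  ((2 * Real.pi) ^ ((Module.finrank ℝ E : ℝ) / 2))⁻¹

lemma gcst_pos (E : Type*) [NormedAddCommGroup E] [InnerProductSpace ℝ E] : 0 < gcst E := by
  unfold gcst; positivity

lemma integral_exp_sq_norm :
    ∫ x : E, Real.exp (-(1 / 2) * ‖x‖ ^ 2) = (gcst E)⁻¹ := by
  have h := GaussianFourier.integral_rexp_neg_mul_sq_norm (V := E) (b := 1 / 2) (by norm_num)
  rw [h, gcst, inv_inv]
  congr 1
  ring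

lemma integrable_exp_sq_norm :
    Integrable (fun x : E => Real.exp (-(1 / 2) * ‖x‖ ^ 2)) := by
  by_contra h
  have h1 := integral_exp_sq_norm (E := E)
  rw [integral_undef h] at h1
  have := gcst_pos E
  have : 0 < (gcst E)⁻¹ := by positivity
  linarith

/-- the density of the standard Gaussian measure -/
theorem stdGaussian_eq_withDensity : stdGaussian E =
    (volume : Measure E).withDensity
      (fun x => ENNReal.ofReal (gcst E * Real.exp (-(1 / 2) * ‖x‖ ^ 2))) := by
  have hint : Integrable (fun x : E => gcst E * Real.exp (-(1 / 2) * ‖x‖ ^ 2)) :=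
    integrable_exp_sq_norm.const_mul _
  have hc := gcst_pos E
  have := isFiniteMeasure_withDensity_ofReal hint.2
  apply Measure.ext_of_charFun
  ext t
  rw [charFun_stdGaussian, charFun_apply, integral_withDensity_eq_integral_toReal_smul
    (by fun_prop) (Filter.Eventually.of_forall fun x => ENNReal.ofReal_lt_top)]
  have h1 : ∀ x : E, (ENNReal.ofReal (gcst E * Real.exp (-(1 / 2) * ‖x‖ ^ 2))).toReal •
      Complex.exp (⟪x, t⟫ * Complex.I) =
      (gcst E : ℂ) * Complex.exp (-(1 / 2 : ℂ) * ‖x‖ ^ 2 + Complex.I * ⟪t, x⟫) := by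
    intro x
    rw [ENNReal.toReal_ofReal (by positivity), Complex.real_smul, Complex.exp_add]
    push_cast
    rw [real_inner_comm, mul_comm (Complex.I), mul_assoc]
  simp_rw [h1]
  rw [integral_const_mul, GaussianFourier.integral_cexp_neg_mul_sq_norm_add (by norm_num)]
  have h2 : (Real.pi / (1 / 2) : ℂ) ^ ((Module.finrank ℝ E : ℂ) / 2) = ((gcst E)⁻¹ : ℝ) := by
    rw [gcst, inv_inv]
    rw [Complex.ofReal_cpow (by positivity)]
    push_cast
    congr 1
    ring
  rw [h2, ← mul_assoc]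
  push_cast
  rw [mul_inv_cancel₀ (by exact_mod_cast hc.ne'), one_mul]
  congr 1
  rw [Complex.I_sq]
  ring

/-- integrals of radial functions against the standard Gaussian measure -/
lemma integral_radial [Nontrivial E] (f : ℝ → ℝ) :
    ∫ x, f ‖x‖ ∂(stdGaussian E) =
      (gcst E * (Module.finrank ℝ E * (volume : Measure E).real (Metric.ball 0 1)) *
        Real.sqrt (2 * Real.pi)) *
        ∫ s in Ioi (0 : ℝ), phi s * (s ^ (Module.finrank ℝ E - 1) * f s) := by
  rw [stdGaussian_eq_withDensity, integral_withDensity_eq_integral_toReal_smul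
    (by fun_prop) (Filter.Eventually.of_forall fun x => ENNReal.ofReal_lt_top)]
  have hc := gcst_pos E
  have h1 : ∫ x : E, (ENNReal.ofReal (gcst E * Real.exp (-(1 / 2) * ‖x‖ ^ 2))).toReal • f ‖x‖ =
      ∫ x : E, (fun r : ℝ => gcst E * Real.exp (-(1 / 2) * r ^ 2) * f r) ‖x‖ := by
    apply integral_congr_ae
    refine Filter.Eventually.of_forall fun x => ?_
    simp only
    rw [ENNReal.toReal_ofReal (by positivity), smul_eq_mul]
  rw [h1, integral_fun_norm_addHaar (volume : Measure E)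
    (fun r : ℝ => gcst E * Real.exp (-(1 / 2) * r ^ 2) * f r)]
  simp only [nsmul_eq_mul, smul_eq_mul]
  have h2 : ∀ s : ℝ, s ^ (Module.finrank ℝ E - 1) *
      (gcst E * Real.exp (-(1 / 2) * s ^ 2) * f s) =
      (gcst E * Real.sqrt (2 * Real.pi)) * (phi s * (s ^ (Module.finrank ℝ E - 1) * f s)) := by
    intro s
    rw [phi_eq, show -(1 / 2) * s ^ 2 = -(s ^ 2) / 2 by ring]
    have := sqrt_two_pi_pos
    field_simp
  simp_rw [h2]
  rw [integral_const_mul]
  ring

lemma mean_norm_mul [Nontrivial E] :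
    (∫ x, ‖x‖ ∂(stdGaussian E)) *
      (∫ s in Ioi (0 : ℝ), phi s * s ^ (Module.finrank ℝ E - 1)) =
      ∫ s in Ioi (0 : ℝ), phi s * s ^ (Module.finrank ℝ E) := by
  have h1 := integral_radial (E := E) (fun s => s)
  have h2 := integral_radial (E := E) (fun _ => 1)
  have h0 : 0 < Module.finrank ℝ E := Module.finrank_pos
  have h3 : ∀ s : ℝ, s ^ (Module.finrank ℝ E - 1) * s = s ^ (Module.finrank ℝ E) := by
    intro s
    rw [← pow_succ, Nat.sub_add_cancel h0]
  simp only [h3] at h1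
  simp only [mul_one, integral_const, probReal_univ, smul_eq_mul] at h2
  rw [h1]
  set c := gcst E * (Module.finrank ℝ E * (volume : Measure E).real (Metric.ball 0 1)) *
        Real.sqrt (2 * Real.pi)
  calc c * (∫ s in Ioi (0 : ℝ), phi s * s ^ (Module.finrank ℝ E)) *
        (∫ s in Ioi (0 : ℝ), phi s * s ^ (Module.finrank ℝ E - 1))
      = (c * (∫ s in Ioi (0 : ℝ), phi s * s ^ (Module.finrank ℝ E - 1))) *
        (∫ s in Ioi (0 : ℝ), phi s * s ^ (Module.finrank ℝ E)) := by ring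
    _ = _ := by rw [← h2, one_mul]

/-- half moments -/
lemma hm_zero : ∫ s in Ioi (0 : ℝ), phi s * s ^ 0 = 1 / 2 := by simpa using integral_Ioi_phi_zero
lemma hm_one : ∫ s in Ioi (0 : ℝ), phi s * s ^ 1 = phi 0 := by simpa using integral_Ioi_mul_phi 0
lemma hm_two : ∫ s in Ioi (0 : ℝ), phi s * s ^ 2 = 1 / 2 := by
  rw [half_moment_rec 0, hm_zero]; norm_num
lemma hm_three : ∫ s in Ioi (0 : ℝ), phi s * s ^ 3 = 2 * phi 0 := by
  rw [half_moment_rec 1, hm_one]; norm_num
lemma hm_four : ∫ s in Ioi (0 : ℝ), phi s * s ^ 4 = 3 / 2 := by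
  rw [half_moment_rec 2, hm_two]; norm_num
lemma hm_five : ∫ s in Ioi (0 : ℝ), phi s * s ^ 5 = 8 * phi 0 := by
  rw [half_moment_rec 3, hm_three]; push_cast; ring
lemma hm_six : ∫ s in Ioi (0 : ℝ), phi s * s ^ 6 = 15 / 2 := by
  rw [half_moment_rec 4, hm_four]; norm_num
lemma hm_seven : ∫ s in Ioi (0 : ℝ), phi s * s ^ 7 = 48 * phi 0 := by
  rw [half_moment_rec 5, hm_five]; push_cast; ring
lemma hm_eight : ∫ s in Ioi (0 : ℝ), phi s * s ^ 8 = 105 / 2 := by
  rw [half_moment_rec 6, hm_six]; norm_num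
lemma hm_nine : ∫ s in Ioi (0 : ℝ), phi s * s ^ 9 = 384 * phi 0 := by
  rw [half_moment_rec 7, hm_seven]; push_cast; ring

lemma mean_norm_aux {n : ℕ} (hn : 2 ≤ n) :
    (∫ x, ‖x‖ ∂(stdGaussian (EuclideanSpace ℝ (Fin n)))) *
      (∫ s in Ioi (0 : ℝ), phi s * s ^ (n - 1)) = ∫ s in Ioi (0 : ℝ), phi s * s ^ n := by
  have : Nontrivial (Fin n) := Fin.nontrivial_iff_two_le.mpr hn
  have : Nonempty (Fin n) := ⟨⟨0, by omega⟩⟩
  have h := mean_norm_mul (E := EuclideanSpace ℝ (Fin n))
  simpa using h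

theorem mean_norm_three' :
    ∫ x, ‖x‖ ∂(stdGaussian (EuclideanSpace ℝ (Fin 3))) = 4 * phi 0 := by
  have h := mean_norm_aux (n := 3) (by norm_num)
  rw [show 3 - 1 = 2 by norm_num, hm_two, hm_three] at h
  linarith
theorem mean_norm_four' :
    ∫ x, ‖x‖ ∂(stdGaussian (EuclideanSpace ℝ (Fin 4))) = (3 * Real.pi / 2) * phi 0 := by
  have h := mean_norm_aux (n := 4) (by norm_num)
  rw [show 4 - 1 = 3 by norm_num, hm_three, hm_four] at h
  have h1 := phi_zero_sq
  have h2 := phi_pos 0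
  have h3 := Real.pi_pos
  have h4 : phi 0 * phi 0 * (2 * Real.pi) = 1 := by
    rw [← sq, h1]; field_simp
  set I := ∫ x, ‖x‖ ∂(stdGaussian (EuclideanSpace ℝ (Fin 4)))
  have : I * (phi 0 * phi 0 * (2 * Real.pi)) = (3 / 2) * Real.pi * phi 0 := by
    calc I * (phi 0 * phi 0 * (2 * Real.pi)) = (I * (2 * phi 0)) * (Real.pi * phi 0) := by ring
      _ = _ := by rw [h]; ring
  rw [h4] at this
  linarith
theorem mean_norm_five' :
    ∫ x, ‖x‖ ∂(stdGaussian (EuclideanSpace ℝ (Fin 5))) = (16 / 3) * phi 0 := by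
  have h := mean_norm_aux (n := 5) (by norm_num)
  rw [show 5 - 1 = 4 by norm_num, hm_four, hm_five] at h
  linarith
theorem mean_norm_seven' :
    ∫ x, ‖x‖ ∂(stdGaussian (EuclideanSpace ℝ (Fin 7))) = (32 / 5) * phi 0 := by
  have h := mean_norm_aux (n := 7) (by norm_num)
  rw [show 7 - 1 = 6 by norm_num, hm_six, hm_seven] at h
  linarith
theorem mean_norm_nine' :
    ∫ x, ‖x‖ ∂(stdGaussian (EuclideanSpace ℝ (Fin 9))) = (256 / 35) * phi 0 := by
  have h := mean_norm_aux (n := 9) (by norm_num)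
  rw [show 9 - 1 = 8 by norm_num, hm_eight, hm_nine] at h
  linarith

end Vale.Agent.P226
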