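import Mathlib
import Vale.Agent.P226.Full.CapD
import Vale.Agent.P226.Full.MeanNorm

/-! [PS] cap3, cap5, cap7, cap9 -/

open MeasureTheory ProbabilityTheory Set
open scoped RealInnerProductSpace ENNReal NNReal

set_option linter.unusedSectionVars false

namespace Vale.Agent.P226

variable {ι : Type*} [Fintype ι] [DecidableEq ι] [Nontrivial ι]

/-- evaluation of the cap integral from an antiderivative -/
lemma cap_eval {m : ℕ} {c : ℝ} (hc0 : 0 < c) (hc1 : c < 1) (F : ℝ → ℝ)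
    (hF : ∀ t, 0 < t → HasDerivAt F ((1 - t ^ 2) ^ m / t ^ 2) t) :
    ∫ t in c..1, (1 - t ^ 2) ^ (m : ℝ) / t ^ 2 = F 1 - F c := by
  have h1 : ∀ t : ℝ, (1 - t ^ 2) ^ (m : ℝ) / t ^ 2 = (1 - t ^ 2) ^ m / t ^ 2 := by
    intro t
    rw [Real.rpow_natCast]
  simp_rw [h1]
  apply intervalIntegral.integral_eq_sub_of_hasDerivAt
  · intro t ht
    rw [uIcc_of_le hc1.le] at ht
    exact hF t (hc0.trans_le ht.1)
  · apply ContinuousOn.intervalIntegrable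
    intro t ht
    rw [uIcc_of_le hc1.le] at ht
    have ht0 : t ≠ 0 := (hc0.trans_le ht.1).ne'
    apply ContinuousAt.continuousWithinAt
    exact ContinuousAt.div (f := fun y : ℝ => (1 - y ^ 2) ^ m) (g := fun y : ℝ => y ^ 2)
      (by fun_prop) (by fun_prop) (pow_ne_zero _ ht0)

lemma hasDerivAt_poly (a0 a1 a2 a3 : ℝ) {t : ℝ} (ht : t ≠ 0) :
    HasDerivAt (fun t : ℝ => -t⁻¹ + (a0 * t + a1 * t ^ 3 + a2 * t ^ 5 + a3 * t ^ 7))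
      (-(-(t ^ 2)⁻¹) + (a0 * 1 + a1 * (3 * t ^ 2) + a2 * (5 * t ^ 4) + a3 * (7 * t ^ 6))) t := by
  have h0 := (hasDerivAt_inv ht).neg
  have h1 := (hasDerivAt_id t).const_mul a0
  have h3 := (hasDerivAt_pow 3 t).const_mul a1
  have h5 := (hasDerivAt_pow 5 t).const_mul a2
  have h7 := (hasDerivAt_pow 7 t).const_mul a3
  have h := h0.add (((h1.add h3).add h5).add h7)
  refine h.congr_deriv ?_
  norm_num

lemma cap_evalp {m : ℕ} {c : ℝ} (hc0 : 0 < c) (hc1 : c < 1) (a0 a1 a2 a3 : ℝ)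
    (hp : ∀ t : ℝ, t ≠ 0 → (-(-(t ^ 2)⁻¹) + (a0 * 1 + a1 * (3 * t ^ 2) + a2 * (5 * t ^ 4) +
      a3 * (7 * t ^ 6))) = (1 - t ^ 2) ^ m / t ^ 2) :
    c * ∫ t in c..1, (1 - t ^ 2) ^ (m : ℝ) / t ^ 2 =
      c * (-1 + (a0 + a1 + a2 + a3)) + 1 - (a0 * c ^ 2 + a1 * c ^ 4 + a2 * c ^ 6 + a3 * c ^ 8) := by
  rw [cap_eval hc0 hc1 _ (fun t ht => (hasDerivAt_poly a0 a1 a2 a3 ht.ne').congr_deriv
    (hp t ht.ne'))]
  field_simp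
  ring

lemma cap_int3 {c : ℝ} (hc0 : 0 < c) (hc1 : c < 1) :
    c * ∫ t in c..1, (1 - t ^ 2) ^ ((((3 : ℕ) : ℝ) - 1) / 2) / t ^ 2 = (1 - c) ^ 2 := by
  rw [show (((3 : ℕ) : ℝ) - 1) / 2 = ((1 : ℕ) : ℝ) by norm_num,
    cap_evalp hc0 hc1 (-1) 0 0 0 (fun t ht => by field_simp; ring)]
  ring

lemma cap_int5 {c : ℝ} (hc0 : 0 < c) (hc1 : c < 1) :
    c * ∫ t in c..1, (1 - t ^ 2) ^ ((((5 : ℕ) : ℝ) - 1) / 2) / t ^ 2 =
      (1 - c) ^ 3 * (3 + c) / 3 := by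
  rw [show (((5 : ℕ) : ℝ) - 1) / 2 = ((2 : ℕ) : ℝ) by norm_num,
    cap_evalp hc0 hc1 (-2) (1 / 3) 0 0 (fun t ht => by field_simp; ring)]
  ring

lemma cap_int7 {c : ℝ} (hc0 : 0 < c) (hc1 : c < 1) :
    c * ∫ t in c..1, (1 - t ^ 2) ^ ((((7 : ℕ) : ℝ) - 1) / 2) / t ^ 2 =
      1 - 16 / 5 * c + 3 * c ^ 2 - c ^ 4 + c ^ 6 / 5 := by
  rw [show (((7 : ℕ) : ℝ) - 1) / 2 = ((3 : ℕ) : ℝ) by norm_num,
    cap_evalp hc0 hc1 (-3) 1 (-1 / 5) 0 (fun t ht => by field_simp; ring)]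
  ring

lemma cap_int9 {c : ℝ} (hc0 : 0 < c) (hc1 : c < 1) :
    c * ∫ t in c..1, (1 - t ^ 2) ^ ((((9 : ℕ) : ℝ) - 1) / 2) / t ^ 2 =
      1 - 128 / 35 * c + 4 * c ^ 2 - 2 * c ^ 4 + 4 / 5 * c ^ 6 - c ^ 8 / 7 := by
  rw [show (((9 : ℕ) : ℝ) - 1) / 2 = ((4 : ℕ) : ℝ) by norm_num,
    cap_evalp hc0 hc1 (-4) 2 (-4 / 5) (1 / 7) (fun t ht => by field_simp; ring)]
  ring

theorem Opt.cap3 {u : ι → EuclideanSpace ℝ (Fin 3)} (hu : Opt u) (i : ι) {c : ℝ}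
    (hc0 : 0 < c) (hc1 : c < 1) :
    ‖u i‖ ≤ phi 0 * (4 * c * pr u i + (1 - c) ^ 2) := by
  have h := hu.cap (by norm_num) i hc0 hc1
  rw [mean_norm_three', mul_right_comm c (phi 0), cap_int3 hc0 hc1] at h
  linarith

theorem Opt.cap5 {u : ι → EuclideanSpace ℝ (Fin 5)} (hu : Opt u) (i : ι) {c : ℝ}
    (hc0 : 0 < c) (hc1 : c < 1) :
    ‖u i‖ ≤ phi 0 * (16 / 3 * c * pr u i + (1 - c) ^ 3 * (3 + c) / 3) := by
  have h := hu.cap (by norm_num) i hc0 hc1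
  rw [mean_norm_five', mul_right_comm c (phi 0), cap_int5 hc0 hc1] at h
  linarith

theorem Opt.cap7 {u : ι → EuclideanSpace ℝ (Fin 7)} (hu : Opt u) (i : ι) {c : ℝ}
    (hc0 : 0 < c) (hc1 : c < 1) :
    ‖u i‖ ≤ phi 0 * (32 / 5 * c * pr u i + (1 - 16 / 5 * c + 3 * c ^ 2 - c ^ 4 + c ^ 6 / 5)) := by
  have h := hu.cap (by norm_num) i hc0 hc1
  rw [mean_norm_seven', mul_right_comm c (phi 0), cap_int7 hc0 hc1] at h
  linarith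

theorem Opt.cap9 {u : ι → EuclideanSpace ℝ (Fin 9)} (hu : Opt u) (i : ι) {c : ℝ}
    (hc0 : 0 < c) (hc1 : c < 1) :
    ‖u i‖ ≤ phi 0 * (256 / 35 * c * pr u i +
      (1 - 128 / 35 * c + 4 * c ^ 2 - 2 * c ^ 4 + 4 / 5 * c ^ 6 - c ^ 8 / 7)) := by
  have h := hu.cap (by norm_num) i hc0 hc1
  rw [mean_norm_nine', mul_right_comm c (phi 0), cap_int9 hc0 hc1] at h
  linarith

end Vale.Agent.P226
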