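import Mathlib
import Vale.Agent.P226.Full.CapD
import Vale.Agent.P226.Full.MeanNorm

/-! [PS] `Opt.cap4`, `Opt.halfp`. -/

open MeasureTheory ProbabilityTheory Set
open scoped RealInnerProductSpace ENNReal NNReal

set_option linter.unusedSectionVars false

namespace Vale.Agent.P226

variable {ι : Type*} [Fintype ι] [DecidableEq ι] [Nontrivial ι]

namespace CapY

/-- antiderivative -/
noncomputable def A (t : ℝ) : ℝ :=
  -((1 - t ^ 2) * Real.sqrt (1 - t ^ 2)) / t - 3 / 2 * (t * Real.sqrt (1 - t ^ 2) + Real.arcsin t)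

lemma hasDerivAt_sqrt {t : ℝ} (h0 : 0 < t) (h1 : t < 1) :
    HasDerivAt (fun t : ℝ => Real.sqrt (1 - t ^ 2)) (-t / Real.sqrt (1 - t ^ 2)) t := by
  have hpos : 0 < 1 - t ^ 2 := by nlinarith
  have h2 : HasDerivAt (fun t : ℝ => 1 - t ^ 2) (-(2 * t)) t := by
    have := ((hasDerivAt_id t).pow 2).const_sub 1
    simpa using this
  have h3 := h2.sqrt hpos.ne'
  convert h3 using 1
  have h4 : Real.sqrt (1 - t ^ 2) ≠ 0 := (Real.sqrt_pos.mpr hpos).ne'
  field_simp

lemma hasDerivAt_A {t : ℝ} (h0 : 0 < t) (h1 : t < 1) :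
    HasDerivAt A ((1 - t ^ 2) * Real.sqrt (1 - t ^ 2) / t ^ 2) t := by
  have hpos : 0 < 1 - t ^ 2 := by nlinarith
  have hs : Real.sqrt (1 - t ^ 2) ≠ 0 := (Real.sqrt_pos.mpr hpos).ne'
  have hss : Real.sqrt (1 - t ^ 2) ^ 2 = 1 - t ^ 2 := Real.sq_sqrt hpos.le
  have h2 : HasDerivAt (fun t : ℝ => 1 - t ^ 2) (-(2 * t)) t := by
    have := ((hasDerivAt_id t).pow 2).const_sub 1
    simpa using this
  have h3 := hasDerivAt_sqrt h0 h1
  have h4 := Real.hasDerivAt_arcsin (x := t) (by linarith) h1.ne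
  have h5 := ((h2.mul h3).neg.div (hasDerivAt_id t) h0.ne').sub
    ((((hasDerivAt_id t).mul h3).add h4).const_mul (3 / 2))
  have h6 : HasDerivAt A ((-((-(2 * t)) * Real.sqrt (1 - t ^ 2) + (1 - t ^ 2) *
      (-t / Real.sqrt (1 - t ^ 2))) * t - -((1 - t ^ 2) * Real.sqrt (1 - t ^ 2)) * 1) / t ^ 2 -
      3 / 2 * (1 * Real.sqrt (1 - t ^ 2) + t * (-t / Real.sqrt (1 - t ^ 2)) +
        1 / Real.sqrt (1 - t ^ 2))) t := h5
  convert h6 using 1
  set s := Real.sqrt (1 - t ^ 2) with hsdef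
  have ht : t ≠ 0 := h0.ne'
  have e : 1 / s = s / (1 - t ^ 2) := by
    rw [← hss]; field_simp
  field_simp
  rw [hss]
  ring

lemma continuousOn_A {c : ℝ} (hc0 : 0 < c) : ContinuousOn A (Icc c 1) := by
  unfold A
  apply ContinuousOn.sub
  · apply ContinuousOn.div
    · fun_prop
    · fun_prop
    · intro x hx
      exact (lt_of_lt_of_le hc0 hx.1).ne'
  · exact (continuous_const.mul ((continuous_id.mul (by fun_prop)).add
      Real.continuous_arcsin)).continuousOn

lemma rpow_eq {t : ℝ} (ht : 0 ≤ 1 - t ^ 2) :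
    (1 - t ^ 2) ^ ((((4 : ℕ) : ℝ) - 1) / 2) = (1 - t ^ 2) * Real.sqrt (1 - t ^ 2) := by
  have h1 : (((4 : ℕ) : ℝ) - 1) / 2 = 1 + 1 / 2 := by norm_num
  rw [h1, Real.rpow_add_of_nonneg ht (by norm_num) (by norm_num), Real.rpow_one,
    Real.sqrt_eq_rpow]

lemma integral_four {c : ℝ} (hc0 : 0 < c) (hc1 : c < 1) :
    ∫ t in c..1, (1 - t ^ 2) ^ ((((4 : ℕ) : ℝ) - 1) / 2) / t ^ 2 = A 1 - A c := by
  have h1 : ∫ t in c..1, (1 - t ^ 2) ^ ((((4 : ℕ) : ℝ) - 1) / 2) / t ^ 2 =
      ∫ t in c..1, (1 - t ^ 2) * Real.sqrt (1 - t ^ 2) / t ^ 2 := by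
    apply intervalIntegral.integral_congr
    intro t ht
    rw [uIcc_of_le hc1.le] at ht
    show (1 - t ^ 2) ^ ((((4 : ℕ) : ℝ) - 1) / 2) / t ^ 2 = _
    rw [rpow_eq]
    nlinarith [ht.1, ht.2]
  rw [h1]
  apply intervalIntegral.integral_eq_sub_of_hasDerivAt_of_le hc1.le (continuousOn_A hc0)
  · intro t ht
    exact hasDerivAt_A (lt_trans hc0 ht.1) ht.2
  · apply ContinuousOn.intervalIntegrable
    rw [uIcc_of_le hc1.le]
    apply ContinuousOn.div
    · fun_prop
    · fun_prop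
    · intro x hx
      exact (pow_pos (lt_of_lt_of_le hc0 hx.1) 2).ne'

/-- upper bound of `∫_0^c √(1-t²)` -/
noncomputable def P (c : ℝ) : ℝ :=
  c - c ^ 3 / 6 - c ^ 5 / 40 - c ^ 7 / 112 - 5 * c ^ 9 / 1152

lemma arc_le {c : ℝ} (hc0 : 0 ≤ c) (hc1 : c < 1) :
    c * Real.sqrt (1 - c ^ 2) + Real.arcsin c ≤ 2 * P c := by
  have hmono : MonotoneOn (fun t : ℝ => 2 * P t - (t * Real.sqrt (1 - t ^ 2) + Real.arcsin t))
      (Icc 0 c) := by
    apply monotoneOn_of_deriv_nonneg (convex_Icc 0 c)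
    · apply Continuous.continuousOn
      unfold P
      exact (by fun_prop : Continuous fun t : ℝ => 2 * (t - t ^ 3 / 6 - t ^ 5 / 40 - t ^ 7 / 112 -
        5 * t ^ 9 / 1152)).sub ((continuous_id.mul (by fun_prop)).add Real.continuous_arcsin)
    · intro t ht
      rw [interior_Icc] at ht
      have h1 : t < 1 := lt_trans ht.2 hc1
      have h3 := hasDerivAt_sqrt ht.1 h1
      have h4 := Real.hasDerivAt_arcsin (x := t) (by linarith [ht.1]) h1.ne
      have hP : DifferentiableAt ℝ P t := by unfold P; fun_prop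
      exact ((hP.const_mul 2).sub
        (((hasDerivAt_id t).mul h3).add h4).differentiableAt).differentiableWithinAt
    · intro t ht
      rw [interior_Icc] at ht
      have h1 : t < 1 := lt_trans ht.2 hc1
      have hpos : 0 < 1 - t ^ 2 := by nlinarith [ht.1]
      have hs : Real.sqrt (1 - t ^ 2) ≠ 0 := (Real.sqrt_pos.mpr hpos).ne'
      have hss : Real.sqrt (1 - t ^ 2) ^ 2 = 1 - t ^ 2 := Real.sq_sqrt hpos.le
      have h3 := hasDerivAt_sqrt ht.1 h1
      have h4 := Real.hasDerivAt_arcsin (x := t) (by linarith [ht.1]) h1.ne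
      have hP : HasDerivAt P (1 - t ^ 2 / 2 - t ^ 4 / 8 - t ^ 6 / 16 - 5 * t ^ 8 / 128) t := by
        unfold P
        have e1 := hasDerivAt_id t
        have e3 := (hasDerivAt_pow 3 t).div_const 6
        have e5 := (hasDerivAt_pow 5 t).div_const 40
        have e7 := (hasDerivAt_pow 7 t).div_const 112
        have e9 := ((hasDerivAt_pow 9 t).const_mul 5).div_const 1152
        have e := (((e1.sub e3).sub e5).sub e7).sub e9
        have e' : HasDerivAt (fun c : ℝ => c - c ^ 3 / 6 - c ^ 5 / 40 - c ^ 7 / 112 -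
          5 * c ^ 9 / 1152) _ t := e
        convert e' using 1
        norm_num
        ring
      have hd : HasDerivAt (fun t : ℝ => 2 * P t - (t * Real.sqrt (1 - t ^ 2) + Real.arcsin t))
          (2 * (1 - t ^ 2 / 2 - t ^ 4 / 8 - t ^ 6 / 16 - 5 * t ^ 8 / 128) -
          (1 * Real.sqrt (1 - t ^ 2) + t * (-t / Real.sqrt (1 - t ^ 2)) +
            1 / Real.sqrt (1 - t ^ 2))) t :=
        (hP.const_mul 2).sub (((hasDerivAt_id t).mul h3).add h4)
      have hd' : deriv (fun t : ℝ => 2 * P t - (t * Real.sqrt (1 - t ^ 2) + Real.arcsin t)) t =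
          2 * (1 - t ^ 2 / 2 - t ^ 4 / 8 - t ^ 6 / 16 - 5 * t ^ 8 / 128) -
            2 * Real.sqrt (1 - t ^ 2) := by
        rw [HasDerivAt.deriv hd]
        set s := Real.sqrt (1 - t ^ 2) with hsdef
        have e : (1 : ℝ) * s + t * (-t / s) + 1 / s = 2 * s := by
          field_simp
          rw [hss]; ring
        rw [e]
      rw [hd', sub_nonneg]
      apply mul_le_mul_of_nonneg_left _ (by norm_num : (0 : ℝ) ≤ 2)
      have ht0 := ht.1
      have ht2 : t ^ 2 ≤ 1 := by nlinarith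
      have ht2' : 0 ≤ t ^ 2 := sq_nonneg t
      apply Real.sqrt_le_iff.mpr
      constructor
      · have e4 : t ^ 4 ≤ 1 := by nlinarith
        have e6 : t ^ 6 ≤ 1 := by
          have : t ^ 6 = t ^ 4 * t ^ 2 := by ring
          rw [this]; nlinarith [sq_nonneg (t ^ 2)]
        have e8 : t ^ 8 ≤ 1 := by
          have : t ^ 8 = t ^ 4 * t ^ 4 := by ring
          rw [this]; nlinarith [sq_nonneg (t ^ 2)]
        nlinarith
      · have key : (1 - t ^ 2 / 2 - t ^ 4 / 8 - t ^ 6 / 16 - 5 * t ^ 8 / 128) ^ 2 - (1 - t ^ 2) =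
            t ^ 10 * (7 / 128 + 7 / 512 * t ^ 2 + 5 / 1024 * t ^ 4 + 25 / 16384 * t ^ 6) := by
          ring
        have : 0 ≤ t ^ 10 * (7 / 128 + 7 / 512 * t ^ 2 + 5 / 1024 * t ^ 4 +
            25 / 16384 * t ^ 6) := by positivity
        linarith
  have h := hmono (left_mem_Icc.mpr hc0) (right_mem_Icc.mpr hc0) hc0
  simp only [P] at h ⊢
  simp at h
  linarith

/-- the cap function for `n = 4` -/
lemma capF_le {c s b : ℝ} (hc0 : 0 < c) (hc1 : c < 1) (hs0 : 0 ≤ s) (hs : 1 - c ^ 2 ≤ s ^ 2)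
    (hb : (1 - c ^ 2) * s + 3 * c * P c - 3 / 4 * 3.141592 * c ≤ b) :
    c * ∫ t in c..1, (1 - t ^ 2) ^ ((((4 : ℕ) : ℝ) - 1) / 2) / t ^ 2 ≤ b := by
  rw [integral_four hc0 hc1]
  have h1 : A 1 = -(3 / 4) * Real.pi := by
    unfold A
    simp
    ring
  have hpos : 0 ≤ 1 - c ^ 2 := by nlinarith
  have h2 := arc_le hc0.le hc1
  have h3 : Real.sqrt (1 - c ^ 2) ≤ s := Real.sqrt_le_iff.mpr ⟨hs0, hs⟩
  have h4 : c * (A 1 - A c) = (1 - c ^ 2) * Real.sqrt (1 - c ^ 2) +
      3 / 2 * c * (c * Real.sqrt (1 - c ^ 2) + Real.arcsin c) - 3 / 4 * Real.pi * c := by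
    rw [h1]
    unfold A
    field_simp
    ring
  rw [h4]
  have h5 := Real.pi_gt_d6
  have h6 : (1 - c ^ 2) * Real.sqrt (1 - c ^ 2) ≤ (1 - c ^ 2) * s :=
    mul_le_mul_of_nonneg_left h3 hpos
  have h7 : 3 / 2 * c * (c * Real.sqrt (1 - c ^ 2) + Real.arcsin c) ≤ 3 / 2 * c * (2 * P c) :=
    mul_le_mul_of_nonneg_left h2 (by positivity)
  have h8 : 3 / 4 * 3.141592 * c ≤ 3 / 4 * Real.pi * c := by
    apply mul_le_mul_of_nonneg_right _ hc0.le
    linarith
  linarith

end CapY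

lemma Opt.cap4_aux {u : ι → EuclideanSpace ℝ (Fin 4)} (hu : Opt u) (i : ι) {c s b : ℝ}
    (hc0 : 0 < c) (hc1 : c < 1) (hs0 : 0 ≤ s) (hs : 1 - c ^ 2 ≤ s ^ 2)
    (hb : (1 - c ^ 2) * s + 3 * c * CapY.P c - 3 / 4 * 3.141592 * c ≤ b) :
    ‖u i‖ ≤ phi 0 * (47124 / 10000 * c * pr u i + b) := by
  have h1 := hu.cap (by norm_num) i hc0 hc1
  have h2 := CapY.capF_le hc0 hc1 hs0 hs hb
  rw [mean_norm_four'] at h1
  have hp : 0 ≤ pr u i := measureReal_nonneg
  have hphi := phi_pos 0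
  have h3 : c * (3 * Real.pi / 2 * phi 0) * pr u i ≤ phi 0 * (47124 / 10000 * c * pr u i) := by
    have h4 : Real.pi < 3.1416 := Real.pi_lt_d4
    have h5 : 3 * Real.pi / 2 ≤ 47124 / 10000 := by linarith
    have h6 : 0 ≤ c * phi 0 * pr u i := by positivity
    have h7 := mul_le_mul_of_nonneg_right h5 h6
    calc c * (3 * Real.pi / 2 * phi 0) * pr u i = 3 * Real.pi / 2 * (c * phi 0 * pr u i) := by ring
      _ ≤ 47124 / 10000 * (c * phi 0 * pr u i) := h7
      _ = _ := by ring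
  have h8 : c * phi 0 * ∫ t in c..1, (1 - t ^ 2) ^ ((((4 : ℕ) : ℝ) - 1) / 2) / t ^ 2 ≤
      phi 0 * b := by
    have := mul_le_mul_of_nonneg_left h2 hphi.le
    calc _ = phi 0 * (c * ∫ t in c..1, (1 - t ^ 2) ^ ((((4 : ℕ) : ℝ) - 1) / 2) / t ^ 2) := by ring
      _ ≤ _ := this
  calc ‖u i‖ ≤ _ := h1
    _ ≤ phi 0 * (47124 / 10000 * c * pr u i) + phi 0 * b := add_le_add h3 h8
    _ = _ := by ring

theorem Opt.cap4 {u : ι → EuclideanSpace ℝ (Fin 4)} (hu : Opt u) (i : ι) :
    ‖u i‖ ≤ phi 0 * (47124 / 10000 * (22 / 100) * pr u i + 55396 / 100000) ∧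
    ‖u i‖ ≤ phi 0 * (47124 / 10000 * (28 / 100) * pr u i + 45711 / 100000) ∧
    ‖u i‖ ≤ phi 0 * (47124 / 10000 * (32 / 100) * pr u i + 39831 / 100000) ∧
    ‖u i‖ ≤ phi 0 * (47124 / 10000 * (38 / 100) * pr u i + 31862 / 100000) ∧
    ‖u i‖ ≤ phi 0 * (47124 / 10000 * (43 / 100) * pr u i + 25985 / 100000) ∧
    ‖u i‖ ≤ phi 0 * (47124 / 10000 * (50 / 100) * pr u i + 18890 / 100000) := by
  refine ⟨?_, ?_, ?_, ?_, ?_, ?_⟩
  · exact hu.cap4_aux i (s := 0.9755) (by norm_num) (by norm_num) (by norm_num) (by norm_num)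
      (by unfold CapY.P; norm_num)
  · exact hu.cap4_aux i (s := 0.96) (by norm_num) (by norm_num) (by norm_num) (by norm_num)
      (by unfold CapY.P; norm_num)
  · exact hu.cap4_aux i (s := 0.94742) (by norm_num) (by norm_num) (by norm_num) (by norm_num)
      (by unfold CapY.P; norm_num)
  · exact hu.cap4_aux i (s := 0.924987) (by norm_num) (by norm_num) (by norm_num) (by norm_num)
      (by unfold CapY.P; norm_num)
  · exact hu.cap4_aux i (s := 0.90283) (by norm_num) (by norm_num) (by norm_num) (by norm_num)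
      (by unfold CapY.P; norm_num)
  · exact hu.cap4_aux i (s := 0.866026) (by norm_num) (by norm_num) (by norm_num) (by norm_num)
      (by unfold CapY.P; norm_num)


namespace CapY

/-- `1/2 - ∫_0^l φ` -/
noncomputable def Q (l : ℝ) : ℝ := 1 / 2 - ∫ s in (0 : ℝ)..l, phi s

lemma hasDerivAt_Q (l : ℝ) : HasDerivAt Q (-phi l) l := by
  unfold Q
  exact (intervalIntegral.integral_hasDerivAt_right
    (continuous_phi.intervalIntegrable _ _)
    (continuous_phi.stronglyMeasurableAtFilter _ _) continuous_phi.continuousAt).const_sub (1 / 2)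

lemma Q_eq {l : ℝ} (hl : 0 ≤ l) : ∫ s in Ioi l, phi s = Q l := by
  have h1 := intervalIntegral.integral_Ioi_sub_Ioi (f := phi) (μ := volume)
    integrable_phi.integrableOn hl
  rw [integral_Ioi_phi_zero] at h1
  unfold Q
  rw [← h1]
  ring

lemma phi_zero_kappa : phi 0 * (125331 / 100000) ≤ 1 / 2 := by
  have h1 := phi_zero_sq
  have h2 := phi_nonneg 0
  have h3 := Real.pi_gt_d6
  by_contra hcon
  push Not at hcon
  have h4 : (1 / 2 : ℝ) ^ 2 < (phi 0 * (125331 / 100000)) ^ 2 := by gcongr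
  rw [mul_pow, h1] at h4
  have h5 : 1 / (2 * Real.pi) < 1 / (2 * 3.141592) := by
    apply one_div_lt_one_div_of_lt (by norm_num)
    linarith
  nlinarith

lemma one_le_phi_zero : 1 ≤ phi 0 * (250663 / 100000) := by
  have h1 := phi_zero_sq
  have h2 := phi_nonneg 0
  have h3 := Real.pi_lt_d6
  by_contra hcon
  push Not at hcon
  have h4 : (phi 0 * (250663 / 100000)) ^ 2 < 1 ^ 2 := by
    have : 0 ≤ phi 0 * (250663 / 100000) := by positivity
    gcongr
  rw [mul_pow, h1] at h4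
  have h5 : 1 / (2 * 3.141593) < 1 / (2 * Real.pi) := by
    apply one_div_lt_one_div_of_lt (by positivity)
    linarith
  nlinarith

lemma phi_le_poly (s : ℝ) : phi s ≤ phi 0 * (1 - s ^ 2 / 2 + s ^ 4 / 8) := by
  rw [phi_eq, phi_eq]
  have hc : 0 < (Real.sqrt (2 * Real.pi))⁻¹ := inv_pos.mpr sqrt_two_pi_pos
  have h1 : Real.exp (-(s ^ 2) / 2) ≤ 1 - s ^ 2 / 2 + s ^ 4 / 8 := by
    have hx : 0 ≤ s ^ 2 / 2 := by positivity
    -- `e^{-x} ≤ 1 - x + x²/2`
    have key : ∀ x : ℝ, 0 ≤ x → Real.exp (-x) ≤ 1 - x + x ^ 2 / 2 := by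
      intro x hx
      have hmono : MonotoneOn (fun t : ℝ => (1 - t + t ^ 2 / 2) - Real.exp (-t)) (Ici 0) := by
        apply monotoneOn_of_deriv_nonneg (convex_Ici 0)
        · fun_prop
        · fun_prop
        · intro t _
          have hd : HasDerivAt (fun t : ℝ => (1 - t + t ^ 2 / 2) - Real.exp (-t))
              ((-1 + t) + Real.exp (-t)) t := by
            have e1 := ((hasDerivAt_id t).const_sub 1).add ((hasDerivAt_pow 2 t).div_const 2)
            have e2 := (hasDerivAt_neg t).exp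
            have e3 : HasDerivAt (fun t : ℝ => (1 - t + t ^ 2 / 2) - Real.exp (-t)) _ t :=
              e1.sub e2
            convert e3 using 1
            norm_num
          rw [hd.deriv]
          have := Real.add_one_le_exp (-t)
          linarith
      have h := hmono (self_mem_Ici) hx hx
      simp at h
      linarith
    have h2 := key (s ^ 2 / 2) hx
    have h3 : -(s ^ 2) / 2 = -(s ^ 2 / 2) := by ring
    rw [h3]
    refine h2.trans (le_of_eq ?_)
    ring
  have h2 : Real.exp (-((0 : ℝ) ^ 2) / 2) = 1 := by norm_num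
  rw [h2, mul_one]
  exact mul_le_mul_of_nonneg_left h1 hc.le

lemma half_fun_le {l : ℝ} (hl0 : 0 ≤ l) :
    phi l - l * ∫ s in Ioi l, phi s ≤
      phi 0 * (1 - 125331 / 100000 * l + l ^ 2 / 2 - l ^ 4 / 24 + l ^ 6 / 240) := by
  rw [Q_eq hl0]
  -- first derivative
  have hD1 : ∀ t : ℝ, 0 ≤ t →
      0 ≤ phi 0 * (-(125331 / 100000) + t - t ^ 3 / 6 + t ^ 5 / 40) + Q t := by
    intro t ht
    have hmono : MonotoneOn (fun t : ℝ =>
        phi 0 * (-(125331 / 100000) + t - t ^ 3 / 6 + t ^ 5 / 40) + Q t) (Ici 0) := by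
      have hd : ∀ t : ℝ, HasDerivAt (fun t : ℝ =>
          phi 0 * (-(125331 / 100000) + t - t ^ 3 / 6 + t ^ 5 / 40) + Q t)
          (phi 0 * (1 - t ^ 2 / 2 + t ^ 4 / 8) - phi t) t := by
        intro t
        have e1 := (((hasDerivAt_id t).const_add (-(125331 / 100000))).sub
          ((hasDerivAt_pow 3 t).div_const 6)).add ((hasDerivAt_pow 5 t).div_const 40)
        have e2 : HasDerivAt (fun t : ℝ =>
          phi 0 * (-(125331 / 100000) + t - t ^ 3 / 6 + t ^ 5 / 40) + Q t) _ t :=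
          (e1.const_mul (phi 0)).add (hasDerivAt_Q t)
        convert e2 using 1
        norm_num
        ring
      apply monotoneOn_of_deriv_nonneg (convex_Ici 0)
      · exact fun t _ => (hd t).continuousAt.continuousWithinAt
      · exact fun t _ => (hd t).differentiableAt.differentiableWithinAt
      · intro t _
        rw [(hd t).deriv]
        have := phi_le_poly t
        linarith
    have h := hmono (self_mem_Ici) ht ht
    have h0 : Q 0 = 1 / 2 := by unfold Q; simp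
    simp only [h0] at h
    have := phi_zero_kappa
    norm_num at h
    linarith
  have hmono : MonotoneOn (fun t : ℝ =>
      phi 0 * (1 - 125331 / 100000 * t + t ^ 2 / 2 - t ^ 4 / 24 + t ^ 6 / 240) -
        (phi t - t * Q t)) (Ici 0) := by
    have hd : ∀ t : ℝ, HasDerivAt (fun t : ℝ =>
        phi 0 * (1 - 125331 / 100000 * t + t ^ 2 / 2 - t ^ 4 / 24 + t ^ 6 / 240) -
        (phi t - t * Q t))
        (phi 0 * (-(125331 / 100000) + t - t ^ 3 / 6 + t ^ 5 / 40) + Q t) t := by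
      intro t
      have e1 := (((((hasDerivAt_id t).const_mul (125331 / 100000)).const_sub 1).add
        ((hasDerivAt_pow 2 t).div_const 2)).sub ((hasDerivAt_pow 4 t).div_const 24)).add
        ((hasDerivAt_pow 6 t).div_const 240)
      have e2 : HasDerivAt (fun t : ℝ =>
        phi 0 * (1 - 125331 / 100000 * t + t ^ 2 / 2 - t ^ 4 / 24 + t ^ 6 / 240) -
        (phi t - t * Q t)) _ t := (e1.const_mul (phi 0)).sub
        ((hasDerivAt_phi t).sub ((hasDerivAt_id t).mul (hasDerivAt_Q t)))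
      convert e2 using 1
      norm_num
      left
      ring
    apply monotoneOn_of_deriv_nonneg (convex_Ici 0)
    · exact fun t _ => (hd t).continuousAt.continuousWithinAt
    · exact fun t _ => (hd t).differentiableAt.differentiableWithinAt
    · intro t ht
      rw [(hd t).deriv]
      rw [interior_Ici] at ht
      exact hD1 t ht.le
  have h := hmono (self_mem_Ici) hl0 hl0
  simp only at h
  norm_num at h
  linarith

end CapY

/-- for `l ≤ 1` -/
theorem Opt.halfp {n : ℕ} {u : ι → EuclideanSpace ℝ (Fin n)} (hu : Opt u) (i : ι) {l : ℝ}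
    (hl0 : 0 < l) (_hl1 : l ≤ 1) :
    ‖u i‖ ≤ phi 0 * (250663 / 100000 * l * pr u i +
      (1 - 125331 / 100000 * l + l ^ 2 / 2 - l ^ 4 / 24 + l ^ 6 / 240)) := by
  have h1 := hu.half i l hl0.le
  have h2 := CapY.half_fun_le hl0.le
  have hp : 0 ≤ pr u i := measureReal_nonneg
  have h3 : l * pr u i ≤ phi 0 * (250663 / 100000 * l * pr u i) := by
    have h4 : 0 ≤ l * pr u i := by positivity
    have h5 := mul_le_mul_of_nonneg_right CapY.one_le_phi_zero h4
    calc l * pr u i = 1 * (l * pr u i) := by ring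
      _ ≤ _ := h5
      _ = _ := by ring
  rw [mul_add]
  linarith

end Vale.Agent.P226
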