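import Mathlib

/-!
Pure real-number part of the proof of the propeller conjecture.

Normalised data of a minimal counterexample with `k ≥ 4` cells, sorted by measure:
`y i = 2 π ‖u i‖²`, `p i` = Gaussian measure of the cell `i`, `i < k`.
-/

open Finset

namespace Vale.Agent.P226

/-- Heron form: `2ab + 2bc + 2ca - a² - b² - c²` -/
def f3 (a b c : ℝ) : ℝ := 4 * b * c - (b + c - a) ^ 2

/-- the `p`-form inequality at level `m` with scale `h` -/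
def PF (k : ℕ) (p : ℕ → ℝ) (h : ℝ) (m : ℕ) : Prop :=
  4 / 9 * h * (∑ i ∈ Ico m k, p i) ^ 3 / ((m : ℝ) + 1) ^ 2 ≤ (∑ i ∈ Ico m k, p i ^ 2) ^ 2

/-- data of a minimal counterexample with `k` cells -/
structure Dat (k : ℕ) (y p : ℕ → ℝ) : Prop where
  ypos : ∀ i < k, 0 < y i
  yone : ∀ i < k, y i ≤ 1
  ppos : ∀ i < k, 0 < p i
  anti : ∀ i j, i ≤ j → j < k → p j ≤ p i
  psum : ∑ i ∈ range k, p i = 1
  ysum : 9 / 4 < ∑ i ∈ range k, y i
  prek : ∀ i < k, y i ≤ 4 * Real.pi * p i ^ 2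
  single : ∀ l a b c, l < k → a < k → b < k → c < k → l ≠ a → l ≠ b → l ≠ c → a ≠ b → a ≠ c →
    b ≠ c → y c ≤ y a → y c ≤ y b →
    9 * Real.pi ^ 2 / (4 * (k : ℝ) ^ 4) * f3 (y a) (y b) (y c - y l) ≤ y l
  pform : ∀ m a b c, 3 ≤ m → m < k → a < m → b < m → c < m → a ≠ b → a ≠ c → b ≠ c →
    y c ≤ y a → y c ≤ y b → ∀ h, 0 ≤ h → h ^ 2 ≤ f3 (y a) (y b) (y c - ∑ i ∈ Ico m k, y i) →
    PF k p h m

end Vale.Agent.P226
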