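import Mathlib
import Vale.Agent.P226.Full.Base

/-! [A] deletion inequalities. -/

open MeasureTheory ProbabilityTheory Set
open scoped RealInnerProductSpace ENNReal NNReal

set_option linter.unusedSectionVars false

namespace Vale.Agent.P226

variable {E : Type*} [NormedAddCommGroup E] [InnerProductSpace ℝ E] [FiniteDimensional ℝ E]
  [MeasurableSpace E] [BorelSpace E] {ι : Type*} [Fintype ι] [DecidableEq ι] [Nontrivial ι]

/-- `2 E max_j ⟪w_j, x⟫ ≤ C + ∑ ‖w_j‖ ^ 2` for `m` vectors when `Bd E C m`. -/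
theorem Bd.em_le {C : ℝ} {m : ℕ} (hB : Bd E C (m + 1)) (w : Fin (m + 1) → E) :
    2 * Em w ≤ C + ∑ j, ‖w j‖ ^ 2 := by
  have h1 := hB _ (isPartition_argCell w)
  have h2 := sum_inner_argCell w
  rw [← h2]
  have h3 : ∀ j, 2 * ⟪w j, firstMoment (argCell w j)⟫ ≤
      ‖w j‖ ^ 2 + ‖firstMoment (argCell w j)‖ ^ 2 := by
    intro j
    have h4 := real_inner_le_norm (w j) (firstMoment (argCell w j))
    nlinarith [sq_nonneg (‖w j‖ - ‖firstMoment (argCell w j)‖)]
  have h5 : 2 * ∑ j, ⟪w j, firstMoment (argCell w j)⟫ ≤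
      ∑ j, (‖w j‖ ^ 2 + ‖firstMoment (argCell w j)‖ ^ 2) := by
    rw [Finset.mul_sum]
    exact Finset.sum_le_sum (fun j _ => h3 j)
  rw [Finset.sum_add_distrib] at h5
  unfold momentSum at h1
  linarith

lemma iSup_eq_mx {κ : Type*} [Fintype κ] [Nonempty κ] (w : κ → E) (x : E) :
    (⨆ j, ⟪w j, x⟫) = mx w x := by
  apply le_antisymm
  · exact ciSup_le (fun j => le_mx w x j)
  · obtain ⟨i, hi⟩ := exists_mx w x
    rw [hi]
    exact le_ciSup (f := fun j => ⟪w j, x⟫) (Set.finite_range _).bddAbove i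

lemma mx_comp_equiv {κ κ' : Type*} [Fintype κ] [Nonempty κ] [Fintype κ'] [Nonempty κ']
    (e : κ' ≃ κ) (w : κ → E) (x : E) : mx (w ∘ e) x = mx w x := by
  apply le_antisymm
  · exact mx_le _ _ _ (fun i => le_mx w x (e i))
  · apply mx_le
    intro i
    have := le_mx (w ∘ e) x (e.symm i)
    simpa using this

lemma Opt.sub_ne {u : ι → E} (h : Opt u) {i j : ι} (hij : i ≠ j) : u i - u j ≠ 0 := by
  intro h0
  rw [sub_eq_zero] at h0
  have h1 := h.neg i j hij
  rw [h0, real_inner_self_eq_norm_sq] at h1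
  exact absurd h1 (not_lt.mpr (sq_nonneg _))

lemma Opt.aedisjoint {u : ι → E} (h : Opt u) {i j : ι} (hij : i ≠ j) :
    AEDisjoint (stdGaussian E) (cone u i) (cone u j) := by
  have hsub : cone u i ∩ cone u j ⊆ {x : E | ⟪u i - u j, x⟫ = 0} := by
    rintro x ⟨hx, hy⟩
    have h1 := hx j
    have h2 := hy i
    rw [inner_sub_left] at h1 h2
    show ⟪u i - u j, x⟫ = 0
    rw [inner_sub_left]
    linarith
  exact measure_mono_null hsub (measureReal_inner_eq_zero _ (h.sub_ne hij))

lemma iUnion_cone (u : ι → E) : (⋃ i, cone u i) = Set.univ := by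
  rw [Set.eq_univ_iff_forall]
  intro x
  obtain ⟨i, hi⟩ := exists_mx u x
  rw [Set.mem_iUnion]
  refine ⟨i, fun l => ?_⟩
  have := le_mx u x l
  rw [hi] at this
  rw [inner_sub_left]; linarith

lemma Opt.integral_eq {u : ι → E} (h : Opt u) {f : E → ℝ} (hf : Integrable f (stdGaussian E)) :
    ∫ x, f x ∂(stdGaussian E) = ∑ i, ∫ x in cone u i, f x ∂(stdGaussian E) := by
  have h1 := integral_iUnion_ae (μ := stdGaussian E) (f := f) (s := cone u)
    (fun i => (measurableSet_cone u i).nullMeasurableSet) (fun i j hij => h.aedisjoint hij)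
    hf.integrableOn
  rw [iUnion_cone, setIntegral_univ, tsum_fintype] at h1
  exact h1

lemma Opt.integral_outside {u : ι → E} (h : Opt u) {f : E → ℝ}
    (hf : Integrable f (stdGaussian E)) (J : Finset ι) :
    ∫ x in outside u J, f x ∂(stdGaussian E) =
      ∑ i ∈ Jᶜ, ∫ x in cone u i, f x ∂(stdGaussian E) := by
  have h1 := integral_iUnion_ae (μ := stdGaussian E) (f := f)
    (s := fun i : {i // i ∈ Jᶜ} => cone u i)
    (fun i => (measurableSet_cone u i).nullMeasurableSet)
    (fun i j hij => h.aedisjoint (fun h0 => hij (Subtype.ext h0)))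
    hf.integrableOn
  rw [tsum_fintype] at h1
  have h2 : outside u J = ⋃ i : {i // i ∈ Jᶜ}, cone u i := by
    unfold outside
    rw [Set.iUnion_subtype]
  rw [h2, h1]
  exact Finset.sum_coe_sort Jᶜ (fun i => ∫ x in cone u i, f x ∂(stdGaussian E))

lemma Opt.inner_self_mom {u : ι → E} (h : Opt u) (v : E) (i : ι) :
    ∫ x in cone u i, ⟪v, x⟫ ∂(stdGaussian E) = ⟪v, u i⟫ := by
  rw [← inner_firstMoment, h.mom i]

lemma sum_J_eq {u : ι → E} (h : ∑ i, u i = 0) (J : Finset ι) : ∑ i ∈ J, u i = - rest u J := by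
  unfold rest
  rw [eq_neg_iff_add_eq_zero, Finset.sum_add_sum_compl]
  exact h

/-- set deletion. -/
theorem Opt.del {C : ℝ} {m : ℕ} (hB : Bd E C m) {u : ι → E} (hu : Opt u)
    (hF : C < ∑ i, ‖u i‖ ^ 2) (J : Finset ι) (hJ : J.Nonempty) (hm : J.card = m) :
    2 * ∫ x in outside u J, cmax u J x ∂(stdGaussian E) <
      ∑ i ∈ Jᶜ, ‖u i‖ ^ 2 + ‖rest u J‖ ^ 2 / m := by
  obtain ⟨j0, hj0⟩ := hJ
  have hmpos : 0 < m := by rw [← hm]; exact Finset.card_pos.mpr ⟨j0, hj0⟩
  obtain ⟨m', rfl⟩ : ∃ m', m = m' + 1 := ⟨m - 1, by omega⟩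
  have hne : Nonempty {j // j ∈ J} := ⟨⟨j0, hj0⟩⟩
  have hmR : (0 : ℝ) < ((m' + 1 : ℕ) : ℝ) := by exact_mod_cast hmpos
  set M : ℝ := ((m' + 1 : ℕ) : ℝ) with hM
  have hcard : (J.card : ℝ) = M := by rw [hm]
  let e : Fin (m' + 1) ≃ {j // j ∈ J} := (J.equivFinOfCardEq hm).symm
  let v : {j // j ∈ J} → E := fun j => cvec u J j
  have hcm : ∀ x, cmax u J x = mx v x := fun x => iSup_eq_mx v x
  have hint : Integrable (cmax u J) (stdGaussian E) := by
    have : cmax u J = mx v := funext hcm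
    rw [this]; exact integrable_mx v
  have h1 := hB.em_le (v ∘ e)
  have h2 : Em (v ∘ e) = ∫ x, cmax u J x ∂(stdGaussian E) := by
    unfold Em
    congr 1
    ext x
    rw [hcm x, mx_comp_equiv]
  have h3 : ∑ j, ‖(v ∘ e) j‖ ^ 2 = ∑ j ∈ J, ‖cvec u J j‖ ^ 2 := by
    rw [← Finset.sum_coe_sort J (fun j => ‖cvec u J j‖ ^ 2)]
    exact Equiv.sum_comp e (fun j => ‖v j‖ ^ 2)
  have hrest := sum_J_eq hu.sum J
  have h4 : ∑ j ∈ J, ‖cvec u J j‖ ^ 2 = ∑ j ∈ J, ‖u j‖ ^ 2 - ‖rest u J‖ ^ 2 / M := by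
    have h5 : ∀ j, ‖cvec u J j‖ ^ 2 = ‖u j‖ ^ 2 + (2 / M) * ⟪rest u J, u j⟫ +
        ‖rest u J‖ ^ 2 / M ^ 2 := by
      intro j
      unfold cvec
      rw [norm_add_sq_real, hcard, inner_smul_right, norm_smul, mul_pow, Real.norm_eq_abs, sq_abs,
        real_inner_comm]
      field_simp
    simp_rw [h5]
    rw [Finset.sum_add_distrib, Finset.sum_add_distrib, ← Finset.mul_sum, ← inner_sum, hrest,
      inner_neg_right, real_inner_self_eq_norm_sq, Finset.sum_const, nsmul_eq_mul, hcard]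
    field_simp
    ring
  have h6 : ∀ i ∈ J, ∫ x in cone u i, cmax u J x ∂(stdGaussian E) =
      ‖u i‖ ^ 2 + (1 / M) * ⟪rest u J, u i⟫ := by
    intro i hi
    have h7 : ∫ x in cone u i, cmax u J x ∂(stdGaussian E) =
        ∫ x in cone u i, ⟪cvec u J i, x⟫ ∂(stdGaussian E) := by
      apply setIntegral_congr_fun (measurableSet_cone u i)
      intro x hx
      show cmax u J x = _
      rw [hcm x]
      apply le_antisymm
      · apply mx_le
        rintro ⟨j, hj⟩
        have h8 := hx j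
        show ⟪cvec u J j, x⟫ ≤ ⟪cvec u J i, x⟫
        unfold cvec
        rw [inner_sub_left] at h8
        rw [inner_add_left, inner_add_left]
        linarith
      · exact le_mx v x ⟨i, hi⟩
    rw [h7, hu.inner_self_mom]
    unfold cvec
    rw [inner_add_left, inner_smul_left, real_inner_self_eq_norm_sq, hcard]
    simp
  have h9 : ∫ x, cmax u J x ∂(stdGaussian E) =
      (∑ j ∈ J, ‖u j‖ ^ 2 - ‖rest u J‖ ^ 2 / M) +
        ∫ x in outside u J, cmax u J x ∂(stdGaussian E) := by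
    rw [hu.integral_eq hint, hu.integral_outside hint J, ← Finset.sum_add_sum_compl J,
      Finset.sum_congr rfl h6, Finset.sum_add_distrib, ← Finset.mul_sum, ← inner_sum, hrest,
      inner_neg_right, real_inner_self_eq_norm_sq]
    ring
  rw [h2, h3, h4, h9] at h1
  have h10 := Finset.sum_add_sum_compl J (fun i => ‖u i‖ ^ 2)
  linarith

lemma dgap_eq {u : ι → E} (hu : Opt u) (i : ι) :
    dgap u i = ‖u i‖ ^ 2 - ∫ x in cone u i, omax u i x ∂(stdGaussian E) := by
  have hne : Nonempty {j // j ≠ i} := by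
    obtain ⟨j, hj⟩ := exists_ne i
    exact ⟨⟨j, hj⟩⟩
  have hom : ∀ x, omax u i x = mx (fun j : {j // j ≠ i} => u j) x := fun x =>
    iSup_eq_mx (fun j : {j // j ≠ i} => u j) x
  have hint : Integrable (omax u i) (stdGaussian E) := by
    have : omax u i = mx (fun j : {j // j ≠ i} => u j) := funext hom
    rw [this]; exact integrable_mx _
  have h1 : ∀ x, max 0 (⟪u i, x⟫ - omax u i x) =
      (cone u i).indicator (fun x => ⟪u i, x⟫ - omax u i x) x := by
    intro x
    by_cases hx : x ∈ cone u i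
    · rw [Set.indicator_of_mem hx]
      apply max_eq_right
      rw [hom x, sub_nonneg]
      apply mx_le
      rintro ⟨j, hj⟩
      have := hx j
      rw [inner_sub_left] at this
      show ⟪u j, x⟫ ≤ ⟪u i, x⟫
      linarith
    · rw [Set.indicator_of_notMem hx]
      apply max_eq_left
      rw [hom x, sub_nonpos]
      by_contra hcon
      push Not at hcon
      apply hx
      intro l
      rw [inner_sub_left]
      by_cases hl : l = i
      · rw [hl]; linarith
      · have := le_mx (fun j : {j // j ≠ i} => u j) x ⟨l, hl⟩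
        simp only at this
        linarith
  unfold dgap
  simp_rw [h1]
  rw [integral_indicator (measurableSet_cone u i),
    integral_sub (integrable_inner _).integrableOn hint.integrableOn, hu.inner_self_mom,
    real_inner_self_eq_norm_sq]

/-- single deletion: `E (X_i - M_i)_+ > (K/(K-1)) ‖u i‖² / 2`. -/
theorem Opt.del_single {C : ℝ} {m : ℕ} (hB : Bd E C m) {u : ι → E} (hu : Opt u)
    (hF : C < ∑ i, ‖u i‖ ^ 2) (hm : Fintype.card ι = m + 1) (i : ι) :
    ((m + 1 : ℝ) / m) * ‖u i‖ ^ 2 / 2 < dgap u i := by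
  have hne : Nonempty {j // j ≠ i} := by
    obtain ⟨j, hj⟩ := exists_ne i
    exact ⟨⟨j, hj⟩⟩
  obtain ⟨j, hj⟩ := exists_ne i
  have hcardJ : (Finset.univ.erase i).card = m := by
    rw [Finset.card_erase_of_mem (Finset.mem_univ i), Finset.card_univ, hm]; rfl
  have hJne : (Finset.univ.erase i).Nonempty := ⟨j, by simp [hj]⟩
  have hmpos : 0 < m := by rw [← hcardJ]; exact Finset.card_pos.mpr hJne
  have hmR : (0 : ℝ) < (m : ℝ) := by exact_mod_cast hmpos
  have h1 := hu.del hB hF (Finset.univ.erase i) hJne hcardJ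
  have hcompl : (Finset.univ.erase i)ᶜ = {i} := by
    ext l; simp
  have hrest : rest u (Finset.univ.erase i) = u i := by
    unfold rest; rw [hcompl, Finset.sum_singleton]
  have hout : outside u (Finset.univ.erase i) = cone u i := by
    unfold outside; rw [hcompl]; simp
  have hom : ∀ x, omax u i x = mx (fun j : {j // j ≠ i} => u j) x := fun x =>
    iSup_eq_mx (fun j : {j // j ≠ i} => u j) x
  have hint : Integrable (omax u i) (stdGaussian E) := by
    have : omax u i = mx (fun j : {j // j ≠ i} => u j) := funext hom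
    rw [this]; exact integrable_mx _
  have hcm : ∀ x, cmax u (Finset.univ.erase i) x = omax u i x + (1 / m) * ⟪u i, x⟫ := by
    intro x
    have hne' : Nonempty {j // j ∈ Finset.univ.erase i} := ⟨⟨j, by simp [hj]⟩⟩
    rw [hom x]
    unfold cmax
    apply le_antisymm
    · apply ciSup_le
      rintro ⟨l, hl⟩
      have h2 := le_mx (fun j : {j // j ≠ i} => u j) x ⟨l, Finset.ne_of_mem_erase hl⟩
      show ⟪cvec u (Finset.univ.erase i) l, x⟫ ≤ _
      unfold cvec
      rw [inner_add_left, inner_smul_left, hrest, hcardJ]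
      simp only [RCLike.conj_to_real, one_div] at h2 ⊢
      linarith
    · obtain ⟨⟨l, hl⟩, hl2⟩ := exists_mx (fun j : {j // j ≠ i} => u j) x
      rw [hl2]
      have h2 := le_ciSup (f := fun j : {j // j ∈ Finset.univ.erase i} =>
        ⟪cvec u (Finset.univ.erase i) j, x⟫) (Set.finite_range _).bddAbove ⟨l, by simp [hl]⟩
      refine le_trans (le_of_eq ?_) h2
      show _ = ⟪cvec u (Finset.univ.erase i) l, x⟫
      unfold cvec
      rw [inner_add_left, inner_smul_left, hrest, hcardJ]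
      simp
  rw [hout, hrest, hcompl, Finset.sum_singleton] at h1
  simp_rw [hcm] at h1
  rw [integral_add hint.integrableOn ((integrable_inner _).const_mul _).integrableOn,
    integral_const_mul, hu.inner_self_mom, real_inner_self_eq_norm_sq] at h1
  rw [dgap_eq hu i]
  have h3 : ((m + 1 : ℝ) / m) * ‖u i‖ ^ 2 / 2 = ‖u i‖ ^ 2 / 2 + (‖u i‖ ^ 2 / m) / 2 := by
    field_simp
  have h4 : (1 / (m : ℝ)) * ‖u i‖ ^ 2 = ‖u i‖ ^ 2 / m := by field_simp
  rw [h4] at h1
  rw [h3]
  linarith

end Vale.Agent.P226
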