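import Mathlib
import Vale.Agent.P226.Full.Base

/-! [C0] two dimensional density bound. -/

open MeasureTheory ProbabilityTheory Set
open scoped RealInnerProductSpace ENNReal NNReal

set_option linter.unusedSectionVars false

namespace Vale.Agent.P226

variable {E : Type*} [NormedAddCommGroup E] [InnerProductSpace ℝ E] [FiniteDimensional ℝ E]
  [MeasurableSpace E] [BorelSpace E] {ι : Type*} [Fintype ι] [DecidableEq ι]

lemma lintegral_split (e : E) (he : ‖e‖ = 1) (f : E → ℝ≥0∞) (hf : Measurable f) :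
    ∫⁻ x, f x ∂(stdGaussian E) =
      ∫⁻ x, ∫⁻ s, f (split e (s, x)) ∂(gaussianReal 0 1) ∂(stdGaussian E) := by
  conv_lhs => rw [← map_split e he]
  rw [lintegral_map hf (measurable_split e)]
  exact lintegral_prod_symm (fun p => f (split e p)) (hf.comp (measurable_split e)).aemeasurable

lemma gauss_le_volume :
    gaussianReal 0 1 ≤ ENNReal.ofReal (phi 0) • (volume : Measure ℝ) := by
  rw [gaussianReal_of_var_ne_zero 0 one_ne_zero, ← withDensity_const]
  apply withDensity_mono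
  refine Filter.Eventually.of_forall fun x => ?_
  exact ENNReal.ofReal_le_ofReal (phi_le_zero x)

lemma lintegral_gauss_le (f : ℝ → ℝ≥0∞) :
    ∫⁻ s, f s ∂(gaussianReal 0 1) ≤ ENNReal.ofReal (phi 0) * ∫⁻ s, f s := by
  calc ∫⁻ s, f s ∂(gaussianReal 0 1)
      ≤ ∫⁻ s, f s ∂(ENNReal.ofReal (phi 0) • (volume : Measure ℝ)) :=
        lintegral_mono' gauss_le_volume le_rfl
    _ = _ := by rw [lintegral_smul_measure]; rfl

lemma lintegral_affine {β : ℝ} (hβ : 0 < β) (α : ℝ) (h : ℝ → ℝ≥0∞) (hh : Measurable h) :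
    ∫⁻ t, h (α + β * t) = ENNReal.ofReal β⁻¹ * ∫⁻ t, h t := by
  have h1 : ∫⁻ t, h (α + β * t) = ∫⁻ t, (fun y => h (α + y)) t ∂(Measure.map (β * ·) volume) :=
    (lintegral_map (f := fun y => h (α + y)) (hh.comp (measurable_const.add measurable_id))
      (measurable_const_mul β)).symm
  rw [h1, Real.map_volume_mul_left hβ.ne', lintegral_smul_measure, lintegral_add_left_eq_self,
    abs_of_pos (inv_pos.mpr hβ)]
  rfl

/-- [C0] two dimensional density bound. -/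
theorem plane_bound' {g v w : E} (hv : ⟪g, v⟫ = 0) (hw : ⟪g, w⟫ = 0) {Δ : ℝ} (hΔ : 0 < Δ)
    (hD : Δ ^ 2 = ‖v‖ ^ 2 * ‖w‖ ^ 2 - ⟪v, w⟫ ^ 2) (f : ℝ → ℝ → ℝ → ℝ≥0∞)
    (hf : Measurable (fun p : ℝ × ℝ × ℝ => f p.1 p.2.1 p.2.2)) :
    ∫⁻ x, f ⟪g, x⟫ ⟪v, x⟫ ⟪w, x⟫ ∂(stdGaussian E) ≤
      ENNReal.ofReal (1 / (2 * Real.pi * Δ)) *
        ∫⁻ x, (∫⁻ A, ∫⁻ B, f ⟪g, x⟫ A B) ∂(stdGaussian E) := by
  have hv0 : 0 < ‖v‖ := by
    rcases (norm_nonneg v).eq_or_lt with h | h
    · exfalso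
      rw [← h] at hD
      nlinarith [sq_nonneg ⟪v, w⟫, pow_pos hΔ 2]
    · exact h
  set e1 : E := (‖v‖⁻¹ : ℝ) • v with he1
  have hne1 : ‖e1‖ = 1 := by
    rw [he1, norm_smul, norm_inv, norm_norm, inv_mul_cancel₀ hv0.ne']
  set α : ℝ := ⟪w, e1⟫ with hα
  set β : ℝ := Δ / ‖v‖ with hβ
  have hβ0 : 0 < β := div_pos hΔ hv0
  have hve : v = ‖v‖ • e1 := by
    rw [he1, smul_smul, mul_inv_cancel₀ hv0.ne', one_smul]
  have hαv : α = ⟪v, w⟫ / ‖v‖ := by
    rw [hα, he1, inner_smul_right, real_inner_comm]; ring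
  have hnw : ‖w - α • e1‖ ^ 2 = β ^ 2 := by
    rw [norm_sub_sq_real, inner_smul_right, norm_smul, hne1, ← hα, hβ, div_pow, hD, hαv]
    simp only [mul_one, Real.norm_eq_abs, sq_abs]
    field_simp
    ring
  have hnw' : ‖w - α • e1‖ = β := by
    have := congrArg Real.sqrt hnw
    rwa [Real.sqrt_sq (norm_nonneg _), Real.sqrt_sq hβ0.le] at this
  set e2 : E := (β⁻¹ : ℝ) • (w - α • e1) with he2
  have hne2 : ‖e2‖ = 1 := by
    rw [he2, norm_smul, norm_inv, Real.norm_of_nonneg hβ0.le, hnw', inv_mul_cancel₀ hβ0.ne']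
  have hwe : w - α • e1 = β • e2 := by
    rw [he2, smul_inv_smul₀ hβ0.ne']
  have hge1 : ⟪g, e1⟫ = 0 := by rw [he1, inner_smul_right, hv, mul_zero]
  have hge2 : ⟪g, e2⟫ = 0 := by
    rw [he2, inner_smul_right, inner_sub_right, inner_smul_right, hw, hge1]; simp
  clear_value e2 β α e1
  have key : ∀ (s t : ℝ) (x : E), f ⟪g, split e1 (s, split e2 (t, x))⟫
      ⟪v, split e1 (s, split e2 (t, x))⟫ ⟪w, split e1 (s, split e2 (t, x))⟫ =
      f ⟪g, x⟫ (‖v‖ * s) (α * s + β * t) := by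
    intro s t x
    have h1 : ⟪g, split e1 (s, split e2 (t, x))⟫ = ⟪g, x⟫ := by
      rw [inner_split_orth e1 g hge1, inner_split_orth e2 g hge2]
    have h2 : ⟪v, split e1 (s, split e2 (t, x))⟫ = ‖v‖ * s := by
      have h5 : ∀ y : E, ⟪v, y⟫ = ‖v‖ * ⟪e1, y⟫ := by
        intro y
        rw [he1, inner_smul_left]
        simp
        field_simp
      rw [h5, inner_split_self e1 hne1]
    have h3 : ⟪w, split e1 (s, split e2 (t, x))⟫ = α * s + β * t := by
      rw [inner_split']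
      have h4 : ∀ y : E, ⟪w, y - ⟪e1, y⟫ • e1⟫ = ⟪w - α • e1, y⟫ := by
        intro y
        rw [inner_sub_right, inner_smul_right, inner_sub_left, inner_smul_left, ← hα]
        simp; ring
      rw [h4, hwe, inner_smul_left, inner_split_self e2 hne2, ← hα]
      simp; ring
    rw [h1, h2, h3]
  have hmeas : ∀ (a b c : E → ℝ), Measurable a → Measurable b → Measurable c →
      Measurable (fun x => f (a x) (b x) (c x)) := by
    intro a b c ha hb hc
    exact hf.comp (ha.prodMk (hb.prodMk hc))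
  have hin : ∀ u : E, Measurable (fun x : E => ⟪u, x⟫) := fun u => by fun_prop
  rw [lintegral_split e1 hne1 _ (hmeas _ _ _ (hin g) (hin v) (hin w))]
  have hm2 : Measurable (fun y : E => ∫⁻ s, f ⟪g, split e1 (s, y)⟫ ⟪v, split e1 (s, y)⟫
      ⟪w, split e1 (s, y)⟫ ∂(gaussianReal 0 1)) := by
    apply Measurable.lintegral_prod_right'
      (f := fun p : E × ℝ => f ⟪g, split e1 (p.2, p.1)⟫ ⟪v, split e1 (p.2, p.1)⟫
        ⟪w, split e1 (p.2, p.1)⟫)
    have hs : Measurable (fun p : E × ℝ => split e1 (p.2, p.1)) :=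
      (measurable_split e1).comp (measurable_snd.prodMk measurable_fst)
    exact hf.comp (((hin g).comp hs).prodMk (((hin v).comp hs).prodMk ((hin w).comp hs)))
  rw [lintegral_split e2 hne2 _ hm2]
  simp_rw [key]
  rw [← lintegral_const_mul']
  swap
  · exact ENNReal.ofReal_ne_top
  apply lintegral_mono
  intro x
  have hfx : Measurable (fun p : ℝ × ℝ => f ⟪g, x⟫ p.1 p.2) :=
    hf.comp (measurable_const.prodMk (measurable_fst.prodMk measurable_snd))
  have hmul : Measurable (fun p : ℝ × ℝ => f ⟪g, x⟫ (‖v‖ * p.1) (α * p.1 + β * p.2)) :=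
    hfx.comp ((measurable_const.mul measurable_fst).prodMk
      ((measurable_const.mul measurable_fst).add (measurable_const.mul measurable_snd)))
  have hswap : Measurable (fun p : ℝ × ℝ => f ⟪g, x⟫ (‖v‖ * p.2) (α * p.2 + β * p.1)) :=
    hmul.comp measurable_swap
  calc ∫⁻ t, ∫⁻ s, f ⟪g, x⟫ (‖v‖ * s) (α * s + β * t) ∂(gaussianReal 0 1) ∂(gaussianReal 0 1)
      ≤ ENNReal.ofReal (phi 0) *
        ∫⁻ t, (∫⁻ s, f ⟪g, x⟫ (‖v‖ * s) (α * s + β * t) ∂(gaussianReal 0 1)) :=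
        lintegral_gauss_le _
    _ ≤ ENNReal.ofReal (phi 0) *
        ∫⁻ t, (ENNReal.ofReal (phi 0) * ∫⁻ s, f ⟪g, x⟫ (‖v‖ * s) (α * s + β * t)) := by
        gcongr with t
        exact lintegral_gauss_le _
    _ = ENNReal.ofReal (phi 0) * (ENNReal.ofReal (phi 0) *
        ∫⁻ t, ∫⁻ s, f ⟪g, x⟫ (‖v‖ * s) (α * s + β * t)) := by
        rw [lintegral_const_mul']
        exact ENNReal.ofReal_ne_top
    _ = ENNReal.ofReal (phi 0) * (ENNReal.ofReal (phi 0) *
        ∫⁻ s, ∫⁻ t, f ⟪g, x⟫ (‖v‖ * s) (α * s + β * t)) := by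
        rw [lintegral_lintegral_swap hswap.aemeasurable]
    _ = ENNReal.ofReal (phi 0) * (ENNReal.ofReal (phi 0) *
        ∫⁻ s, (ENNReal.ofReal β⁻¹ * ∫⁻ B, f ⟪g, x⟫ (‖v‖ * s) B)) := by
        congr 2
        apply lintegral_congr
        intro s
        exact lintegral_affine hβ0 (α * s) (fun B => f ⟪g, x⟫ (‖v‖ * s) B)
          (hfx.comp (measurable_const.prodMk measurable_id))
    _ = ENNReal.ofReal (phi 0) * (ENNReal.ofReal (phi 0) * (ENNReal.ofReal β⁻¹ *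
        (ENNReal.ofReal ‖v‖⁻¹ * ∫⁻ A, ∫⁻ B, f ⟪g, x⟫ A B))) := by
        rw [lintegral_const_mul' _ _ ENNReal.ofReal_ne_top]
        congr 3
        have := lintegral_affine hv0 0 (fun A => ∫⁻ B, f ⟪g, x⟫ A B)
          hfx.lintegral_prod_right'
        simpa using this
    _ = ENNReal.ofReal (1 / (2 * Real.pi * Δ)) * ∫⁻ A, ∫⁻ B, f ⟪g, x⟫ A B := by
        rw [← mul_assoc, ← mul_assoc, ← mul_assoc, ← ENNReal.ofReal_mul (phi_nonneg 0),
          ← ENNReal.ofReal_mul (mul_nonneg (phi_nonneg 0) (phi_nonneg 0)),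
          ← ENNReal.ofReal_mul (mul_nonneg (mul_nonneg (phi_nonneg 0) (phi_nonneg 0))
            (inv_nonneg.mpr hβ0.le))]
        congr 2
        have h1 := phi_zero_sq
        rw [← sq, h1, hβ]
        have := Real.pi_pos
        field_simp

end Vale.Agent.P226
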