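import Mathlib
import Vale.Agent.P226.Full.PlaneBound

/-! [C] two dimensional small ball estimate for `dgap`. -/

open MeasureTheory ProbabilityTheory Set
open scoped RealInnerProductSpace ENNReal NNReal

set_option linter.unusedSectionVars false

namespace Vale.Agent.P226

variable {E : Type*} [NormedAddCommGroup E] [InnerProductSpace ℝ E] [FiniteDimensional ℝ E]
  [MeasurableSpace E] [BorelSpace E] {ι : Type*} [Fintype ι] [DecidableEq ι]

lemma lintegral_Iic_pow {n : ℕ} (hn : n ≠ 0) (S : ℝ) :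
    ∫⁻ z in Iic S, ENNReal.ofReal ((max 0 z) ^ n) =
      ENNReal.ofReal ((max 0 S) ^ (n + 1) / (n + 1)) := by
  have h1 : ∀ z, (Iic S).indicator (fun z => ENNReal.ofReal ((max 0 z) ^ n)) z =
      (Ioc 0 (max 0 S)).indicator (fun z => ENNReal.ofReal (z ^ n)) z := by
    intro z
    simp only [Set.indicator, mem_Iic, mem_Ioc]
    rcases le_or_gt z 0 with hz | hz
    · rw [max_eq_left hz, zero_pow hn,
        if_neg (c := 0 < z ∧ z ≤ max 0 S) (fun h => absurd h.1 (not_lt.mpr hz))]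
      simp
    · rw [max_eq_right hz.le]
      by_cases h : z ≤ S
      · rw [if_pos h, if_pos ⟨hz, h.trans (le_max_right _ _)⟩]
      · rw [if_neg h, if_neg]
        rintro ⟨_, h3⟩
        rcases le_max_iff.mp h3 with h4 | h4
        · linarith
        · exact h h4
  rw [← lintegral_indicator measurableSet_Iic, lintegral_congr h1,
    lintegral_indicator measurableSet_Ioc,
    ← ofReal_integral_eq_lintegral_ofReal, ← intervalIntegral.integral_of_le (le_max_left _ _),
    integral_pow]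
  · simp
  · rw [← IntegrableOn, ← intervalIntegrable_iff_integrableOn_Ioc_of_le (le_max_left _ _)]
    exact (continuous_pow n).intervalIntegrable _ _
  · refine (ae_restrict_iff' measurableSet_Ioc).mpr (Filter.Eventually.of_forall fun z hz => ?_)
    exact pow_nonneg hz.1.le n

lemma lintegral_Iic_affine {n : ℕ} (hn : n ≠ 0) {k : ℝ} (hk : 0 < k) (c T : ℝ) :
    ∫⁻ y in Iic T, ENNReal.ofReal ((max 0 (c + k * y)) ^ n) =
      ENNReal.ofReal ((max 0 (c + k * T)) ^ (n + 1) / (k * (n + 1))) := by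
  have h1 := lintegral_affine hk c
    ((Iic (c + k * T)).indicator (fun z => ENNReal.ofReal ((max 0 z) ^ n)))
    (Measurable.indicator (by fun_prop) measurableSet_Iic)
  rw [lintegral_indicator measurableSet_Iic, lintegral_Iic_pow hn,
    ← ENNReal.ofReal_mul (by positivity)] at h1
  rw [← lintegral_indicator measurableSet_Iic]
  have h2 : ∀ y, (Iic T).indicator (fun y => ENNReal.ofReal ((max 0 (c + k * y)) ^ n)) y =
      (Iic (c + k * T)).indicator (fun z => ENNReal.ofReal ((max 0 z) ^ n)) (c + k * y) := by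
    intro y
    simp only [Set.indicator, mem_Iic]
    have : c + k * y ≤ c + k * T ↔ y ≤ T := by
      rw [add_le_add_iff_left, mul_le_mul_iff_right₀ hk]
    simp only [this]
  rw [lintegral_congr h2, h1]
  congr 1
  field_simp

/-- the volume under the roof -/
lemma lintegral_roof {c : ℝ} (hc : 0 < c) (W : ℝ) :
    ∫⁻ A, ∫⁻ B, ENNReal.ofReal (W - max (max A B) (-(W + A + B) / c)) =
      ENNReal.ofReal ((max 0 ((c + 3) * W)) ^ 3 / (6 * (c + 2))) := by
  set S : Set (ℝ × ℝ × ℝ) := {p | p.1 < W ∧ p.2.1 ≤ p.1 ∧ p.2.2 ≤ p.1 ∧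
    -(W + p.2.1 + p.2.2) ≤ c * p.1} with hS
  have hSm : MeasurableSet S := by
    have e1 : MeasurableSet {p : ℝ × ℝ × ℝ | p.1 < W} :=
      measurableSet_lt (by fun_prop) (by fun_prop)
    have e2 : MeasurableSet {p : ℝ × ℝ × ℝ | p.2.1 ≤ p.1} :=
      measurableSet_le (by fun_prop) (by fun_prop)
    have e3 : MeasurableSet {p : ℝ × ℝ × ℝ | p.2.2 ≤ p.1} :=
      measurableSet_le (by fun_prop) (by fun_prop)
    have e4 : MeasurableSet {p : ℝ × ℝ × ℝ | -(W + p.2.1 + p.2.2) ≤ c * p.1} :=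
      measurableSet_le (by fun_prop) (by fun_prop)
    exact e1.inter (e2.inter (e3.inter e4))
  have hF : Measurable (fun p : ℝ × ℝ × ℝ => S.indicator (fun _ => (1 : ℝ≥0∞)) p) :=
    measurable_const.indicator hSm
  have h1 : ∀ A B : ℝ, ENNReal.ofReal (W - max (max A B) (-(W + A + B) / c)) =
      ∫⁻ t, S.indicator (fun _ => (1 : ℝ≥0∞)) (t, A, B) := by
    intro A B
    have h2 : ∀ t, S.indicator (fun _ => (1 : ℝ≥0∞)) (t, A, B) =
        (Ico (max (max A B) (-(W + A + B) / c)) W).indicator (fun _ => (1 : ℝ≥0∞)) t := by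
      intro t
      simp only [Set.indicator, hS, mem_ofPred_eq, mem_Ico, max_le_iff, div_le_iff₀ hc]
      congr 1
      rw [mul_comm t c]
      apply propext
      tauto
    rw [lintegral_congr h2, lintegral_indicator measurableSet_Ico]
    simp
  have h3 : ∫⁻ A, ∫⁻ B, ENNReal.ofReal (W - max (max A B) (-(W + A + B) / c)) =
      ∫⁻ t, ∫⁻ A, ∫⁻ B, S.indicator (fun _ => (1 : ℝ≥0∞)) (t, A, B) := by
    simp_rw [h1]
    have h4 : ∀ A, ∫⁻ B, ∫⁻ t, S.indicator (fun _ => (1 : ℝ≥0∞)) (t, A, B) =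
        ∫⁻ t, ∫⁻ B, S.indicator (fun _ => (1 : ℝ≥0∞)) (t, A, B) := by
      intro A
      apply lintegral_lintegral_swap
      apply Measurable.aemeasurable
      exact hF.comp (measurable_snd.prodMk (measurable_const.prodMk measurable_fst))
    simp_rw [h4]
    apply lintegral_lintegral_swap
    apply Measurable.aemeasurable
    apply Measurable.lintegral_prod_right'
      (f := fun p : (ℝ × ℝ) × ℝ => S.indicator (fun _ => (1 : ℝ≥0∞)) (p.1.2, p.1.1, p.2))
    exact hF.comp ((measurable_snd.comp measurable_fst).prodMk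
      ((measurable_fst.comp measurable_fst).prodMk measurable_snd))
  rw [h3]
  have h5 : ∀ t A, ∫⁻ B, S.indicator (fun _ => (1 : ℝ≥0∞)) (t, A, B) =
      (Iio W).indicator (fun t => (Iic t).indicator
        (fun A => ENNReal.ofReal ((max 0 (((1 + c) * t + W) + 1 * A)) ^ 1)) A) t := by
    intro t A
    by_cases ht : t < W
    · by_cases hA : A ≤ t
      · rw [indicator_of_mem (mem_Iio.mpr ht), indicator_of_mem (mem_Iic.mpr hA)]
        have h6 : ∀ B, S.indicator (fun _ => (1 : ℝ≥0∞)) (t, A, B) =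
            (Icc (-W - A - c * t) t).indicator (fun _ => (1 : ℝ≥0∞)) B := by
          intro B
          simp only [Set.indicator, hS, mem_ofPred_eq, mem_Icc]
          congr 1
          apply propext
          constructor
          · rintro ⟨_, _, h7, h8⟩
            exact ⟨by linarith, h7⟩
          · rintro ⟨h7, h8⟩
            exact ⟨ht, hA, h8, by linarith⟩
        rw [lintegral_congr h6, lintegral_indicator measurableSet_Icc]
        simp only [lintegral_const, MeasurableSet.univ, Measure.restrict_apply, univ_inter,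
          one_mul, Real.volume_Icc, pow_one]
        rw [show t - (-W - A - c * t) = (1 + c) * t + W + A by ring]
        rcases le_or_gt 0 ((1 + c) * t + W + A) with h9 | h9
        · rw [max_eq_right h9]
        · rw [max_eq_left h9.le, ENNReal.ofReal_of_nonpos h9.le, ENNReal.ofReal_zero]
      · rw [indicator_of_mem (mem_Iio.mpr ht), indicator_of_notMem (by simpa using hA)]
        rw [lintegral_eq_zero_of_ae_eq_zero]
        refine Filter.Eventually.of_forall fun B => ?_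
        apply indicator_of_notMem
        rintro ⟨_, h7, _⟩
        exact hA h7
    · rw [indicator_of_notMem (by simpa using ht)]
      rw [lintegral_eq_zero_of_ae_eq_zero]
      refine Filter.Eventually.of_forall fun B => ?_
      apply indicator_of_notMem
      rintro ⟨h7, _⟩
      exact ht h7
  simp_rw [h5]
  have h10 : ∀ t, ∫⁻ A, (Iio W).indicator (fun t => (Iic t).indicator
        (fun A => ENNReal.ofReal ((max 0 (((1 + c) * t + W) + 1 * A)) ^ 1)) A) t =
      (Iio W).indicator (fun t => ENNReal.ofReal (1 / 2) *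
        ENNReal.ofReal ((max 0 (W + (c + 2) * t)) ^ 2)) t := by
    intro t
    by_cases ht : t < W
    · simp only [indicator_of_mem (mem_Iio.mpr ht)]
      rw [lintegral_indicator measurableSet_Iic, lintegral_Iic_affine one_ne_zero one_pos,
        ← ENNReal.ofReal_mul (by norm_num)]
      congr 1
      rw [show (1 + c) * t + W + 1 * t = W + (c + 2) * t by ring]
      norm_num
      ring
    · simp only [indicator_of_notMem (show t ∉ Iio W by simpa using ht)]
      simp
  rw [lintegral_congr h10, lintegral_indicator measurableSet_Iio,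
    lintegral_const_mul' _ _ ENNReal.ofReal_ne_top,
    restrict_Iio_eq_restrict_Iic, lintegral_Iic_affine two_ne_zero (by linarith),
    ← ENNReal.ofReal_mul (by norm_num)]
  congr 1
  rw [show W + (c + 2) * W = (c + 3) * W by ring]
  have : c + 2 ≠ 0 := by linarith
  field_simp
  norm_num
  ring

lemma third_moment : ∫⁻ s, ENNReal.ofReal ((max 0 s) ^ 3) ∂(gaussianReal 0 1) =
    ENNReal.ofReal (2 * phi 0) := by
  have h1 : ∀ s : ℝ, ENNReal.ofReal ((max 0 s) ^ 3) =
      (Ici (0 : ℝ)).indicator (fun s => ENNReal.ofReal (s ^ 3)) s := by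
    intro s
    by_cases hs : 0 ≤ s
    · rw [indicator_of_mem (mem_Ici.mpr hs), max_eq_right hs]
    · rw [indicator_of_notMem (by simpa using hs), max_eq_left (not_le.mp hs).le]
      simp
  rw [lintegral_congr h1, lintegral_indicator measurableSet_Ici,
    ← ofReal_integral_eq_lintegral_ofReal]
  · congr 1
    rw [moment_half]
    have h2 := half_moment_rec 1
    have h3 := integral_Ioi_mul_phi 0
    norm_num at h2
    rw [h2, h3]
  · exact (integrable_pow_gauss 3).integrableOn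
  · refine (ae_restrict_iff' measurableSet_Ici).mpr (Filter.Eventually.of_forall fun z hz => ?_)
    exact pow_nonneg hz 3

lemma inner_le_omax (u : ι → E) {i j : ι} (hj : j ≠ i) (x : E) : ⟪u j, x⟫ ≤ omax u i x :=
  le_ciSup (f := fun j : {j // j ≠ i} => ⟪u j, x⟫) (Set.finite_range _).bddAbove ⟨j, hj⟩

lemma roof_le_omax {u : ι → E} (hsum : ∑ j, u j = 0) (hK : 4 ≤ Fintype.card ι) {i a b : ι}
    (ha : a ≠ i) (hb : b ≠ i) (hab : a ≠ b) (x : E) :
    max (max ⟪u a, x⟫ ⟪u b, x⟫) (-(⟪u i, x⟫ + ⟪u a, x⟫ + ⟪u b, x⟫) / ((Fintype.card ι : ℝ) - 3)) ≤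
      omax u i x := by
  have hc : (0 : ℝ) < (Fintype.card ι : ℝ) - 3 := by
    have : (4 : ℝ) ≤ Fintype.card ι := by exact_mod_cast hK
    linarith
  refine max_le (max_le (inner_le_omax u ha x) (inner_le_omax u hb x)) ?_
  rw [div_le_iff₀ hc]
  have h1 : ∑ j, ⟪u j, x⟫ = 0 := by rw [← sum_inner, hsum, inner_zero_left]
  have h2 : ∑ j ∈ Finset.univ \ {i, a, b}, ⟪u j, x⟫ = -(⟪u i, x⟫ + ⟪u a, x⟫ + ⟪u b, x⟫) := by
    have h3 := Finset.sum_sdiff (Finset.subset_univ ({i, a, b} : Finset ι))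
      (f := fun j => ⟪u j, x⟫)
    rw [h1, Finset.sum_insert (by simp [ha.symm, hb.symm]), Finset.sum_insert (by simp [hab]),
      Finset.sum_singleton] at h3
    linarith
  rw [← h2]
  have h4 : ∑ j ∈ Finset.univ \ {i, a, b}, ⟪u j, x⟫ ≤
      ∑ j ∈ Finset.univ \ {i, a, b}, omax u i x := by
    apply Finset.sum_le_sum
    intro j hj
    apply inner_le_omax
    rintro rfl
    simp at hj
  rw [Finset.sum_const, Finset.card_sdiff_of_subset (Finset.subset_univ _), Finset.card_univ,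
    Finset.card_insert_of_notMem (by simp [ha.symm, hb.symm]),
    Finset.card_insert_of_notMem (by simp [hab]), Finset.card_singleton, nsmul_eq_mul,
    Nat.cast_sub (by omega)] at h4
  push_cast at h4
  linarith

/-- [C] -/
theorem Opt.dgap_small' {u : ι → E} (hu : Opt u) (hK : 4 ≤ Fintype.card ι) {i a b : ι}
    (ha : a ≠ i) (hb : b ≠ i) (hab : a ≠ b) {Δ : ℝ} (hΔ : 0 < Δ)
    (hD : Δ ^ 2 = (‖u a‖ ^ 2 - ⟪u i, u a⟫ ^ 2 / ‖u i‖ ^ 2) *
      (‖u b‖ ^ 2 - ⟪u i, u b⟫ ^ 2 / ‖u i‖ ^ 2) -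
      (⟪u a, u b⟫ - ⟪u i, u a⟫ * ⟪u i, u b⟫ / ‖u i‖ ^ 2) ^ 2) :
    dgap u i ≤ (Fintype.card ι : ℝ) ^ 3 * (2 * phi 0) * ‖u i‖ ^ 3 /
      (12 * Real.pi * (Fintype.card ι - 1) * Δ) := by
  have : Nontrivial ι := ⟨a, i, ha⟩
  set K : ℝ := (Fintype.card ι : ℝ) with hKdef
  have hK4 : (4 : ℝ) ≤ K := by rw [hKdef]; exact_mod_cast hK
  have hc : 0 < K - 3 := by linarith
  have hn := hu.norm_pos i
  have hφ := phi_pos 0
  have hπ := Real.pi_pos
  set e := dir u i with he
  have hne : ‖e‖ = 1 := hu.norm_dir i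
  have hin : ∀ x, ⟪u i, x⟫ = ‖u i‖ * ⟪e, x⟫ := fun x => hu.inner_eq i x
  have hee : ⟪e, e⟫ = 1 := by rw [real_inner_self_eq_norm_sq, hne]; norm_num
  clear_value e K
  set p := ⟪e, u a⟫ with hp
  set q := ⟪e, u b⟫ with hq
  -- the bound for the lower integral
  have hR : 0 ≤ K ^ 3 * (2 * phi 0) * ‖u i‖ ^ 3 / (12 * Real.pi * (K - 1) * Δ) := by
    have : 0 < K - 1 := by linarith
    positivity
  have hmain : ∫⁻ x, ENNReal.ofReal (⟪u i, x⟫ - max (max ⟪u a, x⟫ ⟪u b, x⟫)
      (-(⟪u i, x⟫ + ⟪u a, x⟫ + ⟪u b, x⟫) / (K - 3))) ∂(stdGaussian E) ≤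
      ENNReal.ofReal (K ^ 3 * (2 * phi 0) * ‖u i‖ ^ 3 / (12 * Real.pi * (K - 1) * Δ)) := by
    set f : ℝ → ℝ → ℝ → ℝ≥0∞ := fun ξ A B =>
      ENNReal.ofReal (‖u i‖ * ξ - max (max (A + p * ξ) (B + q * ξ))
        (-(‖u i‖ * ξ + (A + p * ξ) + (B + q * ξ)) / (K - 3))) with hf
    have hfm : Measurable (fun p : ℝ × ℝ × ℝ => f p.1 p.2.1 p.2.2) := by
      apply ENNReal.measurable_ofReal.comp
      fun_prop
    have hv : ⟪e, u a - p • e⟫ = 0 := by
      rw [inner_sub_right, inner_smul_right, hee, ← hp]; ring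
    have hw : ⟪e, u b - q • e⟫ = 0 := by
      rw [inner_sub_right, inner_smul_right, hee, ← hq]; ring
    have hpa : p = ⟪u i, u a⟫ / ‖u i‖ := by rw [hin, ← hp]; field_simp
    have hqb : q = ⟪u i, u b⟫ / ‖u i‖ := by rw [hin, ← hq]; field_simp
    have hnv : ‖u a - p • e‖ ^ 2 = ‖u a‖ ^ 2 - ⟪u i, u a⟫ ^ 2 / ‖u i‖ ^ 2 := by
      rw [norm_sub_sq_real, inner_smul_right, real_inner_comm, ← hp, norm_smul, hne, mul_one,
        Real.norm_eq_abs, sq_abs, ← div_pow, ← hpa]
      ring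
    have hnw : ‖u b - q • e‖ ^ 2 = ‖u b‖ ^ 2 - ⟪u i, u b⟫ ^ 2 / ‖u i‖ ^ 2 := by
      rw [norm_sub_sq_real, inner_smul_right, real_inner_comm, ← hq, norm_smul, hne, mul_one,
        Real.norm_eq_abs, sq_abs, ← div_pow, ← hqb]
      ring
    have hvw : ⟪u a - p • e, u b - q • e⟫ =
        ⟪u a, u b⟫ - ⟪u i, u a⟫ * ⟪u i, u b⟫ / ‖u i‖ ^ 2 := by
      have h1 : ⟪u a - p • e, u b - q • e⟫ = ⟪u a, u b⟫ - p * q := by
        rw [inner_sub_right, inner_smul_right, inner_sub_left, inner_smul_left,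
          real_inner_comm e (u a - p • e), hv, ← hq]
        simp
      rw [h1, hpa, hqb]
      field_simp
    have hD' : Δ ^ 2 = ‖u a - p • e‖ ^ 2 * ‖u b - q • e‖ ^ 2 -
        ⟪u a - p • e, u b - q • e⟫ ^ 2 := by
      rw [hnv, hnw, hvw, hD]
    have h0 := plane_bound' hv hw hΔ hD' f hfm
    have h1 : ∀ x, f ⟪e, x⟫ ⟪u a - p • e, x⟫ ⟪u b - q • e, x⟫ =
        ENNReal.ofReal (⟪u i, x⟫ - max (max ⟪u a, x⟫ ⟪u b, x⟫)
          (-(⟪u i, x⟫ + ⟪u a, x⟫ + ⟪u b, x⟫) / (K - 3))) := by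
      intro x
      have h2 : ⟪u a - p • e, x⟫ + p * ⟪e, x⟫ = ⟪u a, x⟫ := by
        rw [inner_sub_left, inner_smul_left]; simp
      have h3 : ⟪u b - q • e, x⟫ + q * ⟪e, x⟫ = ⟪u b, x⟫ := by
        rw [inner_sub_left, inner_smul_left]; simp
      simp only [hf, h2, h3, hin x]
    simp_rw [h1] at h0
    refine h0.trans ?_
    have h4 : ∀ x, ∫⁻ A, ∫⁻ B, f ⟪e, x⟫ A B =
        ENNReal.ofReal ((K * ‖u i‖) ^ 3 / (6 * (K - 1))) *
          ENNReal.ofReal ((max 0 ⟪e, x⟫) ^ 3) := by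
      intro x
      have h5 : ∀ A, ∫⁻ B, f ⟪e, x⟫ A B = ∫⁻ B,
          ENNReal.ofReal (‖u i‖ * ⟪e, x⟫ - max (max (A + p * ⟪e, x⟫) B)
            (-(‖u i‖ * ⟪e, x⟫ + (A + p * ⟪e, x⟫) + B) / (K - 3))) := by
        intro A
        exact lintegral_add_right_eq_self (μ := (volume : Measure ℝ)) (fun B =>
          ENNReal.ofReal (‖u i‖ * ⟪e, x⟫ - max (max (A + p * ⟪e, x⟫) B)
            (-(‖u i‖ * ⟪e, x⟫ + (A + p * ⟪e, x⟫) + B) / (K - 3)))) (q * ⟪e, x⟫)
      simp_rw [h5]
      rw [lintegral_add_right_eq_self (μ := (volume : Measure ℝ)) (fun A => ∫⁻ B,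
          ENNReal.ofReal (‖u i‖ * ⟪e, x⟫ - max (max A B)
            (-(‖u i‖ * ⟪e, x⟫ + A + B) / (K - 3)))) (p * ⟪e, x⟫),
        lintegral_roof hc, ← ENNReal.ofReal_mul (by
          have : 0 < K - 1 := by linarith
          positivity)]
      congr 1
      have h6 : max 0 ((K - 3 + 3) * (‖u i‖ * ⟪e, x⟫)) = (K * ‖u i‖) * max 0 ⟪e, x⟫ := by
        rw [mul_max_of_nonneg _ _ (by positivity), mul_zero]
        congr 1
        ring
      rw [h6, show K - 3 + 2 = K - 1 by ring]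
      ring
    simp_rw [h4]
    rw [lintegral_const_mul' _ _ ENNReal.ofReal_ne_top]
    have h7 : ∫⁻ x, ENNReal.ofReal ((max 0 ⟪e, x⟫) ^ 3) ∂(stdGaussian E) =
        ENNReal.ofReal (2 * phi 0) := by
      rw [← third_moment, ← map_inner_unit e hne, lintegral_map (by fun_prop) (by fun_prop)]
    rw [h7, ← ENNReal.ofReal_mul (by
          have : 0 < K - 1 := by linarith
          positivity), ← ENNReal.ofReal_mul (by positivity)]
    apply le_of_eq
    congr 1
    have : K - 1 ≠ 0 := by linarith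
    field_simp
    ring
  have hle : ∫⁻ x, ENNReal.ofReal (max 0 (⟪u i, x⟫ - omax u i x)) ∂(stdGaussian E) ≤
      ENNReal.ofReal (K ^ 3 * (2 * phi 0) * ‖u i‖ ^ 3 / (12 * Real.pi * (K - 1) * Δ)) := by
    refine le_trans (lintegral_mono fun x => ?_) hmain
    rw [ENNReal.ofReal_max]
    simp only [ENNReal.ofReal_zero, zero_le, sup_of_le_right]
    apply ENNReal.ofReal_le_ofReal
    have := roof_le_omax hu.sum hK ha hb hab x
    rw [← hKdef] at this
    linarith
  unfold dgap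
  by_cases hint : Integrable (fun x => max 0 (⟪u i, x⟫ - omax u i x)) (stdGaussian E)
  · rw [integral_eq_lintegral_of_nonneg_ae (show 0 ≤ᵐ[stdGaussian E]
      (fun x => max 0 (⟪u i, x⟫ - omax u i x)) from
        Filter.Eventually.of_forall fun x => le_max_left _ _) hint.aestronglyMeasurable]
    exact ENNReal.toReal_le_of_le_ofReal hR hle
  · rw [integral_undef hint]
    exact hR

end Vale.Agent.P226
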