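import Mathlib
import Vale.Agent.P226.Full.Dat

/-! [HE] Heron lemma -/

open Set Finset
open scoped RealInnerProductSpace ENNReal NNReal

set_option linter.unusedSectionVars false

namespace Vale.Agent.P226

lemma heron_scalar {ya yb yc ea eb ec W : ℝ} (ha : 0 ≤ ea) (hb : 0 ≤ eb) (hc : 0 ≤ ec)
    (hW : ea + eb + ec ≤ W) (hca : yc ≤ ya) (hcb : yc ≤ yb) (hyb : 0 ≤ yb) :
    f3 ya yb (yc - W) ≤ f3 (ya - ea) (yb - eb) (yc - ec) := by
  have h1 : f3 (ya - ea) (yb - eb) (yc - ec) - f3 ya yb (yc - W) =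
      2 * (W - (ea + eb + ec)) * (ya + yb - yc) +
      (W - (ea + eb + ec)) * (W + (ea + eb + ec)) +
      4 * ea * (ya - yc) + 4 * eb * (yb - yc) + 4 * (ea * eb + eb * ec + ec * ea) := by
    unfold f3; ring
  have h2 : 0 ≤ W - (ea + eb + ec) := by linarith
  have h3 : 0 ≤ ya + yb - yc := by linarith
  have h4 : 0 ≤ W + (ea + eb + ec) := by linarith
  have h5 : 0 ≤ ya - yc := by linarith
  have h6 : 0 ≤ yb - yc := by linarith
  have : 0 ≤ f3 (ya - ea) (yb - eb) (yc - ec) - f3 ya yb (yc - W) := by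
    rw [h1]; positivity
  linarith

/-- [HE] Heron lemma, used with `w = u l`, `J = univ.erase l`, `W = ‖u l‖²`, and with
`w = rest u J`, `W = ∑_{Jᶜ} ‖u i‖²`. -/
theorem heron_core {E : Type*} [NormedAddCommGroup E] [InnerProductSpace ℝ E] {ι : Type*}
    [DecidableEq ι] {u : ι → E} {w : E} (hw : w ≠ 0) {J : Finset ι}
    (hneg : ∀ i ∈ J, ∀ j ∈ J, i ≠ j → ⟪u i, u j⟫ ≤ 0) (hwneg : ∀ j ∈ J, ⟪w, u j⟫ ≤ 0)
    (hsum : ∑ j ∈ J, u j = -w) {a b c : ι} (ha : a ∈ J) (hb : b ∈ J) (hc : c ∈ J)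
    (hab : a ≠ b) (hac : a ≠ c) (hbc : b ≠ c) (hca : ‖u c‖ ^ 2 ≤ ‖u a‖ ^ 2)
    (hcb : ‖u c‖ ^ 2 ≤ ‖u b‖ ^ 2) {W : ℝ} (hW : ‖w‖ ^ 2 ≤ W)
    (hpos : 0 < f3 (‖u a‖ ^ 2) (‖u b‖ ^ 2) (‖u c‖ ^ 2 - W)) :
    ∃ i ∈ J, ∃ j ∈ J, i ≠ j ∧ ∃ Δ : ℝ, 0 < Δ ∧
      Δ ^ 2 = (‖u i‖ ^ 2 - ⟪w, u i⟫ ^ 2 / ‖w‖ ^ 2) * (‖u j‖ ^ 2 - ⟪w, u j⟫ ^ 2 / ‖w‖ ^ 2) -
        (⟪u i, u j⟫ - ⟪w, u i⟫ * ⟪w, u j⟫ / ‖w‖ ^ 2) ^ 2 ∧
      f3 (‖u a‖ ^ 2) (‖u b‖ ^ 2) (‖u c‖ ^ 2 - W) ≤ 4 * Δ ^ 2 := by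
  have hS : 0 < ‖w‖ ^ 2 := by have := norm_pos_iff.mpr hw; positivity
  set S := ‖w‖ ^ 2 with hSdef
  set y : ι → ℝ := fun j => ‖u j‖ ^ 2 with hy
  set β : ι → ℝ := fun j => -⟪w, u j⟫ with hβ
  have hβ0 : ∀ j ∈ J, 0 ≤ β j := fun j hj => by simp only [hβ]; linarith [hwneg j hj]
  have hβsum : ∑ j ∈ J, β j = S := by
    simp only [hβ]
    rw [Finset.sum_neg_distrib, ← inner_sum, hsum, inner_neg_right, neg_neg,
      real_inner_self_eq_norm_sq]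
  set ε : ι → ℝ := fun j => β j ^ 2 / S with hε
  have hε0 : ∀ j, 0 ≤ ε j := fun j => by simp only [hε]; positivity
  have hβS : ∀ j ∈ J, β j ≤ S := fun j hj => by
    rw [← hβsum]; exact Finset.single_le_sum hβ0 hj
  have hεβ : ∀ j ∈ J, ε j ≤ β j := fun j hj => by
    simp only [hε]
    rw [div_le_iff₀ hS, sq]
    exact mul_le_mul_of_nonneg_left (hβS j hj) (hβ0 j hj)
  have hεS : ε a + ε b + ε c ≤ W := by
    have h1 : ∑ j ∈ ({a, b, c} : Finset ι), β j ≤ ∑ j ∈ J, β j := by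
      apply Finset.sum_le_sum_of_subset_of_nonneg
      · intro j hj
        simp only [Finset.mem_insert, Finset.mem_singleton] at hj
        rcases hj with rfl | rfl | rfl <;> assumption
      · intro j hj _; exact hβ0 j hj
    rw [Finset.sum_insert (by simp [hab, hac]), Finset.sum_insert (by simp [hbc]),
      Finset.sum_singleton, hβsum] at h1
    linarith [hεβ a ha, hεβ b hb, hεβ c hc]
  set cc : ι → ι → ℝ := fun i j => -⟪u i, u j⟫ + β i * β j / S with hcc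
  have hcc0 : ∀ i ∈ J, ∀ j ∈ J, i ≠ j → 0 ≤ cc i j := fun i hi j hj hij => by
    simp only [hcc]
    have h1 := hneg i hi j hj hij
    have h2 : 0 ≤ β i * β j / S := div_nonneg (mul_nonneg (hβ0 i hi) (hβ0 j hj)) hS.le
    linarith
  have hccsum : ∀ i ∈ J, ∑ j ∈ J.erase i, cc i j = y i - ε i := by
    intro i hi
    have h1 : ∑ j ∈ J, cc i j = ⟪u i, w⟫ + β i := by
      simp only [hcc]
      rw [Finset.sum_add_distrib, Finset.sum_neg_distrib, ← inner_sum, hsum, ← Finset.sum_div,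
        ← Finset.mul_sum, hβsum, inner_neg_right, neg_neg]
      field_simp
    have h2 := Finset.add_sum_erase J (fun j => cc i j) hi
    have h3 : cc i i = -y i + ε i := by
      simp only [hcc, hε, hy]
      rw [real_inner_self_eq_norm_sq]; ring
    have h4 : ⟪u i, w⟫ + β i = 0 := by
      simp only [hβ]; rw [real_inner_comm]; ring
    simp only [h3] at h2
    linarith
  have htwo : ∀ i ∈ J, ∀ j ∈ J, ∀ l ∈ J, i ≠ j → i ≠ l → j ≠ l →
      cc i j + cc i l ≤ y i - ε i := by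
    intro i hi j hj l hl hij hil hjl
    rw [← hccsum i hi]
    have h1 : ∑ m ∈ ({j, l} : Finset ι), cc i m ≤ ∑ m ∈ J.erase i, cc i m := by
      apply Finset.sum_le_sum_of_subset_of_nonneg
      · intro m hm
        simp only [Finset.mem_insert, Finset.mem_singleton] at hm
        rcases hm with rfl | rfl
        · exact Finset.mem_erase.mpr ⟨hij.symm, hj⟩
        · exact Finset.mem_erase.mpr ⟨hil.symm, hl⟩
      · intro m hm _
        exact hcc0 i hi m (Finset.mem_of_mem_erase hm) (Finset.ne_of_mem_erase hm).symm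
    rwa [Finset.sum_insert (by simp [hjl]), Finset.sum_singleton] at h1
  have hmain : f3 (y a) (y b) (y c - W) ≤ f3 (y a - ε a) (y b - ε b) (y c - ε c) :=
    heron_scalar (hε0 a) (hε0 b) (hε0 c) hεS hca hcb (by simp only [hy]; positivity)
  have hfin : ∀ i ∈ J, ∀ j ∈ J, ∀ l, i ≠ j →
      f3 (y a - ε a) (y b - ε b) (y c - ε c) = f3 (y l - ε l) (y i - ε i) (y j - ε j) →
      cc i j ≤ ((y i - ε i) + (y j - ε j) - (y l - ε l)) / 2 →
      ∃ i ∈ J, ∃ j ∈ J, i ≠ j ∧ ∃ Δ : ℝ, 0 < Δ ∧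
      Δ ^ 2 = (‖u i‖ ^ 2 - ⟪w, u i⟫ ^ 2 / S) * (‖u j‖ ^ 2 - ⟪w, u j⟫ ^ 2 / S) -
        (⟪u i, u j⟫ - ⟪w, u i⟫ * ⟪w, u j⟫ / S) ^ 2 ∧
      f3 (y a) (y b) (y c - W) ≤ 4 * Δ ^ 2 := by
    intro i hi j hj l hij hf hle
    refine ⟨i, hi, j, hj, hij, ?_⟩
    have h0 := hcc0 i hi j hj hij
    have hsq : cc i j ^ 2 ≤ (((y i - ε i) + (y j - ε j) - (y l - ε l)) / 2) ^ 2 :=
      pow_le_pow_left₀ h0 hle 2
    set D := (y i - ε i) * (y j - ε j) - cc i j ^ 2 with hD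
    have h1 : f3 (y l - ε l) (y i - ε i) (y j - ε j) ≤ 4 * D := by
      rw [hD]; unfold f3; nlinarith
    have h2 : f3 (y a) (y b) (y c - W) ≤ 4 * D := hmain.trans (hf.le.trans h1)
    have h3 : 0 < D := by linarith
    refine ⟨Real.sqrt D, Real.sqrt_pos.mpr h3, ?_, ?_⟩
    · rw [Real.sq_sqrt h3.le, hD]
      simp only [hy, hε, hcc, hβ]
      ring
    · rw [Real.sq_sqrt h3.le]
      exact h2
  by_cases h1 : cc a b ≤ ((y a - ε a) + (y b - ε b) - (y c - ε c)) / 2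
  · exact hfin a ha b hb c hab (by unfold f3; ring) h1
  · by_cases h2 : cc a c ≤ ((y a - ε a) + (y c - ε c) - (y b - ε b)) / 2
    · exact hfin a ha c hc b hac (by unfold f3; ring) h2
    · exfalso
      push Not at h1 h2
      have := htwo a ha b hb c hc hab hac hbc
      linarith

end Vale.Agent.P226
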