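import Mathlib
import Vale.Agent.P226.Full.Base
import Vale.Agent.P262.BanA

/-! [B] Prekopa bound for `dgap`. -/

open MeasureTheory ProbabilityTheory Set
open scoped RealInnerProductSpace ENNReal NNReal

set_option linter.unusedSectionVars false

namespace Vale.Agent.P226

/-- the part of the cone at level at least `τ` -/
def lset {E : Type*} [NormedAddCommGroup E] [InnerProductSpace ℝ E] {ι : Type*} (u : ι → E) (i : ι)
    (τ : ℝ) : Set E := {x | ∀ l, l ≠ i → τ ≤ ⟪u i - u l, x⟫}

section general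

variable {E : Type*} [NormedAddCommGroup E] [InnerProductSpace ℝ E] [FiniteDimensional ℝ E]
  [MeasurableSpace E] [BorelSpace E] {ι : Type*} [Fintype ι] [DecidableEq ι] [Nontrivial ι]

lemma lset_zero (u : ι → E) (i : ι) : lset u i 0 = cone u i := by
  ext x
  constructor
  · intro h l
    by_cases hl : l = i
    · subst hl; simp
    · exact h l hl
  · intro h l _
    exact h l

lemma measurableSet_lset (u : ι → E) (i : ι) (τ : ℝ) : MeasurableSet (lset u i τ) := by
  have : lset u i τ = ⋂ l, ⋂ (_ : l ≠ i), {x : E | τ ≤ ⟪u i - u l, x⟫} := by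
    ext x; simp [lset]
  rw [this]
  exact MeasurableSet.iInter fun l => MeasurableSet.iInter fun _ =>
    measurableSet_le measurable_const (by fun_prop)

lemma lset_anti (u : ι → E) (i : ι) {s t : ℝ} (h : s ≤ t) : lset u i t ⊆ lset u i s :=
  fun _ hx l hl => h.trans (hx l hl)

lemma mem_lset_iff (u : ι → E) (i : ι) (τ : ℝ) (x : E) :
    x ∈ lset u i τ ↔ τ ≤ ⟪u i, x⟫ - omax u i x := by
  have hne : Nonempty {j // j ≠ i} := by
    obtain ⟨j, hj⟩ := exists_ne i
    exact ⟨⟨j, hj⟩⟩
  unfold omax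
  rw [le_sub_comm, ciSup_le_iff (Set.finite_range _).bddAbove]
  constructor
  · rintro h ⟨j, hj⟩
    have := h j hj
    rw [inner_sub_left] at this
    simp only
    linarith
  · intro h l hl
    have := h ⟨l, hl⟩
    rw [inner_sub_left]
    simp only at this
    linarith

lemma measurable_omax (u : ι → E) (i : ι) : Measurable (omax u i) := by
  unfold omax
  exact Measurable.iSup fun j => by fun_prop

lemma real_Ico_ge (β δ : ℝ) (hδ : 0 ≤ δ) :
    δ * phi β ≤ (gaussianReal 0 1).real (Ico β (β + δ)) + δ ^ 2 := by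
  rw [real_Ico_eq]
  have h : ∫ s in Ico β (β + δ), (phi β - δ) ≤ ∫ s in Ico β (β + δ), phi s := by
    apply setIntegral_mono_on (by simp) integrable_phi.integrableOn measurableSet_Ico
    intro s hs
    have h1 := (abs_le.mp (abs_sub_phi s β)).1
    have h2 : |s - β| ≤ δ := by rw [abs_of_nonneg (by linarith [hs.1])]; linarith [hs.2]
    linarith
  have h3 : ∫ s in Ico β (β + δ), (phi β - δ) = δ * phi β - δ ^ 2 := by
    simp [hδ]; ring
  linarith

/-- lower bound for the mass between the levels `0` and `h` -/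
lemma flux_ge {u : ι → E} {i : ι} {a : E} (ha : ∀ l, l ≠ i → ⟪u i - u l, a⟫ = 1) (c : ℝ)
    (hc : ⟪a, firstMoment (cone u i)⟫ = c) (h : ℝ) (hh : 0 ≤ h) :
    h * c ≤ ((stdGaussian E).real (cone u i) - (stdGaussian E).real (lset u i h)) +
      ‖a‖ ^ 2 * h ^ 2 := by
  obtain ⟨j0, hj0⟩ := exists_ne i
  have ha0 : a ≠ 0 := by
    rintro rfl
    have := ha j0 hj0
    simp at this
  have hn : 0 < ‖a‖ := norm_pos_iff.mpr ha0
  set e : E := (‖a‖⁻¹ : ℝ) • a with he_def
  have he : ‖e‖ = 1 := by
    rw [he_def, norm_smul, norm_inv, norm_norm, inv_mul_cancel₀ hn.ne']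
  have hye : ∀ l, l ≠ i → ⟪u i - u l, e⟫ = ‖a‖⁻¹ := by
    intro l hl
    rw [he_def, inner_smul_right, ha l hl, mul_one]
  -- thresholds
  have hthr : ∀ x : E, ∃ N : ℝ, ∀ τ s : ℝ, split e (s, x) ∈ lset u i τ ↔ N + ‖a‖ * τ ≤ s := by
    intro x
    obtain ⟨m, hm, hmin⟩ := Finset.exists_min_image (Finset.univ.erase i)
      (fun l => ⟪u i - u l, x - ⟪e, x⟫ • e⟫) ⟨j0, by simp [hj0]⟩
    have hmi : m ≠ i := Finset.ne_of_mem_erase hm
    refine ⟨-(‖a‖ * ⟪u i - u m, x - ⟪e, x⟫ • e⟫), fun τ s => ?_⟩
    have key : ∀ l, l ≠ i → (τ ≤ ⟪u i - u l, split e (s, x)⟫ ↔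
        -(‖a‖ * ⟪u i - u l, x - ⟪e, x⟫ • e⟫) + ‖a‖ * τ ≤ s) := by
      intro l hl
      rw [inner_split', hye l hl]
      have e1 : s * ‖a‖⁻¹ + ⟪u i - u l, x - ⟪e, x⟫ • e⟫ =
          ‖a‖⁻¹ * (s + ‖a‖ * ⟪u i - u l, x - ⟪e, x⟫ • e⟫) := by field_simp
      rw [e1, le_inv_mul_iff₀ hn]
      constructor <;> intro h' <;> linarith
    constructor
    · intro hs
      exact (key m hmi).mp (hs m hmi)
    · intro hs l hl
      refine (key l hl).mpr ?_
      have h1 := hmin l (by simp [hl])
      have h2 := mul_le_mul_of_nonneg_left h1 hn.le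
      linarith
  have hms : MeasurableSet (cone u i \ lset u i h) :=
    (measurableSet_cone u i).diff (measurableSet_lset u i h)
  have h0 := integral_le_of_split e he
    (f := (cone u i).indicator (fun x => (‖a‖ * h) * ⟪e, x⟫))
    (g := (cone u i \ lset u i h).indicator (fun _ => (1 : ℝ)))
    (((integrable_inner e).const_mul _).indicator (measurableSet_cone u i))
    ((integrable_const _).indicator hms)
    ((‖a‖ * h) ^ 2) ?_
  · rw [integral_indicator hms, integral_indicator (measurableSet_cone u i), integral_const_mul,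
      ← inner_firstMoment] at h0
    have h1 : ⟪e, firstMoment (cone u i)⟫ = ‖a‖⁻¹ * c := by
      rw [he_def, inner_smul_left, hc]; simp
    rw [h1] at h0
    have h2 : ‖a‖ * h * (‖a‖⁻¹ * c) = h * c := by field_simp
    rw [h2] at h0
    simp only [integral_const, smul_eq_mul, mul_one, measureReal_restrict_apply_univ] at h0
    have hsub : lset u i h ⊆ cone u i := by
      rw [← lset_zero]
      exact lset_anti u i hh
    rw [measureReal_sdiff hsub (measurableSet_lset u i h)] at h0
    refine h0.trans (le_of_eq ?_)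
    ring
  · intro x
    rw [slice_integral e _ hms, slice_integral e _ (measurableSet_cone u i)]
    obtain ⟨N, hN⟩ := hthr x
    have h2 : {s | split e (s, x) ∈ cone u i} = Ici N := by
      ext s
      rw [← lset_zero]
      simp only [Set.mem_ofPred_eq, mem_Ici, hN, mul_zero, add_zero]
    have h1 : {s | split e (s, x) ∈ cone u i \ lset u i h} = Ico N (N + ‖a‖ * h) := by
      ext s
      rw [← lset_zero]
      simp only [Set.mem_ofPred_eq, mem_sdiff, mem_Ico, hN, mul_zero, add_zero, not_le]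
    rw [h1, h2]
    simp only [inner_split_self e he]
    rw [integral_const_mul, integral_Ici_id]
    have h3 := real_Ico_ge N (‖a‖ * h) (by positivity)
    simpa using h3

/-- layer cake on a grid -/
lemma dgap_le_tsum (u : ι → E) (i : ι) {h : ℝ} (hh : 0 < h) :
    ENNReal.ofReal (dgap u i) ≤ ∑' k : ℕ, ENNReal.ofReal h * stdGaussian E (lset u i (k * h)) := by
  unfold dgap
  have hmeas : Measurable (fun x : E => max 0 (⟪u i, x⟫ - omax u i x)) :=
    measurable_const.max ((by fun_prop : Measurable fun x : E => ⟪u i, x⟫).sub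
      (measurable_omax u i))
  rw [integral_eq_lintegral_of_nonneg_ae (f := fun x : E => max 0 (⟪u i, x⟫ - omax u i x))
    (Filter.Eventually.of_forall fun x => le_max_left (0 : ℝ) (⟪u i, x⟫ - omax u i x))
    hmeas.aestronglyMeasurable]
  refine ENNReal.ofReal_toReal_le.trans ?_
  have hpt : ∀ x : E, ENNReal.ofReal (max 0 (⟪u i, x⟫ - omax u i x)) ≤
      ∑' k : ℕ, (lset u i (k * h)).indicator (fun _ => ENNReal.ofReal h) x := by
    intro x
    by_cases hg : 0 ≤ ⟪u i, x⟫ - omax u i x
    · rw [max_eq_right hg]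
      set g := ⟪u i, x⟫ - omax u i x with hgdef
      set m := ⌊g / h⌋₊ with hm
      have h1 : ∑ k ∈ Finset.range (m + 1), (lset u i (k * h)).indicator
          (fun _ => ENNReal.ofReal h) x = ∑ k ∈ Finset.range (m + 1), ENNReal.ofReal h := by
        refine Finset.sum_congr rfl fun k hk => ?_
        rw [Set.indicator_of_mem]
        rw [mem_lset_iff, ← hgdef]
        have h2 : (k : ℝ) ≤ m := by exact_mod_cast Nat.lt_succ_iff.mp (Finset.mem_range.mp hk)
        have h3 : (m : ℝ) ≤ g / h := Nat.floor_le (by positivity)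
        rw [le_div_iff₀ hh] at h3
        nlinarith
      refine le_trans ?_ (ENNReal.sum_le_tsum (Finset.range (m + 1)))
      rw [h1, Finset.sum_const, Finset.card_range, nsmul_eq_mul,
        ← ENNReal.ofReal_natCast, ← ENNReal.ofReal_mul (by positivity)]
      refine ENNReal.ofReal_le_ofReal ?_
      have h4 : g / h < m + 1 := Nat.lt_floor_add_one _
      rw [div_lt_iff₀ hh] at h4
      push_cast
      linarith
    · push Not at hg
      rw [max_eq_left hg.le]
      simp
  refine (lintegral_mono hpt).trans (le_of_eq ?_)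
  rw [lintegral_tsum (fun k => ((measurable_const.indicator
    (measurableSet_lset u i _)).aemeasurable))]
  congr 1
  ext k
  rw [lintegral_indicator_const (measurableSet_lset u i _)]

end general

variable {ι : Type*} [Fintype ι] [DecidableEq ι] [Nontrivial ι]

lemma lset_prekopa {n : ℕ} (u : ι → EuclideanSpace ℝ (Fin n)) (i : ι) (s t : ℝ) :
    (stdGaussian (EuclideanSpace ℝ (Fin n))).real (lset u i s) *
      (stdGaussian (EuclideanSpace ℝ (Fin n))).real (lset u i t) ≤
      (stdGaussian (EuclideanSpace ℝ (Fin n))).real (lset u i ((s + t) / 2)) ^ 2 := by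
  have hmp : Measurable (WithLp.toLp 2 : (Fin n → ℝ) → EuclideanSpace ℝ (Fin n)) := by fun_prop
  have hval : ∀ τ, stdGaussian (EuclideanSpace ℝ (Fin n)) (lset u i τ) =
      ∫⁻ y, ((WithLp.toLp 2 : (Fin n → ℝ) → EuclideanSpace ℝ (Fin n)) ⁻¹' lset u i τ).indicator
        (fun _ => (1 : ℝ≥0∞)) y ∂(Measure.pi fun _ : Fin n => gaussianReal 0 1) := by
    intro τ
    rw [lintegral_indicator_const (hmp (measurableSet_lset u i τ)), one_mul,
      ← map_pi_eq_stdGaussian, Measure.map_apply hmp (measurableSet_lset u i τ)]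
  have h := P262B.pl_gauss_pi (n := n)
    (f := ((WithLp.toLp 2 : (Fin n → ℝ) → EuclideanSpace ℝ (Fin n)) ⁻¹' lset u i s).indicator
        (fun _ => (1 : ℝ≥0∞)))
    (g := ((WithLp.toLp 2 : (Fin n → ℝ) → EuclideanSpace ℝ (Fin n)) ⁻¹' lset u i t).indicator
        (fun _ => (1 : ℝ≥0∞)))
    (h := ((WithLp.toLp 2 : (Fin n → ℝ) → EuclideanSpace ℝ (Fin n)) ⁻¹'
        lset u i ((s + t) / 2)).indicator (fun _ => (1 : ℝ≥0∞)))
    (measurable_const.indicator (hmp (measurableSet_lset u i s)))
    (measurable_const.indicator (hmp (measurableSet_lset u i t)))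
    (measurable_const.indicator (hmp (measurableSet_lset u i _))) ?_
  · rw [← hval, ← hval, ← hval] at h
    have h2 := ENNReal.toReal_mono (ENNReal.pow_ne_top (measure_ne_top _ _)) h
    rw [ENNReal.toReal_mul, ENNReal.toReal_pow] at h2
    exact h2
  · intro x y
    by_cases hx : WithLp.toLp 2 x ∈ lset u i s
    · by_cases hy : WithLp.toLp 2 y ∈ lset u i t
      · have hz : WithLp.toLp 2 ((1 / 2 : ℝ) • (x + y)) ∈ lset u i ((s + t) / 2) := by
          intro l hl
          have h1 := hx l hl
          have h2 := hy l hl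
          have e1 : (WithLp.toLp 2 ((1 / 2 : ℝ) • (x + y)) : EuclideanSpace ℝ (Fin n)) =
              (1 / 2 : ℝ) • (WithLp.toLp 2 x + WithLp.toLp 2 y) := rfl
          rw [e1, inner_smul_right, inner_add_right]
          linarith
        rw [Set.indicator_of_mem (show x ∈ _ from hx), Set.indicator_of_mem (show y ∈ _ from hy),
          Set.indicator_of_mem (show (1 / 2 : ℝ) • (x + y) ∈ _ from hz)]
        simp
      · rw [Set.indicator_of_notMem (show y ∉ _ from hy), mul_zero]
        exact bot_le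
    · rw [Set.indicator_of_notMem (show x ∉ _ from hx), zero_mul]
      exact bot_le

/-- `E (X_i - max_{j≠i} X_j)_+ ≤ (K/(K-1)) γ(A_i)²`, `K` = number of cells. -/
theorem Opt.dgap_le {n : ℕ} {u : ι → EuclideanSpace ℝ (Fin n)} (hu : Opt u) (i : ι) :
    dgap u i ≤ ((Fintype.card ι : ℝ) / (Fintype.card ι - 1)) * pr u i ^ 2 := by
  set K : ℝ := (Fintype.card ι : ℝ) with hK
  have hK1 : 1 < K := by rw [hK]; exact_mod_cast Fintype.one_lt_card
  -- the dual vector
  have hdual : ∀ j : ι, ∃ a : EuclideanSpace ℝ (Fin n), j ≠ i →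
      ∀ l, ⟪u i - u l, a⟫ = if l = j then 1 else 0 := by
    intro j
    by_cases hj : j = i
    · exact ⟨0, fun h => absurd hj h⟩
    · obtain ⟨a, ha⟩ := exists_dual hu.neg hu.sum hj
      exact ⟨a, fun _ => ha⟩
  choose A hA using hdual
  set a : EuclideanSpace ℝ (Fin n) := ∑ j ∈ Finset.univ.erase i, A j with hadef
  have ha : ∀ l, l ≠ i → ⟪u i - u l, a⟫ = 1 := by
    intro l hl
    rw [hadef, inner_sum, Finset.sum_eq_single l]
    · rw [hA l hl l, if_pos rfl]
    · intro j hj hjl
      rw [hA j (Finset.ne_of_mem_erase hj) l, if_neg hjl.symm]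
    · intro h
      exact absurd (Finset.mem_erase.mpr ⟨hl, Finset.mem_univ l⟩) h
  set c : ℝ := (K - 1) / K with hc
  have hcpos : 0 < c := by rw [hc]; exact div_pos (by linarith) (by linarith)
  have hac : ⟪a, firstMoment (cone u i)⟫ = c := by
    rw [hu.mom i, real_inner_comm]
    have h1 : K * ⟪u i, a⟫ = K - 1 := by
      have h2 : ⟪∑ l, (u i - u l), a⟫ = K - 1 := by
        rw [sum_inner, ← Finset.add_sum_erase _ _ (Finset.mem_univ i), sub_self, inner_zero_left,
          zero_add, Finset.sum_congr rfl (fun l hl => ha l (Finset.ne_of_mem_erase hl)),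
          Finset.sum_const, Finset.card_erase_of_mem (Finset.mem_univ i), nsmul_eq_mul, mul_one,
          Finset.card_univ, Nat.cast_sub Fintype.card_pos, hK]
        simp
      rw [sum_sub_eq hu.sum, inner_smul_left] at h2
      simpa using h2
    rw [hc, eq_div_iff (by linarith)]
    linarith
  set q : ℝ → ℝ := fun τ => (stdGaussian (EuclideanSpace ℝ (Fin n))).real (lset u i τ) with hq
  have hq0 : q 0 = pr u i := by
    simp only [hq, lset_zero]
    rfl
  have hqnn : ∀ τ, 0 ≤ q τ := fun τ => measureReal_nonneg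
  have hqanti : ∀ s t, s ≤ t → q t ≤ q s := fun s t h => measureReal_mono (lset_anti u i h)
  have hflux : ∀ h, 0 ≤ h → h * c ≤ q 0 - q h + ‖a‖ ^ 2 * h ^ 2 := by
    intro h hh
    have := flux_ge ha c hac h hh
    simp only [hq, lset_zero]
    exact this
  have hlc : ∀ s t, q s * q t ≤ q ((s + t) / 2) ^ 2 := fun s t => lset_prekopa u i s t
  have hD0 : 0 ≤ dgap u i := integral_nonneg fun x => le_max_left _ _
  have hq0pos : 0 < q 0 := by
    by_contra hcon
    have h1 : q 0 = 0 := le_antisymm (not_lt.mp hcon) (hqnn 0)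
    have h2 : ∀ h : ℝ, 0 < h → c ≤ ‖a‖ ^ 2 * h := by
      intro h hh
      have h3 := hflux h hh.le
      rw [h1] at h3
      have h4 := hqnn h
      have h5 : h * c ≤ h * (‖a‖ ^ 2 * h) := by nlinarith
      exact le_of_mul_le_mul_left h5 hh
    have h3 := h2 (c / (2 * (‖a‖ ^ 2 + 1))) (by positivity)
    have h4 : ‖a‖ ^ 2 * (c / (2 * (‖a‖ ^ 2 + 1))) < c := by
      rw [mul_div_assoc', div_lt_iff₀ (by positivity)]
      nlinarith [sq_nonneg ‖a‖]
    linarith
  -- the bound for a small step
  have hstep : ∀ h : ℝ, 0 < h → ‖a‖ ^ 2 * h < c →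
      dgap u i * (c - ‖a‖ ^ 2 * h) ≤ q 0 ^ 2 := by
    intro h hh hsmall
    have hf := hflux h hh.le
    have hdiff : h * (c - ‖a‖ ^ 2 * h) ≤ q 0 - q h := by nlinarith
    have hdpos : 0 < q 0 - q h := lt_of_lt_of_le (mul_pos hh (by linarith)) hdiff
    set r : ℝ := q h / q 0 with hr
    have hr0 : 0 ≤ r := div_nonneg (hqnn h) hq0pos.le
    have hr1 : r < 1 := by rw [hr, div_lt_one hq0pos]; linarith
    have hkey : ∀ k : ℕ, q ((k + 1 : ℕ) * h) * q 0 ≤ q (k * h) * q h := by
      intro k
      induction k with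
      | zero => simp [mul_comm]
      | succ k ih =>
        have h1 := hlc ((k : ℕ) * h) ((k + 2 : ℕ) * h)
        have e1 : ((k : ℝ) * h + ((k + 2 : ℕ) : ℝ) * h) / 2 = ((k + 1 : ℕ) : ℝ) * h := by
          push_cast; ring
        rw [e1] at h1
        rcases (hqnn (k * h)).lt_or_eq with hk | hk
        · have h3 : q (k * h) * (q ((k + 2 : ℕ) * h) * q 0) ≤
              q (k * h) * (q ((k + 1 : ℕ) * h) * q h) := by
            calc q (k * h) * (q ((k + 2 : ℕ) * h) * q 0) =
                q (k * h) * q ((k + 2 : ℕ) * h) * q 0 := by ring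
              _ ≤ q ((k + 1 : ℕ) * h) ^ 2 * q 0 := mul_le_mul_of_nonneg_right h1 hq0pos.le
              _ = q ((k + 1 : ℕ) * h) * (q ((k + 1 : ℕ) * h) * q 0) := by ring
              _ ≤ q ((k + 1 : ℕ) * h) * (q (k * h) * q h) :=
                mul_le_mul_of_nonneg_left ih (hqnn _)
              _ = _ := by ring
          exact le_of_mul_le_mul_left h3 hk
        · have h4 : q ((k + 1 + 1 : ℕ) * h) ≤ q (k * h) := by
            refine hqanti _ _ ?_
            push_cast
            nlinarith
          rw [← hk] at h4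
          have h5 : q ((k + 1 + 1 : ℕ) * h) = 0 := le_antisymm h4 (hqnn _)
          rw [h5, zero_mul]
          exact mul_nonneg (hqnn _) (hqnn _)
    have hgeo : ∀ k : ℕ, q (k * h) ≤ q 0 * r ^ k := by
      intro k
      induction k with
      | zero => simp
      | succ k ih =>
        have h1 := hkey k
        have h2 : q ((k + 1 : ℕ) * h) ≤ q (k * h) * r := by
          rw [hr, mul_div_assoc', le_div_iff₀ hq0pos]
          exact h1
        calc q ((k + 1 : ℕ) * h) ≤ q (k * h) * r := h2
          _ ≤ q 0 * r ^ k * r := mul_le_mul_of_nonneg_right ih hr0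
          _ = q 0 * r ^ (k + 1) := by ring
    have hsum := dgap_le_tsum u i hh
    have hb : ∑' k : ℕ, ENNReal.ofReal h *
        stdGaussian (EuclideanSpace ℝ (Fin n)) (lset u i (k * h)) ≤
        ENNReal.ofReal (h * q 0 / (1 - r)) := by
      calc ∑' k : ℕ, ENNReal.ofReal h *
            stdGaussian (EuclideanSpace ℝ (Fin n)) (lset u i (k * h)) ≤
          ∑' k : ℕ, ENNReal.ofReal (h * q 0) * ENNReal.ofReal r ^ k := by
            refine ENNReal.tsum_le_tsum fun k => ?_
            have h1 : stdGaussian (EuclideanSpace ℝ (Fin n)) (lset u i (k * h)) =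
                ENNReal.ofReal (q (k * h)) := by
              simp only [hq, measureReal_def]
              rw [ENNReal.ofReal_toReal (measure_ne_top _ _)]
            rw [h1, ← ENNReal.ofReal_mul hh.le, ← ENNReal.ofReal_pow hr0,
              ← ENNReal.ofReal_mul (by positivity)]
            refine ENNReal.ofReal_le_ofReal ?_
            have := mul_le_mul_of_nonneg_left (hgeo k) hh.le
            linarith
        _ = ENNReal.ofReal (h * q 0) * (1 - ENNReal.ofReal r)⁻¹ := by
            rw [ENNReal.tsum_mul_left, ENNReal.tsum_geometric]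
        _ = ENNReal.ofReal (h * q 0 / (1 - r)) := by
            have e3 : (1 - ENNReal.ofReal r)⁻¹ = ENNReal.ofReal ((1 - r)⁻¹) := by
              rw [ENNReal.ofReal_inv_of_pos (by linarith), ENNReal.ofReal_sub _ hr0,
                ENNReal.ofReal_one]
            rw [e3, ← ENNReal.ofReal_mul (by positivity), div_eq_mul_inv]
    have hD := hsum.trans hb
    have hrhs : 0 ≤ h * q 0 / (1 - r) := div_nonneg (by positivity) (by linarith)
    rw [ENNReal.ofReal_le_ofReal_iff hrhs] at hD
    have e2 : h * q 0 / (1 - r) = h * q 0 ^ 2 / (q 0 - q h) := by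
      rw [hr]
      have h1 : 1 - q h / q 0 = (q 0 - q h) / q 0 := by field_simp
      rw [h1, div_div_eq_mul_div]
      ring
    rw [e2, le_div_iff₀ hdpos] at hD
    have h6 : h * (dgap u i * (c - ‖a‖ ^ 2 * h)) ≤ h * q 0 ^ 2 := by
      calc h * (dgap u i * (c - ‖a‖ ^ 2 * h)) = dgap u i * (h * (c - ‖a‖ ^ 2 * h)) := by ring
        _ ≤ dgap u i * (q 0 - q h) := mul_le_mul_of_nonneg_left hdiff hD0
        _ ≤ _ := hD
    exact le_of_mul_le_mul_left h6 hh
  -- let the step tend to zero
  have hfin : dgap u i * c ≤ q 0 ^ 2 := by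
    by_contra hcon
    push Not at hcon
    set M : ℝ := dgap u i * ‖a‖ ^ 2 with hM
    have hM0 : 0 ≤ M := by positivity
    set δ : ℝ := dgap u i * c - q 0 ^ 2 with hδ
    have hδ0 : 0 < δ := by rw [hδ]; linarith
    set h : ℝ := min (c / (2 * (‖a‖ ^ 2 + 1))) (δ / (2 * (M + 1))) with hhdef
    have hh : 0 < h := lt_min (by positivity) (by positivity)
    have h1 : ‖a‖ ^ 2 * h < c := by
      have h2 : ‖a‖ ^ 2 * h ≤ ‖a‖ ^ 2 * (c / (2 * (‖a‖ ^ 2 + 1))) :=
        mul_le_mul_of_nonneg_left (min_le_left _ _) (by positivity)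
      have h4 : ‖a‖ ^ 2 * (c / (2 * (‖a‖ ^ 2 + 1))) < c := by
        rw [mul_div_assoc', div_lt_iff₀ (by positivity)]
        nlinarith [sq_nonneg ‖a‖]
      linarith
    have h2 := hstep h hh h1
    have h3 : M * h ≤ M * (δ / (2 * (M + 1))) := mul_le_mul_of_nonneg_left (min_le_right _ _) hM0
    have h4 : M * (δ / (2 * (M + 1))) < δ := by
      rw [mul_div_assoc', div_lt_iff₀ (by positivity)]
      nlinarith
    have h5 : dgap u i * (c - ‖a‖ ^ 2 * h) = dgap u i * c - M * h := by rw [hM]; ring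
    rw [h5] at h2
    linarith
  rw [← hq0]
  have h7 : dgap u i ≤ q 0 ^ 2 / c := by
    rw [le_div_iff₀ hcpos]
    exact hfin
  refine h7.trans (le_of_eq ?_)
  rw [hc]
  field_simp

end Vale.Agent.P226
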