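import Mathlib
import Vale.Agent.P226.Full.Base
import Vale.Agent.P226.Full.PlaneBound

/-! [D1], [D] two dimensional small ball estimates. -/

open MeasureTheory ProbabilityTheory Set
open scoped RealInnerProductSpace ENNReal NNReal

set_option linter.unusedSectionVars false

namespace Vale.Agent.P226

variable {E : Type*} [NormedAddCommGroup E] [InnerProductSpace ℝ E] [FiniteDimensional ℝ E]
  [MeasurableSpace E] [BorelSpace E] {ι : Type*} [Fintype ι] [DecidableEq ι]

/-- area of a triangle -/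
lemma tri_area (t c : ℝ) (h : 0 ≤ 2 * t + c) :
    ∫⁻ A : ℝ, ∫⁻ B : ℝ, (if A ≤ t ∧ B ≤ t ∧ -c ≤ A + B then 1 else 0 : ℝ≥0∞) ≤
      ENNReal.ofReal ((2 * t + c) ^ 2 / 2) := by
  have h1 : ∀ A : ℝ, (∫⁻ B : ℝ, (if A ≤ t ∧ B ≤ t ∧ -c ≤ A + B then 1 else 0 : ℝ≥0∞)) ≤
      (Icc (-(t + c)) t).indicator (fun A => ENNReal.ofReal (t + c + A)) A := by
    intro A
    by_cases hA : A ∈ Icc (-(t + c)) t
    · rw [indicator_of_mem hA]
      have h2 : ∀ B : ℝ, (if A ≤ t ∧ B ≤ t ∧ -c ≤ A + B then 1 else 0 : ℝ≥0∞) ≤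
          (Icc (-c - A) t).indicator (fun _ => (1 : ℝ≥0∞)) B := by
        intro B
        by_cases hB : A ≤ t ∧ B ≤ t ∧ -c ≤ A + B
        · have : B ∈ Icc (-c - A) t := ⟨by linarith [hB.2.2], hB.2.1⟩
          simp [hB, this]
        · simp [hB]
      calc _ ≤ ∫⁻ B : ℝ, (Icc (-c - A) t).indicator (fun _ => (1 : ℝ≥0∞)) B :=
            lintegral_mono h2
        _ = volume (Icc (-c - A) t) := by
            rw [lintegral_indicator measurableSet_Icc]; simp
        _ = ENNReal.ofReal (t + c + A) := by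
            rw [Real.volume_Icc]; congr 1; ring
    · rw [indicator_of_notMem hA]
      have h2 : ∀ B : ℝ, (if A ≤ t ∧ B ≤ t ∧ -c ≤ A + B then 1 else 0 : ℝ≥0∞) = 0 := by
        intro B
        rw [if_neg]
        rintro ⟨h3, h4, h5⟩
        apply hA
        constructor
        · linarith
        · exact h3
      simp [h2]
  refine (lintegral_mono h1).trans ?_
  rw [lintegral_indicator measurableSet_Icc,
    ← ofReal_integral_eq_lintegral_ofReal]
  · apply ENNReal.ofReal_le_ofReal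
    rw [integral_Icc_eq_integral_Ioc, ← intervalIntegral.integral_of_le (by linarith)]
    have : ∫ A in (-(t + c))..t, (t + c + A) = (2 * t + c) ^ 2 / 2 := by
      rw [intervalIntegral.integral_add (by simp) (by simp)]
      simp only [intervalIntegral.integral_const, integral_id, smul_eq_mul]
      ring
    rw [this]
  · exact (continuous_const.add continuous_id).continuousOn.integrableOn_Icc
  · rw [Filter.EventuallyLE, ae_restrict_iff' measurableSet_Icc]
    refine Filter.Eventually.of_forall fun A hA => ?_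
    simp only [Pi.zero_apply]
    linarith [hA.1]

lemma sum_cvec {u : ι → E} (hs : ∑ i, u i = 0) {J : Finset ι} (hJ : J.Nonempty) :
    ∑ j ∈ J, cvec u J j = 0 := by
  unfold cvec rest
  rw [Finset.sum_add_distrib, Finset.sum_const, ← Nat.cast_smul_eq_nsmul ℝ, smul_smul,
    mul_inv_cancel₀ (by exact_mod_cast hJ.card_pos.ne'), one_smul,
    Finset.sum_add_sum_compl, hs]

lemma cmax_eq_mx (u : ι → E) {J : Finset ι} (hJ : J.Nonempty) (x : E) :
    haveI : Nonempty {j // j ∈ J} := hJ.to_subtype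
    cmax u J x = mx (fun j : {j // j ∈ J} => cvec u J j) x := by
  have : Nonempty {j // j ∈ J} := hJ.to_subtype
  unfold cmax mx
  rw [Finset.sup'_univ_eq_ciSup]

lemma le_cmax (u : ι → E) {J : Finset ι} {j : ι} (hj : j ∈ J) (x : E) :
    ⟪cvec u J j, x⟫ ≤ cmax u J x := by
  unfold cmax
  exact le_ciSup (f := fun j : {j // j ∈ J} => ⟪cvec u J j, x⟫) (Set.finite_range _).bddAbove
    ⟨j, hj⟩

lemma continuous_cmax (u : ι → E) {J : Finset ι} (hJ : J.Nonempty) : Continuous (cmax u J) := by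
  have : Nonempty {j // j ∈ J} := hJ.to_subtype
  have : cmax u J = mx (fun j : {j // j ∈ J} => cvec u J j) := by
    funext x; exact cmax_eq_mx u hJ x
  rw [this]
  exact continuous_mx _

lemma integrable_cmax (u : ι → E) {J : Finset ι} (hJ : J.Nonempty) :
    Integrable (cmax u J) (stdGaussian E) := by
  have : Nonempty {j // j ∈ J} := hJ.to_subtype
  have : cmax u J = mx (fun j : {j // j ∈ J} => cvec u J j) := by
    funext x; exact cmax_eq_mx u hJ x
  rw [this]
  exact integrable_mx _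

lemma cmax_nonneg {u : ι → E} (hs : ∑ i, u i = 0) {J : Finset ι} (hJ : J.Nonempty) (x : E) :
    0 ≤ cmax u J x := by
  have h1 : ∑ j ∈ J, ⟪cvec u J j, x⟫ = 0 := by
    rw [← sum_inner, sum_cvec hs hJ, inner_zero_left]
  have h2 : ∑ j ∈ J, ⟪cvec u J j, x⟫ ≤ ∑ j ∈ J, cmax u J x :=
    Finset.sum_le_sum fun j hj => le_cmax u hj x
  rw [h1, Finset.sum_const, nsmul_eq_mul] at h2
  have h3 : (0 : ℝ) < J.card := by exact_mod_cast hJ.card_pos
  exact nonneg_of_mul_nonneg_right h2 h3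

/-- [D1] small ball: `γ {cmax ≤ t} ≤ (m t)² / (4 π Δ)`, `m = |J| ≥ 3`, where `Δ²` is the Gram
determinant of the components of `u a`, `u b` orthogonal to `w = rest u J`. -/
theorem Opt.small_ball' {u : ι → E} (hu : Opt u) (J : Finset ι) (h3 : 3 ≤ J.card) {a b : ι}
    (ha : a ∈ J) (hb : b ∈ J) (hab : a ≠ b) (hw : rest u J ≠ 0) {Δ : ℝ} (hΔ : 0 < Δ)
    (hD : Δ ^ 2 = (‖u a‖ ^ 2 - ⟪rest u J, u a⟫ ^ 2 / ‖rest u J‖ ^ 2) *
      (‖u b‖ ^ 2 - ⟪rest u J, u b⟫ ^ 2 / ‖rest u J‖ ^ 2) -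
      (⟪u a, u b⟫ - ⟪rest u J, u a⟫ * ⟪rest u J, u b⟫ / ‖rest u J‖ ^ 2) ^ 2)
    (t : ℝ) (ht : 0 ≤ t) :
    (stdGaussian E).real {x | cmax u J x ≤ t} ≤ ((J.card : ℝ) * t) ^ 2 / (4 * Real.pi * Δ) := by
  have hJ : J.Nonempty := ⟨a, ha⟩
  set w : E := rest u J with hwdef
  set m : ℝ := (J.card : ℝ) with hm
  have hm3 : (3 : ℝ) ≤ m := by rw [hm]; exact_mod_cast h3
  have hw0 : 0 < ‖w‖ ^ 2 := by
    have := norm_pos_iff.mpr hw
    positivity
  set ra : ℝ := ⟪w, u a⟫ / ‖w‖ ^ 2 with hra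
  set rb : ℝ := ⟪w, u b⟫ / ‖w‖ ^ 2 with hrb
  set v : E := u a - ra • w with hv
  set v' : E := u b - rb • w with hv'
  have e1 : ⟪w, v⟫ = 0 := by
    rw [hv, inner_sub_right, inner_smul_right, real_inner_self_eq_norm_sq, hra,
      div_mul_cancel₀ _ hw0.ne', sub_self]
  have e2 : ⟪w, v'⟫ = 0 := by
    rw [hv', inner_sub_right, inner_smul_right, real_inner_self_eq_norm_sq, hrb,
      div_mul_cancel₀ _ hw0.ne', sub_self]
  have n1 : ‖v‖ ^ 2 = ‖u a‖ ^ 2 - ⟪w, u a⟫ ^ 2 / ‖w‖ ^ 2 := by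
    have h1 : ‖v‖ ^ 2 = ⟪v, v⟫ := (real_inner_self_eq_norm_sq v).symm
    rw [h1]
    nth_rewrite 1 [hv]
    rw [inner_sub_left, inner_smul_left, e1, hv, inner_sub_right, inner_smul_right,
      real_inner_self_eq_norm_sq, hra, real_inner_comm w (u a)]
    simp
    ring
  have n2 : ‖v'‖ ^ 2 = ‖u b‖ ^ 2 - ⟪w, u b⟫ ^ 2 / ‖w‖ ^ 2 := by
    have h1 : ‖v'‖ ^ 2 = ⟪v', v'⟫ := (real_inner_self_eq_norm_sq v').symm
    rw [h1]
    nth_rewrite 1 [hv']
    rw [inner_sub_left, inner_smul_left, e2, hv', inner_sub_right, inner_smul_right,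
      real_inner_self_eq_norm_sq, hrb, real_inner_comm w (u b)]
    simp
    ring
  have n3 : ⟪v, v'⟫ = ⟪u a, u b⟫ - ⟪w, u a⟫ * ⟪w, u b⟫ / ‖w‖ ^ 2 := by
    rw [hv, inner_sub_left, inner_smul_left, e2, hv', inner_sub_right, inner_smul_right, hrb,
      real_inner_comm w (u a)]
    simp
    ring
  have hD' : Δ ^ 2 = ‖v‖ ^ 2 * ‖v'‖ ^ 2 - ⟪v, v'⟫ ^ 2 := by rw [n1, n2, n3, hD]
  -- the coefficients
  set α : ℝ := ra + m⁻¹ with hα
  set β : ℝ := rb + m⁻¹ with hβ
  have ca : cvec u J a = v + α • w := by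
    rw [cvec, ← hwdef, hv, hα, add_smul]; abel
  have cb : cvec u J b = v' + β • w := by
    rw [cvec, ← hwdef, hv', hβ, add_smul]; abel
  set c : ℝ := (m - 2) * t with hc
  set f : ℝ → ℝ → ℝ → ℝ≥0∞ := fun s A B =>
    if A + α * s ≤ t ∧ B + β * s ≤ t ∧ -c ≤ (A + α * s) + (B + β * s) then 1 else 0 with hf
  have hfm : Measurable (fun p : ℝ × ℝ × ℝ => f p.1 p.2.1 p.2.2) := by
    have g1 : Measurable (fun p : ℝ × ℝ × ℝ => p.2.1 + α * p.1) := by fun_prop
    have g2 : Measurable (fun p : ℝ × ℝ × ℝ => p.2.2 + β * p.1) := by fun_prop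
    have hset : MeasurableSet {p : ℝ × ℝ × ℝ | p.2.1 + α * p.1 ≤ t ∧ p.2.2 + β * p.1 ≤ t ∧
        -c ≤ (p.2.1 + α * p.1) + (p.2.2 + β * p.1)} :=
      MeasurableSet.inter (measurableSet_le g1 measurable_const)
        (MeasurableSet.inter (measurableSet_le g2 measurable_const)
          (measurableSet_le measurable_const (g1.add g2)))
    exact Measurable.ite hset measurable_const measurable_const
  have key := plane_bound' e1 e2 hΔ hD' f hfm
  -- upper bound of the right side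
  have hin : ∀ s : ℝ, (∫⁻ A, ∫⁻ B, f s A B) ≤ ENNReal.ofReal ((m * t) ^ 2 / 2) := by
    intro s
    have h1 : (∫⁻ A, ∫⁻ B, f s A B) =
        ∫⁻ A : ℝ, ∫⁻ B : ℝ, (if A ≤ t ∧ B ≤ t ∧ -c ≤ A + B then 1 else 0 : ℝ≥0∞) := by
      rw [← lintegral_add_right_eq_self (fun A : ℝ => ∫⁻ B : ℝ,
        (if A ≤ t ∧ B ≤ t ∧ -c ≤ A + B then 1 else 0 : ℝ≥0∞)) (α * s)]
      refine lintegral_congr fun A => ?_
      rw [← lintegral_add_right_eq_self (fun B : ℝ =>
        (if A + α * s ≤ t ∧ B ≤ t ∧ -c ≤ A + α * s + B then 1 else 0 : ℝ≥0∞)) (β * s)]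
    rw [h1]
    refine (tri_area t c ?_).trans ?_
    · rw [hc]; nlinarith
    · apply ENNReal.ofReal_le_ofReal
      rw [hc]
      apply le_of_eq; ring
  -- lower bound of the left side
  have hlow : (stdGaussian E) {x | cmax u J x ≤ t} ≤
      ∫⁻ x, f ⟪w, x⟫ ⟪v, x⟫ ⟪v', x⟫ ∂(stdGaussian E) := by
    rw [← lintegral_indicator_one (measurableSet_le (continuous_cmax u hJ).measurable
      measurable_const)]
    refine lintegral_mono fun x => ?_
    by_cases hx : cmax u J x ≤ t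
    · have hA : ⟪v, x⟫ + α * ⟪w, x⟫ = ⟪cvec u J a, x⟫ := by
        rw [ca, inner_add_left, inner_smul_left]; simp
      have hB : ⟪v', x⟫ + β * ⟪w, x⟫ = ⟪cvec u J b, x⟫ := by
        rw [cb, inner_add_left, inner_smul_left]; simp
      have hsum : ∑ j ∈ J, ⟪cvec u J j, x⟫ = 0 := by
        rw [← sum_inner, sum_cvec hu.sum hJ, inner_zero_left]
      have hbe : b ∈ J.erase a := Finset.mem_erase.mpr ⟨hab.symm, hb⟩
      rw [← Finset.add_sum_erase J _ ha, ← Finset.add_sum_erase (J.erase a) _ hbe] at hsum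
      have hoth : ∑ j ∈ (J.erase a).erase b, ⟪cvec u J j, x⟫ ≤ c := by
        calc ∑ j ∈ (J.erase a).erase b, ⟪cvec u J j, x⟫
            ≤ ∑ j ∈ (J.erase a).erase b, t := by
              refine Finset.sum_le_sum fun j hj => ?_
              exact (le_cmax u (Finset.mem_of_mem_erase (Finset.mem_of_mem_erase hj)) x).trans hx
          _ = c := by
              rw [Finset.sum_const, Finset.card_erase_of_mem hbe, Finset.card_erase_of_mem ha,
                nsmul_eq_mul, hc, hm]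
              congr 1
              have : 2 ≤ J.card := by omega
              rw [Nat.sub_sub, Nat.cast_sub this]
              norm_num
      have hcond : ⟪v, x⟫ + α * ⟪w, x⟫ ≤ t ∧ ⟪v', x⟫ + β * ⟪w, x⟫ ≤ t ∧
          -c ≤ (⟪v, x⟫ + α * ⟪w, x⟫) + (⟪v', x⟫ + β * ⟪w, x⟫) := by
        rw [hA, hB]
        exact ⟨(le_cmax u ha x).trans hx, (le_cmax u hb x).trans hx, by linarith⟩
      have : (fun x => f ⟪w, x⟫ ⟪v, x⟫ ⟪v', x⟫) x = 1 := by
        simp only [hf]
        rw [if_pos hcond]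
      simp only [this]
      exact Set.indicator_le_self' (fun _ _ => zero_le) x
    · have : x ∉ {x | cmax u J x ≤ t} := hx
      rw [indicator_of_notMem this]
      exact zero_le
  have hfin : (stdGaussian E) {x | cmax u J x ≤ t} ≤
      ENNReal.ofReal ((m * t) ^ 2 / (4 * Real.pi * Δ)) := by
    refine hlow.trans (key.trans ?_)
    calc ENNReal.ofReal (1 / (2 * Real.pi * Δ)) *
          ∫⁻ x, (∫⁻ A, ∫⁻ B, f ⟪w, x⟫ A B) ∂(stdGaussian E)
        ≤ ENNReal.ofReal (1 / (2 * Real.pi * Δ)) *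
          ∫⁻ x, ENNReal.ofReal ((m * t) ^ 2 / 2) ∂(stdGaussian E) := by
          gcongr with x
          exact hin _
      _ = ENNReal.ofReal ((m * t) ^ 2 / (4 * Real.pi * Δ)) := by
          rw [lintegral_const, measure_univ, mul_one, ← ENNReal.ofReal_mul (by positivity)]
          congr 1
          field_simp
          ring
  rw [measureReal_def]
  exact ENNReal.toReal_le_of_le_ofReal (by positivity) hfin

/-- [D] p-form: for every measurable `S`,
`E[cmax; S] ≥ (2/3) γ(S)^{3/2} √(4πΔ) / m`. -/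
theorem Opt.pform' {u : ι → E} (hu : Opt u) (J : Finset ι) (h3 : 3 ≤ J.card) {a b : ι}
    (ha : a ∈ J) (hb : b ∈ J) (hab : a ≠ b) (hw : rest u J ≠ 0) {Δ : ℝ} (hΔ : 0 < Δ)
    (hD : Δ ^ 2 = (‖u a‖ ^ 2 - ⟪rest u J, u a⟫ ^ 2 / ‖rest u J‖ ^ 2) *
      (‖u b‖ ^ 2 - ⟪rest u J, u b⟫ ^ 2 / ‖rest u J‖ ^ 2) -
      (⟪u a, u b⟫ - ⟪rest u J, u a⟫ * ⟪rest u J, u b⟫ / ‖rest u J‖ ^ 2) ^ 2)
    (S : Set E) (_hS : MeasurableSet S) :
    (2 / 3) * (stdGaussian E).real S * Real.sqrt (4 * Real.pi * Δ * (stdGaussian E).real S) /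
        J.card ≤ ∫ x in S, cmax u J x ∂(stdGaussian E) := by
  have hJ : J.Nonempty := ⟨a, ha⟩
  set m : ℝ := (J.card : ℝ) with hm
  have hm3 : (3 : ℝ) ≤ m := by rw [hm]; exact_mod_cast h3
  set p : ℝ := (stdGaussian E).real S with hp
  have hp0 : 0 ≤ p := measureReal_nonneg
  set t0 : ℝ := Real.sqrt (4 * Real.pi * Δ * p) / m with ht0
  have ht0' : 0 ≤ t0 := by positivity
  have hpi := Real.pi_pos
  have ht0sq : m ^ 2 * t0 ^ 2 = 4 * Real.pi * Δ * p := by
    rw [ht0, div_pow, Real.sq_sqrt (by positivity)]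
    field_simp
  -- layer cake
  have hnn : 0 ≤ᵐ[(stdGaussian E).restrict S] cmax u J :=
    Filter.Eventually.of_forall fun x => cmax_nonneg hu.sum hJ x
  have hint : Integrable (cmax u J) ((stdGaussian E).restrict S) :=
    (integrable_cmax u hJ).restrict
  have hreal : ∫ x in S, cmax u J x ∂(stdGaussian E) =
      (∫⁻ x in S, ENNReal.ofReal (cmax u J x) ∂(stdGaussian E)).toReal :=
    integral_eq_lintegral_of_nonneg_ae hnn hint.aestronglyMeasurable
  have hfin : ∫⁻ x in S, ENNReal.ofReal (cmax u J x) ∂(stdGaussian E) ≠ ⊤ :=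
    (lintegral_ofReal_ne_top_iff_integrable hint.aestronglyMeasurable hnn).mpr hint
  rw [hreal]
  refine (ENNReal.ofReal_le_iff_le_toReal hfin).mp ?_
  rw [lintegral_eq_lintegral_meas_lt _ hnn hint.aestronglyMeasurable.aemeasurable]
  -- pointwise lower bound of the measure
  have hpt : ∀ t ∈ Ioc (0 : ℝ) t0, ENNReal.ofReal (p - m ^ 2 / (4 * Real.pi * Δ) * t ^ 2) ≤
      ((stdGaussian E).restrict S) {x | t < cmax u J x} := by
    intro t ht
    have hmt : MeasurableSet {x | t < cmax u J x} :=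
      measurableSet_lt measurable_const (continuous_cmax u hJ).measurable
    rw [Measure.restrict_apply hmt]
    have h1 : p ≤ (stdGaussian E).real ({x | t < cmax u J x} ∩ S) +
        (stdGaussian E).real {x | cmax u J x ≤ t} := by
      rw [hp]
      refine (measureReal_mono ?_).trans (measureReal_union_le _ _)
      intro x hx
      by_cases hxt : cmax u J x ≤ t
      · exact Or.inr hxt
      · exact Or.inl ⟨not_le.mp hxt, hx⟩
    have h2 := hu.small_ball' J h3 ha hb hab hw hΔ hD t ht.1.le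
    have h4 : p - m ^ 2 / (4 * Real.pi * Δ) * t ^ 2 ≤
        (stdGaussian E).real ({x | t < cmax u J x} ∩ S) := by
      have e : ((J.card : ℝ) * t) ^ 2 / (4 * Real.pi * Δ) =
          m ^ 2 / (4 * Real.pi * Δ) * t ^ 2 := by rw [← hm]; ring
      rw [e] at h2
      linarith
    calc ENNReal.ofReal (p - m ^ 2 / (4 * Real.pi * Δ) * t ^ 2)
        ≤ ENNReal.ofReal ((stdGaussian E).real ({x | t < cmax u J x} ∩ S)) :=
          ENNReal.ofReal_le_ofReal h4
      _ = _ := by rw [ofReal_measureReal]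
  calc ENNReal.ofReal ((2 / 3) * p * Real.sqrt (4 * Real.pi * Δ * p) / m)
      = ENNReal.ofReal (∫ t in Ioc (0 : ℝ) t0, (p - m ^ 2 / (4 * Real.pi * Δ) * t ^ 2)) := by
        congr 1
        rw [← intervalIntegral.integral_of_le ht0']
        rw [intervalIntegral.integral_sub (by simp)
          (by apply Continuous.intervalIntegrable; fun_prop)]
        rw [intervalIntegral.integral_const_mul, integral_pow]
        simp only [intervalIntegral.integral_const, smul_eq_mul, sub_zero]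
        have e1 : m ^ 2 / (4 * Real.pi * Δ) * ((t0 ^ (2 + 1) - 0 ^ (2 + 1)) / ((2 : ℕ) + 1)) =
            (m ^ 2 * t0 ^ 2) / (4 * Real.pi * Δ) * t0 / 3 := by
          push_cast; ring
        rw [e1, ht0sq]
        have e2 : 4 * Real.pi * Δ * p / (4 * Real.pi * Δ) = p := by
          field_simp
        rw [e2, ht0]
        ring
    _ = ∫⁻ t in Ioc (0 : ℝ) t0, ENNReal.ofReal (p - m ^ 2 / (4 * Real.pi * Δ) * t ^ 2) := by
        rw [ofReal_integral_eq_lintegral_ofReal]
        · exact (Continuous.integrableOn_Ioc (by fun_prop))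
        · rw [Filter.EventuallyLE, ae_restrict_iff' measurableSet_Ioc]
          refine Filter.Eventually.of_forall fun t ht => ?_
          simp only [Pi.zero_apply]
          have h1 : t ^ 2 ≤ t0 ^ 2 := pow_le_pow_left₀ ht.1.le ht.2 2
          have h2 : m ^ 2 / (4 * Real.pi * Δ) * t ^ 2 ≤ m ^ 2 / (4 * Real.pi * Δ) * t0 ^ 2 := by
            gcongr
          have h3 : m ^ 2 / (4 * Real.pi * Δ) * t0 ^ 2 = p := by
            rw [div_mul_eq_mul_div, ht0sq]
            field_simp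
          linarith
    _ ≤ ∫⁻ t in Ioc (0 : ℝ) t0, ((stdGaussian E).restrict S) {x | t < cmax u J x} :=
        setLIntegral_mono' measurableSet_Ioc hpt
    _ ≤ _ := lintegral_mono_set Ioc_subset_Ioi_self

end Vale.Agent.P226
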