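import Mathlib
import Vale.Agent.P226.Full.NormH
import Vale.Agent.P226.Full.DelA
import Vale.Agent.P226.Full.PrekB
import Vale.Agent.P226.Full.DgapSmall
import Vale.Agent.P226.Full.SmallBall

/-! [HD] the normalised inequalities -/

open MeasureTheory ProbabilityTheory Set Finset
open scoped RealInnerProductSpace ENNReal NNReal

set_option linter.unusedSectionVars false

namespace Vale.Agent.P226

/-- normalised squared norm -/
noncomputable def ynorm {n k : ℕ} (u : Fin k → EuclideanSpace ℝ (Fin n)) (i : Fin k) : ℝ :=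
  2 * Real.pi * ‖u i‖ ^ 2

variable {n k : ℕ} {u : Fin k → EuclideanSpace ℝ (Fin n)}

lemma Opt.sq_le_pr (hu : Opt u) (hk : 4 ≤ k)
    (hB : ∀ m < k, Bd (EuclideanSpace ℝ (Fin n)) (9 / (8 * Real.pi)) m)
    (hF : 9 / (8 * Real.pi) < ∑ i, ‖u i‖ ^ 2) (i : Fin k) :
    ‖u i‖ ^ 2 ≤ 2 * pr u i ^ 2 := by
  have hnt : Nontrivial (Fin k) := Fin.nontrivial_iff_two_le.mpr (by omega)
  obtain ⟨m, rfl⟩ : ∃ m, k = m + 1 := ⟨k - 1, by omega⟩
  have h1 := Opt.del_single (hB m (by omega)) hu hF (by simp) i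
  have h2 := Opt.dgap_le hu i
  rw [Fintype.card_fin] at h2
  push_cast at h2
  rw [add_sub_cancel_right] at h2
  have hm : (0 : ℝ) < m := by
    have : 0 < m := by omega
    exact_mod_cast this
  have h3 : 0 < ((m + 1 : ℝ) / m) := by positivity
  have h4 : ((m + 1 : ℝ) / m) * (‖u i‖ ^ 2 / 2) < ((m + 1 : ℝ) / m) * pr u i ^ 2 := by
    rw [mul_div_assoc] at h1
    exact h1.trans_le h2
  have h5 := lt_of_mul_lt_mul_left h4 h3.le
  linarith

/-- [HD0] -/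
theorem Opt.prek_ineq (hu : Opt u) (hk : 4 ≤ k)
    (hB : ∀ m < k, Bd (EuclideanSpace ℝ (Fin n)) (9 / (8 * Real.pi)) m)
    (hF : 9 / (8 * Real.pi) < ∑ i, ‖u i‖ ^ 2) (i : Fin k) :
    ynorm u i ≤ 4 * Real.pi * pr u i ^ 2 := by
  have h1 := hu.sq_le_pr hk hB hF i
  have h2 := Real.pi_pos
  unfold ynorm
  nlinarith

lemma f3_scale (t a b c : ℝ) : f3 (t * a) (t * b) (t * c) = t ^ 2 * f3 a b c := by
  unfold f3; ring

/-- [HD1] -/
theorem Opt.single_ineq (hu : Opt u) (hk : 4 ≤ k)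
    (hB : ∀ m < k, Bd (EuclideanSpace ℝ (Fin n)) (9 / (8 * Real.pi)) m)
    (hF : 9 / (8 * Real.pi) < ∑ i, ‖u i‖ ^ 2) {l a b c : Fin k} (hla : l ≠ a) (hlb : l ≠ b)
    (hlc : l ≠ c) (hab : a ≠ b) (hac : a ≠ c) (hbc : b ≠ c)
    (hca : ynorm u c ≤ ynorm u a) (hcb : ynorm u c ≤ ynorm u b) :
    9 * Real.pi ^ 2 / (4 * (k : ℝ) ^ 4) * f3 (ynorm u a) (ynorm u b) (ynorm u c - ynorm u l) ≤
      ynorm u l := by
  have hnt : Nontrivial (Fin k) := Fin.nontrivial_iff_two_le.mpr (by omega)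
  have hπ := Real.pi_pos
  have h2π : 0 < 2 * Real.pi := by positivity
  have hkR : (0 : ℝ) < k := by
    have : 0 < k := by omega
    exact_mod_cast this
  have hscale : f3 (ynorm u a) (ynorm u b) (ynorm u c - ynorm u l) =
      (2 * Real.pi) ^ 2 * f3 (‖u a‖ ^ 2) (‖u b‖ ^ 2) (‖u c‖ ^ 2 - ‖u l‖ ^ 2) := by
    unfold ynorm
    rw [← mul_sub, f3_scale]
  have hyl : 0 ≤ ynorm u l := by unfold ynorm; positivity
  rcases le_or_gt (f3 (‖u a‖ ^ 2) (‖u b‖ ^ 2) (‖u c‖ ^ 2 - ‖u l‖ ^ 2)) 0 with hle | hpos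
  · refine le_trans ?_ hyl
    rw [hscale]
    have h1 : (2 * Real.pi) ^ 2 * f3 (‖u a‖ ^ 2) (‖u b‖ ^ 2) (‖u c‖ ^ 2 - ‖u l‖ ^ 2) ≤ 0 :=
      mul_nonpos_of_nonneg_of_nonpos (by positivity) hle
    exact mul_nonpos_of_nonneg_of_nonpos (by positivity) h1
  · have hca' : ‖u c‖ ^ 2 ≤ ‖u a‖ ^ 2 := le_of_mul_le_mul_left hca h2π
    have hcb' : ‖u c‖ ^ 2 ≤ ‖u b‖ ^ 2 := le_of_mul_le_mul_left hcb h2π
    have hsum : ∑ j ∈ Finset.univ.erase l, u j = -u l := by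
      have h1 := Finset.add_sum_erase Finset.univ u (Finset.mem_univ l)
      rw [hu.sum] at h1
      rw [eq_neg_iff_add_eq_zero, add_comm]
      exact h1
    obtain ⟨i, hi, j, hj, hij, Δ, hΔ, hD, hf⟩ := heron_core (w := u l) (hu.ne_zero l)
      (J := Finset.univ.erase l)
      (fun i _ j _ hij => (hu.neg i j hij).le)
      (fun j hj => (hu.neg l j (Finset.ne_of_mem_erase hj).symm).le) hsum
      (a := a) (b := b) (c := c)
      (Finset.mem_erase.mpr ⟨hla.symm, Finset.mem_univ _⟩)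
      (Finset.mem_erase.mpr ⟨hlb.symm, Finset.mem_univ _⟩)
      (Finset.mem_erase.mpr ⟨hlc.symm, Finset.mem_univ _⟩) hab hac hbc hca' hcb' (W := ‖u l‖ ^ 2)
      le_rfl hpos
    obtain ⟨m, rfl⟩ : ∃ m, k = m + 1 := ⟨k - 1, by omega⟩
    have h1 := Opt.del_single (hB m (by omega)) hu hF (by simp) l
    have h2 := Opt.dgap_small' hu (by simpa using hk) (Finset.ne_of_mem_erase hi)
      (Finset.ne_of_mem_erase hj) hij hΔ hD
    rw [Fintype.card_fin] at h2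
    push_cast at h2 hkR ⊢
    rw [add_sub_cancel_right] at h2
    have hm : (0 : ℝ) < m := by
      have : 0 < m := by omega
      exact_mod_cast this
    have hφ := phi_pos 0
    have hφ2 := phi_zero_sq
    have hnl := hu.norm_pos l
    set K : ℝ := (m : ℝ) + 1 with hK
    set N := ‖u l‖ with hN
    set φ := phi 0 with hφd
    -- Δ < K² φ N / (3π)
    have h3 : K / m * N ^ 2 / 2 < K ^ 3 * (2 * φ) * N ^ 3 / (12 * Real.pi * m * Δ) :=
      h1.trans_le h2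
    have h4 : 3 * Real.pi * Δ < K ^ 2 * φ * N := by
      have e1 : K / m * N ^ 2 / 2 = (K * N ^ 2 / (2 * m)) * 1 := by field_simp
      have e2 : K ^ 3 * (2 * φ) * N ^ 3 / (12 * Real.pi * m * Δ) =
          (K * N ^ 2 / (2 * m)) * (K ^ 2 * φ * N / (3 * Real.pi * Δ)) := by
        field_simp; norm_num
      rw [e1, e2] at h3
      have h5 := lt_of_mul_lt_mul_left h3 (by positivity)
      rwa [lt_div_iff₀ (by positivity), one_mul] at h5
    have h5 : (3 * Real.pi * Δ) ^ 2 < (K ^ 2 * φ * N) ^ 2 :=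
      pow_lt_pow_left₀ h4 (by positivity) (by norm_num)
    have h6 : (K ^ 2 * φ * N) ^ 2 = K ^ 4 * N ^ 2 / (2 * Real.pi) := by
      rw [mul_pow, mul_pow, hφ2]; ring
    rw [h6, lt_div_iff₀ (by positivity)] at h5
    have h7 : 9 * Real.pi ^ 2 / (4 * K ^ 4) * f3 (ynorm u a) (ynorm u b) (ynorm u c - ynorm u l)
        ≤ 9 * Real.pi ^ 2 / (4 * K ^ 4) * ((2 * Real.pi) ^ 2 * (4 * Δ ^ 2)) := by
      rw [hscale]
      gcongr
    refine h7.trans ?_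
    unfold ynorm
    rw [← hN]
    have h8 : 9 * Real.pi ^ 2 / (4 * K ^ 4) * ((2 * Real.pi) ^ 2 * (4 * Δ ^ 2)) =
        2 * Real.pi * ((3 * Real.pi * Δ) ^ 2 * (2 * Real.pi)) / K ^ 4 := by
      field_simp; ring
    rw [h8, div_le_iff₀ (by positivity)]
    nlinarith

lemma Opt.norm_rest_sq_le (hu : Opt u) (J : Finset (Fin k)) :
    ‖rest u J‖ ^ 2 ≤ ∑ i ∈ Jᶜ, ‖u i‖ ^ 2 := by
  unfold rest
  rw [← real_inner_self_eq_norm_sq, sum_inner]
  apply Finset.sum_le_sum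
  intro i hi
  rw [inner_sum, ← Finset.add_sum_erase _ _ hi, real_inner_self_eq_norm_sq]
  have : ∑ j ∈ Jᶜ.erase i, ⟪u i, u j⟫ ≤ 0 := by
    apply Finset.sum_nonpos
    intro j hj
    exact (hu.neg i j (Finset.ne_of_mem_erase hj).symm).le
  linarith

lemma Opt.measure_outside (hu : Opt u) [Nontrivial (Fin k)] (J : Finset (Fin k)) :
    (stdGaussian (EuclideanSpace ℝ (Fin n))).real (outside u J) = ∑ i ∈ Jᶜ, pr u i := by
  have h1 := hu.integral_outside (f := fun _ => (1 : ℝ)) (integrable_const 1) J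
  simpa [pr, Measure.real] using h1

/-- [HD2] -/
theorem Opt.set_ineq (hu : Opt u) (hk : 4 ≤ k)
    (hB : ∀ m < k, Bd (EuclideanSpace ℝ (Fin n)) (9 / (8 * Real.pi)) m)
    (hF : 9 / (8 * Real.pi) < ∑ i, ‖u i‖ ^ 2) (J : Finset (Fin k)) (h3 : 3 ≤ J.card)
    (hJ : J.card < k) {a b c : Fin k} (ha : a ∈ J) (hb : b ∈ J) (hc : c ∈ J) (hab : a ≠ b)
    (hac : a ≠ c) (hbc : b ≠ c)
    (hca : ynorm u c ≤ ynorm u a) (hcb : ynorm u c ≤ ynorm u b) {h : ℝ} (hh : 0 ≤ h)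
    (hf : h ^ 2 ≤ f3 (ynorm u a) (ynorm u b) (ynorm u c - ∑ i ∈ Jᶜ, ynorm u i)) :
    4 / 9 * h * (∑ i ∈ Jᶜ, pr u i) ^ 3 / ((J.card : ℝ) + 1) ^ 2 ≤
      (∑ i ∈ Jᶜ, pr u i ^ 2) ^ 2 := by
  have hnt : Nontrivial (Fin k) := Fin.nontrivial_iff_two_le.mpr (by omega)
  have hπ := Real.pi_pos
  have h2π : 0 < 2 * Real.pi := by positivity
  rcases hh.eq_or_lt with h0 | h0
  · rw [← h0]
    simp only [mul_zero, zero_mul, zero_div]
    positivity
  have hscale : f3 (ynorm u a) (ynorm u b) (ynorm u c - ∑ i ∈ Jᶜ, ynorm u i) =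
      (2 * Real.pi) ^ 2 * f3 (‖u a‖ ^ 2) (‖u b‖ ^ 2) (‖u c‖ ^ 2 - ∑ i ∈ Jᶜ, ‖u i‖ ^ 2) := by
    unfold ynorm
    rw [← Finset.mul_sum, ← mul_sub, f3_scale]
  have hpos : 0 < f3 (‖u a‖ ^ 2) (‖u b‖ ^ 2) (‖u c‖ ^ 2 - ∑ i ∈ Jᶜ, ‖u i‖ ^ 2) := by
    have h1 : 0 < h ^ 2 := by positivity
    have h2 := h1.trans_le hf
    rw [hscale] at h2
    exact pos_of_mul_pos_right h2 (by positivity) |> fun h => h
  have hca' : ‖u c‖ ^ 2 ≤ ‖u a‖ ^ 2 := le_of_mul_le_mul_left hca h2π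
  have hcb' : ‖u c‖ ^ 2 ≤ ‖u b‖ ^ 2 := le_of_mul_le_mul_left hcb h2π
  have hJc : (Jᶜ).Nonempty := by
    rw [← Finset.card_pos, Finset.card_compl, Fintype.card_fin]
    omega
  have hwneg : ∀ j ∈ J, ⟪rest u J, u j⟫ < 0 := by
    intro j hj
    unfold rest
    rw [sum_inner]
    apply Finset.sum_neg _ hJc
    intro i hi
    exact hu.neg i j (fun h => by rw [h] at hi; exact absurd hj (Finset.mem_compl.mp hi))
  have hw : rest u J ≠ 0 := by
    intro h1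
    have := hwneg a ha
    rw [h1, inner_zero_left] at this
    exact lt_irrefl _ this
  obtain ⟨i, hi, j, hj, hij, Δ, hΔ, hD, hfΔ⟩ := heron_core (w := rest u J) hw (J := J)
    (fun i _ j _ hij => (hu.neg i j hij).le) (fun j hj => (hwneg j hj).le)
    (sum_J_eq hu.sum J) ha hb hc hab hac hbc hca' hcb' (W := ∑ i ∈ Jᶜ, ‖u i‖ ^ 2)
    (hu.norm_rest_sq_le J) hpos
  have hmeas : MeasurableSet (outside u J) := by
    unfold outside
    exact Finset.measurableSet_biUnion _ (fun i _ => measurableSet_cone u i)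
  have h1 := Opt.pform' hu J h3 hi hj hij hw hΔ hD (outside u J) hmeas
  have h2 := Opt.del (hB J.card hJ) hu hF J ⟨a, ha⟩ rfl
  rw [hu.measure_outside J] at h1
  set P := ∑ i ∈ Jᶜ, pr u i with hP
  set Q := ∑ i ∈ Jᶜ, pr u i ^ 2 with hQ
  set W := ∑ i ∈ Jᶜ, ‖u i‖ ^ 2 with hW
  set m : ℝ := (J.card : ℝ) with hm
  have hm3 : (3 : ℝ) ≤ m := by rw [hm]; exact_mod_cast h3
  have hP0 : 0 ≤ P := Finset.sum_nonneg fun i _ => measureReal_nonneg
  have hQ0 : 0 ≤ Q := Finset.sum_nonneg fun i _ => sq_nonneg _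
  have hWQ : W ≤ 2 * Q := by
    rw [hW, hQ, Finset.mul_sum]
    exact Finset.sum_le_sum fun i _ => hu.sq_le_pr hk hB hF i
  have h4 : ‖rest u J‖ ^ 2 / m ≤ W / m := by
    have := hu.norm_rest_sq_le J
    gcongr
  set s := Real.sqrt (4 * Real.pi * Δ * P) with hs
  have hs0 : 0 ≤ s := Real.sqrt_nonneg _
  have hs2 : s ^ 2 = 4 * Real.pi * Δ * P := Real.sq_sqrt (by positivity)
  have h5 : 4 / 3 * P * s ≤ 2 * Q * (m + 1) := by
    have e1 : 2 * (2 / 3 * P * s / m) ≤ 2 * Q + 2 * Q / m := by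
      have : W / m ≤ 2 * Q / m := by gcongr
      linarith
    have e2 : 2 * (2 / 3 * P * s / m) = (4 / 3 * P * s) / m := by ring
    have e3 : 2 * Q + 2 * Q / m = (2 * Q * (m + 1)) / m := by field_simp
    rw [e2, e3] at e1
    exact (div_le_div_iff_of_pos_right (by linarith)).mp e1
  have h6 : (4 / 3 * P * s) ^ 2 ≤ (2 * Q * (m + 1)) ^ 2 := pow_le_pow_left₀ (by positivity) h5 2
  have h7 : (4 / 3 * P * s) ^ 2 = 16 / 9 * (4 * Real.pi * Δ) * P ^ 3 := by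
    rw [mul_pow, mul_pow, hs2]; ring
  rw [h7] at h6
  have h8 : h ≤ 4 * Real.pi * Δ := by
    have e1 : h ^ 2 ≤ (4 * Real.pi * Δ) ^ 2 := by
      calc h ^ 2 ≤ (2 * Real.pi) ^ 2 *
            f3 (‖u a‖ ^ 2) (‖u b‖ ^ 2) (‖u c‖ ^ 2 - ∑ i ∈ Jᶜ, ‖u i‖ ^ 2) := by rw [← hscale]; exact hf
        _ ≤ (2 * Real.pi) ^ 2 * (4 * Δ ^ 2) := by gcongr
        _ = (4 * Real.pi * Δ) ^ 2 := by ring
    exact le_of_sq_le_sq e1 (by positivity) |> fun h => h
  rw [div_le_iff₀ (by positivity)]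
  have h9 : 4 / 9 * h * P ^ 3 ≤ 4 / 9 * (4 * Real.pi * Δ) * P ^ 3 := by gcongr
  nlinarith

end Vale.Agent.P226
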