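import Mathlib
import Vale.Agent.P226.Full.Dat

/-! Tables: piecewise tangent proofs of quadratic minorants of the cap functions. Generated. -/

namespace Vale.Agent.P226

/-- cap inequality in dimension 3, `r = ‖u‖ / φ(0)` -/
def Cap3 (r p : ℝ) : Prop :=
  ∀ c : ℝ, 0 < c → c < 1 → r ≤ 4 * c * p + (1 - c) ^ 2

/-- cap inequality in dimension 5, `r = ‖u‖ / φ(0)` -/
def Cap5 (r p : ℝ) : Prop :=
  ∀ c : ℝ, 0 < c → c < 1 → r ≤ 16 / 3 * c * p + (1 - c) ^ 3 * (3 + c) / 3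

/-- cap inequality in dimension 7, `r = ‖u‖ / φ(0)` -/
def Cap7 (r p : ℝ) : Prop :=
  ∀ c : ℝ, 0 < c → c < 1 → r ≤ 32 / 5 * c * p + (1 - 16 / 5 * c + 3 * c ^ 2 - c ^ 4 + c ^ 6 / 5)

/-- cap inequality in dimension 9, `r = ‖u‖ / φ(0)` -/
def Cap9 (r p : ℝ) : Prop :=
  ∀ c : ℝ, 0 < c → c < 1 → r ≤ 256 / 35 * c * p + (1 - 128 / 35 * c + 4 * c ^ 2 - 2 * c ^ 4 + 4 / 5 * c ^ 6 - c ^ 8 / 7)

/-- half space inequality -/
def CapH (r p : ℝ) : Prop :=
  ∀ c : ℝ, 0 < c → c ≤ 1 → r ≤ 250663 / 100000 * c * p + (1 - 125331 / 100000 * c + c ^ 2 / 2 - c ^ 4 / 24 + c ^ 6 / 240)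

/-- cap inequality in dimension 4 for six values of `c` -/
def Cap4 (r p : ℝ) : Prop :=
  r ≤ 47124 / 10000 * (22 / 100) * p + 55396 / 100000 ∧
  r ≤ 47124 / 10000 * (28 / 100) * p + 45711 / 100000 ∧
  r ≤ 47124 / 10000 * (32 / 100) * p + 39831 / 100000 ∧
  r ≤ 47124 / 10000 * (38 / 100) * p + 31862 / 100000 ∧
  r ≤ 47124 / 10000 * (43 / 100) * p + 25985 / 100000 ∧
  r ≤ 47124 / 10000 * (50 / 100) * p + 18890 / 100000

theorem T3_line3 {r p : ℝ} (hr0 : 0 ≤ r) (hr1 : r ≤ 1) (hk : 282 / 1000 * r ≤ p)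
    (hp : 1 / 25 ≤ p) (hc : Cap3 r p) :
    3943 / 10000 * r ^ 2 + 207 / 10000 ≤ p := by
  rcases le_total r (221 / 1000) with h0 | h0
  · nlinarith [mul_nonneg hr0 (sub_nonneg.2 h0)]
  rcases le_total r (367 / 500) with h1 | h1
  · have hcc := hc (67 / 100) (by norm_num) (by norm_num)
    norm_num at hcc
    nlinarith [mul_nonneg (sub_nonneg.2 h0) (sub_nonneg.2 h1)]
  rcases le_total r (431 / 500) with h2 | h2
  · have hcc := hc (2 / 5) (by norm_num) (by norm_num)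
    norm_num at hcc
    nlinarith [mul_nonneg (sub_nonneg.2 h1) (sub_nonneg.2 h2)]
  rcases le_total r (191 / 200) with h3 | h3
  · have hcc := hc (7 / 20) (by norm_num) (by norm_num)
    norm_num at hcc
    nlinarith [mul_nonneg (sub_nonneg.2 h2) (sub_nonneg.2 h3)]
  have hcc := hc (13 / 100) (by norm_num) (by norm_num)
  norm_num at hcc
  nlinarith [mul_nonneg (sub_nonneg.2 h3) (sub_nonneg.2 hr1)]

theorem T4_line3 {r p : ℝ} (hr0 : 0 ≤ r) (hr1 : r ≤ 1) (hk : 282 / 1000 * r ≤ p)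
    (hp : 381 / 5000 ≤ p) (hc : Cap4 r p) :
    1013 / 2500 * r ^ 2 + 3 / 500 ≤ p := by
  rcases le_total r (52 / 125) with h0 | h0
  · nlinarith [mul_nonneg hr0 (sub_nonneg.2 h0)]
  rcases le_total r (807 / 1000) with h1 | h1
  · have hcc := hc.2.2.2.2.1
    nlinarith [mul_nonneg (sub_nonneg.2 h0) (sub_nonneg.2 h1)]
  rcases le_total r (871 / 1000) with h2 | h2
  · have hcc := hc.2.2.1
    nlinarith [mul_nonneg (sub_nonneg.2 h1) (sub_nonneg.2 h2)]
  have hcc := hc.2.1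
  nlinarith [mul_nonneg (sub_nonneg.2 h2) (sub_nonneg.2 hr1)]

theorem T4_line4 {r p : ℝ} (hr0 : 0 ≤ r) (hr1 : r ≤ 1) (hk : 282 / 1000 * r ≤ p)
    (hp : 381 / 5000 ≤ p) (hc : Cap4 r p) :
    1693 / 5000 * r ^ 2 + 51 / 1000 ≤ p := by
  rcases le_total r (34 / 125) with h0 | h0
  · nlinarith [mul_nonneg hr0 (sub_nonneg.2 h0)]
  rcases le_total r (283 / 500) with h1 | h1
  · nlinarith [mul_nonneg (sub_nonneg.2 h0) (sub_nonneg.2 h1)]
  rcases le_total r (699 / 1000) with h2 | h2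
  · have hcc := hc.2.2.2.2.2
    nlinarith [mul_nonneg (sub_nonneg.2 h1) (sub_nonneg.2 h2)]
  rcases le_total r (769 / 1000) with h3 | h3
  · have hcc := hc.2.2.2.2.1
    nlinarith [mul_nonneg (sub_nonneg.2 h2) (sub_nonneg.2 h3)]
  rcases le_total r (443 / 500) with h4 | h4
  · have hcc := hc.2.2.2.1
    nlinarith [mul_nonneg (sub_nonneg.2 h3) (sub_nonneg.2 h4)]
  have hcc := hc.1
  nlinarith [mul_nonneg (sub_nonneg.2 h4) (sub_nonneg.2 hr1)]

theorem T5_line3 {r p : ℝ} (hr0 : 0 ≤ r) (hr1 : r ≤ 1) (hk : 282 / 1000 * r ≤ p)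
    (hp : 311 / 5000 ≤ p) (hc : Cap5 r p) :
    4109 / 10000 * r ^ 2 + (-9 / 5000) ≤ p := by
  rcases le_total r (197 / 500) with h0 | h0
  · nlinarith [mul_nonneg hr0 (sub_nonneg.2 h0)]
  rcases le_total r (4 / 5) with h1 | h1
  · have hcc := hc (39 / 100) (by norm_num) (by norm_num)
    norm_num at hcc
    nlinarith [mul_nonneg (sub_nonneg.2 h0) (sub_nonneg.2 h1)]
  rcases le_total r (871 / 1000) with h2 | h2
  · have hcc := hc (7 / 25) (by norm_num) (by norm_num)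
    norm_num at hcc
    nlinarith [mul_nonneg (sub_nonneg.2 h1) (sub_nonneg.2 h2)]
  have hcc := hc (6 / 25) (by norm_num) (by norm_num)
  norm_num at hcc
  nlinarith [mul_nonneg (sub_nonneg.2 h2) (sub_nonneg.2 hr1)]

theorem T5_line4 {r p : ℝ} (hr0 : 0 ≤ r) (hr1 : r ≤ 1) (hk : 282 / 1000 * r ≤ p)
    (hp : 311 / 5000 ≤ p) (hc : Cap5 r p) :
    683 / 2000 * r ^ 2 + 451 / 10000 ≤ p := by
  rcases le_total r (223 / 1000) with h0 | h0
  · nlinarith [mul_nonneg hr0 (sub_nonneg.2 h0)]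
  rcases le_total r (76 / 125) with h1 | h1
  · nlinarith [mul_nonneg (sub_nonneg.2 h0) (sub_nonneg.2 h1)]
  rcases le_total r (719 / 1000) with h2 | h2
  · have hcc := hc (21 / 50) (by norm_num) (by norm_num)
    norm_num at hcc
    nlinarith [mul_nonneg (sub_nonneg.2 h1) (sub_nonneg.2 h2)]
  rcases le_total r (781 / 1000) with h3 | h3
  · have hcc := hc (37 / 100) (by norm_num) (by norm_num)
    norm_num at hcc
    nlinarith [mul_nonneg (sub_nonneg.2 h2) (sub_nonneg.2 h3)]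
  rcases le_total r (47 / 50) with h4 | h4
  · have hcc := hc (8 / 25) (by norm_num) (by norm_num)
    norm_num at hcc
    nlinarith [mul_nonneg (sub_nonneg.2 h3) (sub_nonneg.2 h4)]
  have hcc := hc (1 / 10) (by norm_num) (by norm_num)
  norm_num at hcc
  nlinarith [mul_nonneg (sub_nonneg.2 h4) (sub_nonneg.2 hr1)]

theorem T7_line3 {r p : ℝ} (hr0 : 0 ≤ r) (hr1 : r ≤ 1) (hk : 282 / 1000 * r ≤ p)
    (hp : 101 / 2000 ≤ p) (hc : Cap7 r p) :
    4169 / 10000 * r ^ 2 + (-49 / 5000) ≤ p := by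
  rcases le_total r (19 / 50) with h0 | h0
  · nlinarith [mul_nonneg hr0 (sub_nonneg.2 h0)]
  rcases le_total r (801 / 1000) with h1 | h1
  · have hcc := hc (8 / 25) (by norm_num) (by norm_num)
    norm_num at hcc
    nlinarith [mul_nonneg (sub_nonneg.2 h0) (sub_nonneg.2 h1)]
  rcases le_total r (869 / 1000) with h2 | h2
  · have hcc := hc (23 / 100) (by norm_num) (by norm_num)
    norm_num at hcc
    nlinarith [mul_nonneg (sub_nonneg.2 h1) (sub_nonneg.2 h2)]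
  have hcc := hc (1 / 5) (by norm_num) (by norm_num)
  norm_num at hcc
  nlinarith [mul_nonneg (sub_nonneg.2 h2) (sub_nonneg.2 hr1)]

theorem T7_line4 {r p : ℝ} (hr0 : 0 ≤ r) (hr1 : r ≤ 1) (hk : 282 / 1000 * r ≤ p)
    (hp : 101 / 2000 ≤ p) (hc : Cap7 r p) :
    689 / 2000 * r ^ 2 + 39 / 1000 ≤ p := by
  rcases le_total r (91 / 500) with h0 | h0
  · nlinarith [mul_nonneg hr0 (sub_nonneg.2 h0)]
  rcases le_total r (641 / 1000) with h1 | h1
  · nlinarith [mul_nonneg (sub_nonneg.2 h0) (sub_nonneg.2 h1)]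
  rcases le_total r (37 / 50) with h2 | h2
  · have hcc := hc (33 / 100) (by norm_num) (by norm_num)
    norm_num at hcc
    nlinarith [mul_nonneg (sub_nonneg.2 h1) (sub_nonneg.2 h2)]
  rcases le_total r (33 / 40) with h3 | h3
  · have hcc := hc (29 / 100) (by norm_num) (by norm_num)
    norm_num at hcc
    nlinarith [mul_nonneg (sub_nonneg.2 h2) (sub_nonneg.2 h3)]
  have hcc := hc (11 / 50) (by norm_num) (by norm_num)
  norm_num at hcc
  nlinarith [mul_nonneg (sub_nonneg.2 h3) (sub_nonneg.2 hr1)]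

theorem T9_line3 {r p : ℝ} (hr0 : 0 ≤ r) (hr1 : r ≤ 1) (hk : 282 / 1000 * r ≤ p)
    (hp : 121 / 2000 ≤ p) (hc : Cap9 r p) :
    21 / 50 * r ^ 2 + (-7 / 500) ≤ p := by
  rcases le_total r (421 / 1000) with h0 | h0
  · nlinarith [mul_nonneg hr0 (sub_nonneg.2 h0)]
  rcases le_total r (101 / 125) with h1 | h1
  · have hcc := hc (27 / 100) (by norm_num) (by norm_num)
    norm_num at hcc
    nlinarith [mul_nonneg (sub_nonneg.2 h0) (sub_nonneg.2 h1)]
  rcases le_total r (869 / 1000) with h2 | h2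
  · have hcc := hc (1 / 5) (by norm_num) (by norm_num)
    norm_num at hcc
    nlinarith [mul_nonneg (sub_nonneg.2 h1) (sub_nonneg.2 h2)]
  rcases le_total r (119 / 125) with h3 | h3
  · have hcc := hc (9 / 50) (by norm_num) (by norm_num)
    norm_num at hcc
    nlinarith [mul_nonneg (sub_nonneg.2 h2) (sub_nonneg.2 h3)]
  have hcc := hc (7 / 100) (by norm_num) (by norm_num)
  norm_num at hcc
  nlinarith [mul_nonneg (sub_nonneg.2 h3) (sub_nonneg.2 hr1)]

theorem T9_line4 {r p : ℝ} (hr0 : 0 ≤ r) (hr1 : r ≤ 1) (hk : 282 / 1000 * r ≤ p)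
    (hp : 121 / 2000 ≤ p) (hc : Cap9 r p) :
    173 / 500 * r ^ 2 + 359 / 10000 ≤ p := by
  rcases le_total r (133 / 500) with h0 | h0
  · nlinarith [mul_nonneg hr0 (sub_nonneg.2 h0)]
  rcases le_total r (82 / 125) with h1 | h1
  · nlinarith [mul_nonneg (sub_nonneg.2 h0) (sub_nonneg.2 h1)]
  rcases le_total r (737 / 1000) with h2 | h2
  · have hcc := hc (29 / 100) (by norm_num) (by norm_num)
    norm_num at hcc
    nlinarith [mul_nonneg (sub_nonneg.2 h1) (sub_nonneg.2 h2)]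
  rcases le_total r (399 / 500) with h3 | h3
  · have hcc := hc (13 / 50) (by norm_num) (by norm_num)
    norm_num at hcc
    nlinarith [mul_nonneg (sub_nonneg.2 h2) (sub_nonneg.2 h3)]
  have hcc := hc (11 / 50) (by norm_num) (by norm_num)
  norm_num at hcc
  nlinarith [mul_nonneg (sub_nonneg.2 h3) (sub_nonneg.2 hr1)]

theorem T9_line5 {r p : ℝ} (hr0 : 0 ≤ r) (hr1 : r ≤ 1) (hk : 282 / 1000 * r ≤ p)
    (hp : 121 / 2000 ≤ p) (hc : Cap9 r p) :
    1653 / 5000 * r ^ 2 + 219 / 5000 ≤ p := by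
  rcases le_total r (28 / 125) with h0 | h0
  · nlinarith [mul_nonneg hr0 (sub_nonneg.2 h0)]
  rcases le_total r (81 / 125) with h1 | h1
  · nlinarith [mul_nonneg (sub_nonneg.2 h0) (sub_nonneg.2 h1)]
  rcases le_total r (73 / 100) with h2 | h2
  · have hcc := hc (3 / 10) (by norm_num) (by norm_num)
    norm_num at hcc
    nlinarith [mul_nonneg (sub_nonneg.2 h1) (sub_nonneg.2 h2)]
  rcases le_total r (871 / 1000) with h3 | h3
  · have hcc := hc (13 / 50) (by norm_num) (by norm_num)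
    norm_num at hcc
    nlinarith [mul_nonneg (sub_nonneg.2 h2) (sub_nonneg.2 h3)]
  have hcc := hc (7 / 50) (by norm_num) (by norm_num)
  norm_num at hcc
  nlinarith [mul_nonneg (sub_nonneg.2 h3) (sub_nonneg.2 hr1)]

theorem TH_line3 {r p : ℝ} (hr0 : 0 ≤ r) (hr1 : r ≤ 1) (hk : 282 / 1000 * r ≤ p)
    (hp : 47 / 1000 ≤ p) (hc : CapH r p) :
    2147 / 5000 * r ^ 2 + (-67 / 2500) ≤ p := by
  rcases le_total r (207 / 500) with h0 | h0
  · nlinarith [mul_nonneg hr0 (sub_nonneg.2 h0)]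
  rcases le_total r (401 / 500) with h1 | h1
  · have hcc := hc (4 / 5) (by norm_num) (by norm_num)
    norm_num at hcc
    nlinarith [mul_nonneg (sub_nonneg.2 h0) (sub_nonneg.2 h1)]
  rcases le_total r (429 / 500) with h2 | h2
  · have hcc := hc (3 / 5) (by norm_num) (by norm_num)
    norm_num at hcc
    nlinarith [mul_nonneg (sub_nonneg.2 h1) (sub_nonneg.2 h2)]
  rcases le_total r (177 / 200) with h3 | h3
  · have hcc := hc (11 / 20) (by norm_num) (by norm_num)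
    norm_num at hcc
    nlinarith [mul_nonneg (sub_nonneg.2 h2) (sub_nonneg.2 h3)]
  have hcc := hc (9 / 20) (by norm_num) (by norm_num)
  norm_num at hcc
  nlinarith [mul_nonneg (sub_nonneg.2 h3) (sub_nonneg.2 hr1)]

theorem TH_line4 {r p : ℝ} (hr0 : 0 ≤ r) (hr1 : r ≤ 1) (hk : 282 / 1000 * r ≤ p)
    (hp : 47 / 1000 ≤ p) (hc : CapH r p) :
    1753 / 5000 * r ^ 2 + 263 / 10000 ≤ p := by
  rcases le_total r (121 / 500) with h0 | h0
  · nlinarith [mul_nonneg hr0 (sub_nonneg.2 h0)]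
  rcases le_total r (87 / 125) with h1 | h1
  · nlinarith [mul_nonneg (sub_nonneg.2 h0) (sub_nonneg.2 h1)]
  rcases le_total r (189 / 250) with h2 | h2
  · have hcc := hc (4 / 5) (by norm_num) (by norm_num)
    norm_num at hcc
    nlinarith [mul_nonneg (sub_nonneg.2 h1) (sub_nonneg.2 h2)]
  rcases le_total r (87 / 100) with h3 | h3
  · have hcc := hc (7 / 10) (by norm_num) (by norm_num)
    norm_num at hcc
    nlinarith [mul_nonneg (sub_nonneg.2 h2) (sub_nonneg.2 h3)]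
  have hcc := hc (9 / 20) (by norm_num) (by norm_num)
  norm_num at hcc
  nlinarith [mul_nonneg (sub_nonneg.2 h3) (sub_nonneg.2 hr1)]

theorem TH_line5 {r p : ℝ} (hr0 : 0 ≤ r) (hr1 : r ≤ 1) (hk : 282 / 1000 * r ≤ p)
    (hp : 47 / 1000 ≤ p) (hc : CapH r p) :
    208 / 625 * r ^ 2 + 71 / 2000 ≤ p := by
  rcases le_total r (37 / 200) with h0 | h0
  · nlinarith [mul_nonneg hr0 (sub_nonneg.2 h0)]
  rcases le_total r (693 / 1000) with h1 | h1
  · nlinarith [mul_nonneg (sub_nonneg.2 h0) (sub_nonneg.2 h1)]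
  rcases le_total r (149 / 200) with h2 | h2
  · have hcc := hc (17 / 20) (by norm_num) (by norm_num)
    norm_num at hcc
    nlinarith [mul_nonneg (sub_nonneg.2 h1) (sub_nonneg.2 h2)]
  rcases le_total r (97 / 100) with h3 | h3
  · have hcc := hc (7 / 10) (by norm_num) (by norm_num)
    norm_num at hcc
    nlinarith [mul_nonneg (sub_nonneg.2 h2) (sub_nonneg.2 h3)]
  have hcc := hc (1 / 10) (by norm_num) (by norm_num)
  norm_num at hcc
  nlinarith [mul_nonneg (sub_nonneg.2 h3) (sub_nonneg.2 hr1)]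

theorem TH_line6 {r p : ℝ} (hr0 : 0 ≤ r) (hr1 : r ≤ 1) (hk : 282 / 1000 * r ≤ p)
    (hp : 47 / 1000 ≤ p) (hc : CapH r p) :
    3289 / 10000 * r ^ 2 + 93 / 2500 ≤ p := by
  rcases le_total r (43 / 250) with h0 | h0
  · nlinarith [mul_nonneg hr0 (sub_nonneg.2 h0)]
  rcases le_total r (347 / 500) with h1 | h1
  · nlinarith [mul_nonneg (sub_nonneg.2 h0) (sub_nonneg.2 h1)]
  rcases le_total r (33 / 40) with h2 | h2
  · have hcc := hc (4 / 5) (by norm_num) (by norm_num)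
    norm_num at hcc
    nlinarith [mul_nonneg (sub_nonneg.2 h1) (sub_nonneg.2 h2)]
  have hcc := hc (1 / 2) (by norm_num) (by norm_num)
  norm_num at hcc
  nlinarith [mul_nonneg (sub_nonneg.2 h2) (sub_nonneg.2 hr1)]

end Vale.Agent.P226
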