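import Mathlib
import Vale.Agent.P226.Assemble
import Vale.Agent.P226.Full.Dat
import Vale.Agent.P226.Full.Table
import Vale.Agent.P226.Full.NormX
import Vale.Agent.P226.Full.CapPolyX
import Vale.Agent.P226.Full.CapPolyY

/-!
[AS1] sorting and normalisation of a minimal counterexample.
-/

open MeasureTheory ProbabilityTheory Set Finset
open scoped RealInnerProductSpace ENNReal NNReal

set_option linter.unusedSectionVars false

namespace Vale.Agent.P226

/-- [AS1] -/
theorem exists_dat {n k : ℕ} {u : Fin k → EuclideanSpace ℝ (Fin n)} (hu : Opt u) (hk : 4 ≤ k)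
    (hB : ∀ m < k, Bd (EuclideanSpace ℝ (Fin n)) (9 / (8 * Real.pi)) m)
    (hF : 9 / (8 * Real.pi) < ∑ i, ‖u i‖ ^ 2) :
    ∃ y p : ℕ → ℝ, Dat k y p ∧ ∀ i < k, ∃ j : Fin k, y i = ynorm u j ∧ p i = pr u j := by
  have hnt : Nontrivial (Fin k) := Fin.nontrivial_iff_two_le.mpr (by omega)
  have hπ := Real.pi_pos
  set σ : Equiv.Perm (Fin k) := Tuple.sort (fun i => - pr u i) with hσ
  have hmono : Monotone ((fun i => - pr u i) ∘ σ) := Tuple.monotone_sort _
  set y : ℕ → ℝ := fun i => if h : i < k then ynorm u (σ ⟨i, h⟩) else 0 with hy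
  set p : ℕ → ℝ := fun i => if h : i < k then pr u (σ ⟨i, h⟩) else 0 with hp
  have hy' : ∀ i (h : i < k), y i = ynorm u (σ ⟨i, h⟩) := fun i h => by simp only [hy, dif_pos h]
  have hp' : ∀ i (h : i < k), p i = pr u (σ ⟨i, h⟩) := fun i h => by simp only [hp, dif_pos h]
  have hypos : ∀ j, 0 < ynorm u j := by
    intro j
    unfold ynorm
    have := hu.norm_pos j
    positivity
  have hyone : ∀ j, ynorm u j ≤ 1 := by
    intro j
    unfold ynorm
    have h1 := hu.norm_le_phi j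
    have h2 : ‖u j‖ ^ 2 ≤ phi 0 ^ 2 := pow_le_pow_left₀ (norm_nonneg _) h1 2
    rw [phi_zero_sq] at h2
    calc 2 * Real.pi * ‖u j‖ ^ 2 ≤ 2 * Real.pi * (1 / (2 * Real.pi)) := by gcongr
      _ = 1 := by field_simp
  have hpnn : ∀ j, 0 ≤ pr u j := fun j => measureReal_nonneg
  have hppos : ∀ j, 0 < pr u j := by
    intro j
    have h1 := hu.prek_ineq hk hB hF j
    have h2 := hypos j
    rcases (hpnn j).eq_or_lt with h | h
    · rw [← h] at h1
      norm_num at h1
      linarith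
    · exact h
  -- sums
  have hsum : ∀ (g : ℕ → ℝ) (G : Fin k → ℝ), (∀ i (h : i < k), g i = G (σ ⟨i, h⟩)) →
      ∑ i ∈ range k, g i = ∑ j, G j := by
    intro g G hg
    rw [Finset.sum_range]
    rw [← Equiv.sum_comp σ G]
    apply Finset.sum_congr rfl
    intro i _
    exact hg i.1 i.2
  have hsumJ : ∀ (g : ℕ → ℝ) (G : Fin k → ℝ), (∀ i (h : i < k), g i = G (σ ⟨i, h⟩)) →
      ∀ m, ∑ j ∈ (univ.filter fun j : Fin k => (σ.symm j).val < m)ᶜ, G j = ∑ i ∈ Finset.Ico m k, g i := by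
    intro g G hg m
    have e1 : (univ.filter fun j : Fin k => (σ.symm j).val < m)ᶜ
        = univ.filter fun j : Fin k => ¬ (σ.symm j).val < m := by
      ext j; simp
    have e2 : Finset.Ico m k = (Finset.range k).filter fun i => ¬ i < m := by
      ext i
      simp only [Finset.mem_Ico, Finset.mem_filter, Finset.mem_range]
      omega
    rw [e1, e2, Finset.sum_filter, Finset.sum_filter]
    symm
    apply hsum
    intro i hi
    simp only [Equiv.symm_apply_apply]
    split_ifs with h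
    · rfl
    · exact hg i hi
  have hcard : ∀ m, m ≤ k → (univ.filter fun j : Fin k => (σ.symm j).val < m).card = m := by
    intro m hm
    have h := hsumJ (fun _ => (1 : ℝ)) (fun _ => 1) (fun _ _ => rfl) m
    simp only [Finset.sum_const, nsmul_eq_mul, mul_one, Nat.card_Ico] at h
    have h' : ((univ.filter fun j : Fin k => (σ.symm j).val < m)ᶜ).card = k - m := by
      exact_mod_cast h
    rw [Finset.card_compl, Fintype.card_fin] at h'
    have h'' : (univ.filter fun j : Fin k => (σ.symm j).val < m).card ≤ k := by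
      simpa using Finset.card_le_univ (univ.filter fun j : Fin k => (σ.symm j).val < m)
    omega
  have hne : ∀ {i j : ℕ} (hi : i < k) (hj : j < k), i ≠ j → σ ⟨i, hi⟩ ≠ σ ⟨j, hj⟩ := by
    intro i j hi hj hij h
    have := σ.injective h
    exact hij (Fin.mk.inj_iff.mp this)
  refine ⟨y, p, ⟨?_, ?_, ?_, ?_, ?_, ?_, ?_, ?_, ?_⟩, ?_⟩
  · intro i hi; rw [hy' i hi]; exact hypos _
  · intro i hi; rw [hy' i hi]; exact hyone _
  · intro i hi; rw [hp' i hi]; exact hppos _
  · intro i j hij hj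
    rw [hp' i (by omega), hp' j hj]
    have := hmono (show (⟨i, by omega⟩ : Fin k) ≤ ⟨j, hj⟩ from hij)
    simp only [Function.comp] at this
    linarith
  · rw [hsum p (fun j => pr u j) hp']
    exact hu.prob
  · rw [hsum y (fun j => ynorm u j) hy']
    unfold ynorm
    rw [← Finset.mul_sum]
    calc (9 : ℝ) / 4 = 2 * Real.pi * (9 / (8 * Real.pi)) := by field_simp; norm_num
      _ < 2 * Real.pi * ∑ i, ‖u i‖ ^ 2 := by gcongr
  · intro i hi
    rw [hy' i hi, hp' i hi]
    exact hu.prek_ineq hk hB hF _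
  · intro l a b c hl ha hb hc hla hlb hlc hab hac hbc hca hcb
    rw [hy' l hl, hy' a ha, hy' b hb, hy' c hc]
    rw [hy' a ha, hy' c hc] at hca
    rw [hy' b hb, hy' c hc] at hcb
    exact hu.single_ineq hk hB hF (hne hl ha hla) (hne hl hb hlb) (hne hl hc hlc)
      (hne ha hb hab) (hne ha hc hac) (hne hb hc hbc) hca hcb
  · intro m a b c hm3 hmk ham hbm hcm hab hac hbc hca hcb h hh hf
    have ha : a < k := by omega
    have hb : b < k := by omega
    have hc : c < k := by omega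
    rw [hy' a ha, hy' c hc] at hca
    rw [hy' b hb, hy' c hc] at hcb
    have hJ := hcard m hmk.le
    have hmem : ∀ i (hi : i < k), i < m →
        σ ⟨i, hi⟩ ∈ (univ.filter fun j : Fin k => (σ.symm j).val < m) := by
      intro i hi him
      simp [him]
    have h1 := hu.set_ineq hk hB hF (univ.filter fun j : Fin k => (σ.symm j).val < m)
      (by rw [hJ]; exact hm3) (by rw [hJ]; exact hmk)
      (hmem a ha ham) (hmem b hb hbm) (hmem c hc hcm)
      (hne ha hb hab) (hne ha hc hac) (hne hb hc hbc) hca hcb hh (by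
        rw [hsumJ y (fun j => ynorm u j) hy' m]
        rw [hy' a ha, hy' b hb, hy' c hc] at hf
        exact hf)
    rw [hJ] at h1
    rw [hsumJ p (fun j => pr u j) hp' m,
      hsumJ (fun i => p i ^ 2) (fun j => pr u j ^ 2) (fun i hi => by rw [hp' i hi]) m] at h1
    exact h1
  · intro i hi
    exact ⟨σ ⟨i, hi⟩, hy' i hi, hp' i hi⟩

/-- normalisation: `√(ynorm) · phi 0 = ‖u‖` -/
theorem sqrt_ynorm_le {n k : ℕ} [Nontrivial (Fin k)] {u : Fin k → EuclideanSpace ℝ (Fin n)}
    {i : Fin k} {r : ℝ} (h : ‖u i‖ ≤ phi 0 * r) : Real.sqrt (ynorm u i) ≤ r := by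
  have hπ := Real.pi_pos
  have hphi : 0 < phi 0 := by
    have h0 : 0 ≤ phi 0 := by
      rw [phi_zero]; positivity
    have h1 := phi_zero_sq
    rcases h0.eq_or_lt with h | h
    · rw [← h] at h1
      have : 0 < 1 / (2 * Real.pi) := by positivity
      exfalso
      rw [← h1] at this
      norm_num at this
    · exact h
  have hr : 0 ≤ r := by
    by_contra hneg
    push Not at hneg
    have := mul_neg_of_pos_of_neg hphi hneg
    linarith [norm_nonneg (u i)]
  rw [Real.sqrt_le_left hr]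
  unfold ynorm
  have h2 : ‖u i‖ ^ 2 ≤ (phi 0 * r) ^ 2 := pow_le_pow_left₀ (norm_nonneg _) h 2
  rw [mul_pow, phi_zero_sq] at h2
  calc 2 * Real.pi * ‖u i‖ ^ 2 ≤ 2 * Real.pi * (1 / (2 * Real.pi) * r ^ 2) := by gcongr
    _ = r ^ 2 := by field_simp

/-- [AS1] -/
theorem cap3_of {k : ℕ} [Nontrivial (Fin k)] {u : Fin k → EuclideanSpace ℝ (Fin 3)} (hu : Opt u)
    (i : Fin k) : Cap3 (Real.sqrt (ynorm u i)) (pr u i) :=
  fun _ hc0 hc1 => sqrt_ynorm_le (hu.cap3 i hc0 hc1)

theorem cap4_of {k : ℕ} [Nontrivial (Fin k)] {u : Fin k → EuclideanSpace ℝ (Fin 4)} (hu : Opt u)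
    (i : Fin k) : Cap4 (Real.sqrt (ynorm u i)) (pr u i) := by
  obtain ⟨h1, h2, h3, h4, h5, h6⟩ := hu.cap4 i
  exact ⟨sqrt_ynorm_le h1, sqrt_ynorm_le h2, sqrt_ynorm_le h3, sqrt_ynorm_le h4,
    sqrt_ynorm_le h5, sqrt_ynorm_le h6⟩

theorem cap5_of {k : ℕ} [Nontrivial (Fin k)] {u : Fin k → EuclideanSpace ℝ (Fin 5)} (hu : Opt u)
    (i : Fin k) : Cap5 (Real.sqrt (ynorm u i)) (pr u i) :=
  fun _ hc0 hc1 => sqrt_ynorm_le (hu.cap5 i hc0 hc1)

theorem cap7_of {k : ℕ} [Nontrivial (Fin k)] {u : Fin k → EuclideanSpace ℝ (Fin 7)} (hu : Opt u)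
    (i : Fin k) : Cap7 (Real.sqrt (ynorm u i)) (pr u i) :=
  fun _ hc0 hc1 => sqrt_ynorm_le (hu.cap7 i hc0 hc1)

theorem cap9_of {k : ℕ} [Nontrivial (Fin k)] {u : Fin k → EuclideanSpace ℝ (Fin 9)} (hu : Opt u)
    (i : Fin k) : Cap9 (Real.sqrt (ynorm u i)) (pr u i) :=
  fun _ hc0 hc1 => sqrt_ynorm_le (hu.cap9 i hc0 hc1)

theorem capH_of {n k : ℕ} [Nontrivial (Fin k)] {u : Fin k → EuclideanSpace ℝ (Fin n)}
    (hu : Opt u) (i : Fin k) : CapH (Real.sqrt (ynorm u i)) (pr u i) :=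
  fun _ hc0 hc1 => sqrt_ynorm_le (hu.halfp i hc0 hc1)

end Vale.Agent.P226
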