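import Mathlib
import Vale.Agent.P226.Full.Dat
import Vale.Agent.P226.Full.Table

/-! statements of the numeric endgame -/

namespace Vale.Agent.P226

theorem no_dat4 {y p : ℕ → ℝ} (h : Dat 4 y p) (hc : ∀ i < 4, Cap3 (Real.sqrt (y i)) (p i)) :
    False := by
  sorry

theorem no_dat5 {y p : ℕ → ℝ} (h : Dat 5 y p) (hc : ∀ i < 5, Cap4 (Real.sqrt (y i)) (p i)) :
    False := by
  sorry

theorem no_dat6 {y p : ℕ → ℝ} (h : Dat 6 y p) (hc : ∀ i < 6, Cap5 (Real.sqrt (y i)) (p i)) :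
    False := by
  sorry

theorem no_dat7 {k : ℕ} (hk : k = 7 ∨ k = 8) {y p : ℕ → ℝ} (h : Dat k y p)
    (hc : ∀ i < k, Cap7 (Real.sqrt (y i)) (p i)) : False := by
  sorry

theorem no_dat9 {k : ℕ} (hk : k = 9 ∨ k = 10) {y p : ℕ → ℝ} (h : Dat k y p)
    (hc : ∀ i < k, Cap9 (Real.sqrt (y i)) (p i)) : False := by
  sorry

theorem no_dat11 {k : ℕ} (hk : 11 ≤ k) {y p : ℕ → ℝ} (h : Dat k y p)
    (hc : ∀ i < k, CapH (Real.sqrt (y i)) (p i)) : False := by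
  sorry

end Vale.Agent.P226
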