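import Mathlib
import Vale.Agent.P226.Full.Base

/-! [F] three cells. -/

open MeasureTheory ProbabilityTheory Set
open scoped RealInnerProductSpace ENNReal NNReal

set_option linter.unusedSectionVars false

namespace Vale.Agent.P226

variable {E : Type*} [NormedAddCommGroup E] [InnerProductSpace ℝ E] [FiniteDimensional ℝ E]
  [MeasurableSpace E] [BorelSpace E]

lemma integral_abs_gauss : ∫ s, |s| ∂(gaussianReal 0 1) = 2 * phi 0 := by
  have h1 : ∀ s : ℝ, |s| = 2 * (Ici (0 : ℝ)).indicator (fun s => s) s - s := by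
    intro s
    by_cases hs : 0 ≤ s
    · rw [indicator_of_mem (mem_Ici.mpr hs), abs_of_nonneg hs]; ring
    · rw [indicator_of_notMem (by simpa using hs), abs_of_neg (not_le.mp hs)]; ring
  have hi : Integrable (fun s : ℝ => s) (gaussianReal 0 1) := by
    simpa using integrable_pow_gauss 1
  simp_rw [h1]
  rw [integral_sub ((hi.indicator measurableSet_Ici).const_mul 2) hi, integral_const_mul,
    integral_indicator measurableSet_Ici, integral_Ici_id, integral_id_gaussianReal]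
  ring

lemma integral_abs_inner (v : E) : ∫ x, |⟪v, x⟫| ∂(stdGaussian E) = 2 * phi 0 * ‖v‖ := by
  rcases eq_or_ne v 0 with rfl | hv
  · simp
  · have hn : 0 < ‖v‖ := norm_pos_iff.mpr hv
    have he : ‖(‖v‖⁻¹ : ℝ) • v‖ = 1 := by
      rw [norm_smul, norm_inv, norm_norm, inv_mul_cancel₀ hn.ne']
    have h1 : ∀ x : E, |⟪v, x⟫| = ‖v‖ * |⟪(‖v‖⁻¹ : ℝ) • v, x⟫| := by
      intro x
      rw [real_inner_smul_left, abs_mul, abs_of_pos (inv_pos.mpr hn), ← mul_assoc,
        mul_inv_cancel₀ hn.ne', one_mul]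
    simp_rw [h1]
    rw [integral_const_mul]
    have h2 : ∫ x, |⟪(‖v‖⁻¹ : ℝ) • v, x⟫| ∂(stdGaussian E) = ∫ s, |s| ∂(gaussianReal 0 1) := by
      rw [← map_inner_unit _ he, integral_map (by fun_prop) (by fun_prop)]
    rw [h2, integral_abs_gauss]
    ring

lemma integrable_abs_inner (v : E) : Integrable (fun x : E => |⟪v, x⟫|) (stdGaussian E) :=
  (integrable_inner v).abs

lemma integral_neg_comp (f : E → ℝ) :
    ∫ x, f (-x) ∂(stdGaussian E) = ∫ x, f x ∂(stdGaussian E) := by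
  have h1 := stdGaussian_map (LinearIsometryEquiv.neg ℝ (E := E))
  conv_rhs => rw [← h1]
  rw [MeasurableEmbedding.integral_map]
  · rfl
  · exact (LinearIsometryEquiv.neg ℝ (E := E)).toHomeomorph.measurableEmbedding

/-- [F] `M(d,3) ≤ 9/(8π)`. -/
theorem bd_three' : Bd E (9 / (8 * Real.pi)) 3 := by
  intro A hA
  set z : Fin 3 → E := fun i => firstMoment (A i) with hz
  have hF : momentSum A ≤ Em z := momentSum_le_Em hA
  have hsum : ∑ i, z i = 0 := sum_firstMoment hA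
  have hm : momentSum A = ∑ i, ‖z i‖ ^ 2 := rfl
  have hpt : ∀ x, mx z x + mx z (-x) ≤
      (|⟪z 0 - z 1, x⟫| + |⟪z 1 - z 2, x⟫| + |⟪z 2 - z 0, x⟫|) / 2 := by
    intro x
    obtain ⟨i, hi⟩ := exists_mx z x
    obtain ⟨j, hj⟩ := exists_mx z (-x)
    rw [hi, hj, inner_neg_right]
    simp only [inner_sub_left]
    generalize ha : ⟪z 0, x⟫ = a
    generalize hb : ⟪z 1, x⟫ = b
    generalize hc : ⟪z 2, x⟫ = c
    have h1 := le_abs_self (a - b)
    have h2 := neg_abs_le (a - b)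
    have h3 := le_abs_self (b - c)
    have h4 := neg_abs_le (b - c)
    have h5 := le_abs_self (c - a)
    have h6 := neg_abs_le (c - a)
    fin_cases i <;> fin_cases j <;> simp only [Fin.zero_eta, Fin.mk_one, Fin.reduceFinMk, ha, hb, hc] <;> linarith
  have hEm : Em z ≤ phi 0 / 2 * (‖z 0 - z 1‖ + ‖z 1 - z 2‖ + ‖z 2 - z 0‖) := by
    have hneg : ∫ x, mx z (-x) ∂(stdGaussian E) = Em z := integral_neg_comp (mx z)
    have hnegi : Integrable (fun x => mx z (-x)) (stdGaussian E) := by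
      have : (fun x => mx z (-x)) = mx (fun i => - z i) := by
        ext x
        unfold mx
        simp
      rw [this]
      exact integrable_mx _
    have h1 : ∫ x, (mx z x + mx z (-x)) ∂(stdGaussian E) ≤
        ∫ x, (|⟪z 0 - z 1, x⟫| + |⟪z 1 - z 2, x⟫| + |⟪z 2 - z 0, x⟫|) / 2 ∂(stdGaussian E) := by
      apply integral_mono ((integrable_mx z).add hnegi)
      · exact (((integrable_abs_inner _).add (integrable_abs_inner _)).add
          (integrable_abs_inner _)).div_const 2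
      · exact hpt
    have h3 : ∫ x, (|⟪z 0 - z 1, x⟫| + |⟪z 1 - z 2, x⟫| + |⟪z 2 - z 0, x⟫|) ∂(stdGaussian E) =
        2 * phi 0 * ‖z 0 - z 1‖ + 2 * phi 0 * ‖z 1 - z 2‖ + 2 * phi 0 * ‖z 2 - z 0‖ := by
      have h4 : ∫ x, (|⟪z 0 - z 1, x⟫| + |⟪z 1 - z 2, x⟫|) ∂(stdGaussian E) =
          2 * phi 0 * ‖z 0 - z 1‖ + 2 * phi 0 * ‖z 1 - z 2‖ := by
        rw [integral_add (integrable_abs_inner _) (integrable_abs_inner _),
          integral_abs_inner, integral_abs_inner]
      rw [← h4, ← integral_abs_inner (z 2 - z 0)]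
      exact integral_add ((integrable_abs_inner _).add (integrable_abs_inner _))
        (integrable_abs_inner _)
    rw [integral_add (integrable_mx z) hnegi, hneg, integral_div, h3] at h1
    have h2 : ∫ x, mx z x ∂(stdGaussian E) = Em z := rfl
    rw [h2] at h1
    linarith
  have hsq : ‖z 0 - z 1‖ ^ 2 + ‖z 1 - z 2‖ ^ 2 + ‖z 2 - z 0‖ ^ 2 = 3 * momentSum A := by
    rw [hm]
    have h0 : ‖∑ i, z i‖ ^ 2 = 0 := by rw [hsum]; simp
    rw [Fin.sum_univ_three] at h0 ⊢
    rw [← real_inner_self_eq_norm_sq] at h0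
    simp only [inner_add_left, inner_add_right, real_inner_self_eq_norm_sq] at h0
    rw [norm_sub_sq_real, norm_sub_sq_real, norm_sub_sq_real]
    rw [real_inner_comm (z 0) (z 1), real_inner_comm (z 0) (z 2),
      real_inner_comm (z 1) (z 2)] at h0
    have e1 := real_inner_comm (z 0) (z 1)
    have e2 := real_inner_comm (z 0) (z 2)
    have e3 := real_inner_comm (z 1) (z 2)
    linarith
  have hφ := phi_pos 0
  have hφ2 := phi_zero_sq
  set S := ‖z 0 - z 1‖ + ‖z 1 - z 2‖ + ‖z 2 - z 0‖ with hS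
  have hS0 : 0 ≤ S := by positivity
  have hS2 : S ^ 2 ≤ 9 * momentSum A := by
    have : S ^ 2 ≤ 3 * (‖z 0 - z 1‖ ^ 2 + ‖z 1 - z 2‖ ^ 2 + ‖z 2 - z 0‖ ^ 2) := by
      rw [hS]
      nlinarith [sq_nonneg (‖z 0 - z 1‖ - ‖z 1 - z 2‖), sq_nonneg (‖z 1 - z 2‖ - ‖z 2 - z 0‖),
        sq_nonneg (‖z 2 - z 0‖ - ‖z 0 - z 1‖)]
    linarith
  have hF0 := momentSum_nonneg A
  have hfin : momentSum A ≤ phi 0 / 2 * S := hF.trans hEm
  have hsq2 : momentSum A ^ 2 ≤ (phi 0 / 2 * S) ^ 2 := pow_le_pow_left₀ hF0 hfin 2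
  have hπ := Real.pi_pos
  have hval : 9 / (8 * Real.pi) = 9 / 4 * phi 0 ^ 2 := by
    rw [hφ2]; field_simp; norm_num
  rw [hval]
  rcases hF0.eq_or_lt with h0 | h0
  · rw [← h0]; positivity
  · have h3 : momentSum A ^ 2 ≤ (9 / 4 * phi 0 ^ 2) * momentSum A := by
      calc momentSum A ^ 2 ≤ (phi 0 / 2 * S) ^ 2 := hsq2
        _ = phi 0 ^ 2 / 4 * S ^ 2 := by ring
        _ ≤ phi 0 ^ 2 / 4 * (9 * momentSum A) := by gcongr
        _ = _ := by ring
    rw [sq] at h3
    exact le_of_mul_le_mul_right h3 h0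

end Vale.Agent.P226
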