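import Mathlib
import Vale.Agent.P226.Full.NoDat
import Vale.Agent.P226.Full.AsmA
import Vale.Agent.P226.Full.NormX
import Vale.Agent.P226.Full.CapPolyX
import Vale.Agent.P226.Full.CapPolyY
import Vale.Agent.P226.Full.ThreeF

/-!
Assembly.

[AS1] `exists_dat`: sort the cells by measure (`Tuple.sort`, decreasing), extend `y, p` by any
value outside `[0,k)`. `yone`: `Opt.norm_le_phi`, `phi_zero_sq`. `ysum`: `2π · 9/(8π) = 9/4`.
`single`, `pform`, `prek`: `Opt.single_ineq`, `Opt.set_ineq` (with `J` = image of `{0..m-1}`),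
`Opt.prek_ineq`. `capN_of`: `√(ynorm u i) = ‖u i‖ / phi 0` (`phi_zero_sq`).

[AS2] `bd_all`: strong induction on `k`. `k ≤ 3`: `bd_three'` and `Bd.mono`. `k ≥ 4`: by
`Bd.of_dim` it is enough to treat `E = EuclideanSpace ℝ (Fin n)` with `n = 3` (`k = 4`), `4`, `5`,
`7` (`k = 7, 8`), `9` (`k = 9, 10`), `k - 1` (`k ≥ 11`); as in `Bd.step` (Assemble.lean) a
violating partition gives `Opt u` with `9/(8π) < ∑ ‖u i‖²`; contradiction with `no_dat*`.
-/

open MeasureTheory ProbabilityTheory Set Finset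
open scoped RealInnerProductSpace ENNReal NNReal

set_option linter.unusedSectionVars false

namespace Vale.Agent.P226

/-- [AS2] -/
theorem bd_all (E : Type*) [NormedAddCommGroup E] [InnerProductSpace ℝ E] [FiniteDimensional ℝ E]
    [MeasurableSpace E] [BorelSpace E] (k : ℕ) : Bd E (9 / (8 * Real.pi)) k := by
  sorry

end Vale.Agent.P226
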