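import Mathlib
import Vale.Agent.P226.Full.Dat

/-!
[CH] proofs of the chain of lower bounds (see `Chain.lean` for the statements).

`LB k p h j T E`: there is a sequence `t` with `t i * h ≤ π_i` for `j ≤ i ≤ k`, `t j = T`, and
`∑_{i ≥ j} (t i - t (i+1))² ≤ E`.
-/

open Finset

namespace Vale.Agent.P226

theorem abel_aux {k : ℕ} {p : ℕ → ℝ} (hp : ∀ i < k, 0 < p i)
    (ha : ∀ i j, i ≤ j → j < k → p j ≤ p i) {t : ℕ → ℝ} :
    ∀ n m, m + n + 1 = k → (∀ j, m < j → j ≤ k → t j ≤ ∑ i ∈ Ico j k, p i) →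
      -((∑ i ∈ Ico (m + 1) k, p i) - t (m + 1)) * p m ≤
        ∑ i ∈ Ico (m + 1) k, (t i - t (i + 1) - p i) * p i := by
  intro n
  induction n with
  | zero =>
    intro m hm ht
    have hk : k = m + 1 := by omega
    subst hk
    have h1 := ht (m + 1) (by omega) le_rfl
    have h2 := hp m (by omega)
    simp only [Ico_self, sum_empty] at h1 ⊢
    nlinarith
  | succ n ih =>
    intro m hm ht
    have h1 := ih (m + 1) (by omega) (fun j hj hjk => ht j (by omega) hjk)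
    have hlt : m + 1 < k := by omega
    have h2 := ht (m + 1) (by omega) hlt.le
    have h3 := ha m (m + 1) (by omega) hlt
    rw [sum_eq_sum_Ico_succ_bot hlt, sum_eq_sum_Ico_succ_bot hlt] at *
    nlinarith

theorem sq_tail_le' {k m : ℕ} (hmk : m < k) {p : ℕ → ℝ} (hp : ∀ i < k, 0 < p i)
    (ha : ∀ i j, i ≤ j → j < k → p j ≤ p i) {t : ℕ → ℝ}
    (ht : ∀ j, m < j → j ≤ k → t j ≤ ∑ i ∈ Ico j k, p i) :
    ∑ i ∈ Ico m k, p i ^ 2 ≤ (∑ i ∈ Ico m k, p i - t (m + 1)) ^ 2 +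
      ∑ i ∈ Ico (m + 1) k, (t i - t (i + 1)) ^ 2 := by
  have h1 := abel_aux hp ha (t := t) (k - m - 1) m (by omega) ht
  have h2 : ∑ i ∈ Ico (m + 1) k, (p i ^ 2 + 2 * ((t i - t (i + 1) - p i) * p i)) ≤
      ∑ i ∈ Ico (m + 1) k, (t i - t (i + 1)) ^ 2 := by
    refine sum_le_sum fun i _ => ?_
    nlinarith [sq_nonneg (t i - t (i + 1) - p i)]
  rw [sum_add_distrib, ← mul_sum] at h2
  rw [sum_eq_sum_Ico_succ_bot hmk, sum_eq_sum_Ico_succ_bot hmk]
  nlinarith [sq_nonneg ((∑ i ∈ Ico (m + 1) k, p i) - t (m + 1))]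

/-- lower bounds for the tails -/
def LB (k : ℕ) (p : ℕ → ℝ) (h : ℝ) (j : ℕ) (T E : ℝ) : Prop :=
  ∃ t : ℕ → ℝ, (∀ i, j ≤ i → i ≤ k → t i * h ≤ ∑ l ∈ Ico i k, p l) ∧ t j = T ∧
    ∑ i ∈ Ico j k, (t i - t (i + 1)) ^ 2 ≤ E

theorem chain_tail_nonneg {k : ℕ} {p : ℕ → ℝ} (hp : ∀ i < k, 0 < p i) (i : ℕ) :
    0 ≤ ∑ l ∈ Ico i k, p l :=
  sum_nonneg fun l hl => (hp l (mem_Ico.1 hl).2).le

theorem LB.nil {k : ℕ} {p : ℕ → ℝ} (hp : ∀ i < k, 0 < p i) (h : ℝ) (j : ℕ) :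
    LB k p h j 0 0 := by
  refine ⟨fun _ => 0, fun i _ _ => ?_, rfl, ?_⟩
  · rw [zero_mul]
    exact chain_tail_nonneg hp i
  · simp

theorem LB.bound {k : ℕ} {p : ℕ → ℝ} {h : ℝ} {j : ℕ} {T E : ℝ} (H : LB k p h j T E)
    (hj : j ≤ k) : T * h ≤ ∑ l ∈ Ico j k, p l := by
  obtain ⟨t, h1, h2, _⟩ := H
  rw [← h2]
  exact h1 j le_rfl hj

theorem LB.mono {k : ℕ} {p : ℕ → ℝ} {h : ℝ} {j : ℕ} {T E E' : ℝ} (H : LB k p h j T E)
    (hE : E ≤ E') : LB k p h j T E' := by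
  obtain ⟨t, h1, h2, h3⟩ := H
  exact ⟨t, h1, h2, h3.trans hE⟩

/-- prepend a value -/
theorem LB.cons {k : ℕ} {p : ℕ → ℝ} {h : ℝ} {m : ℕ} {T' E' T E : ℝ} (hmk : m < k)
    (H : LB k p h (m + 1) T' E') (hT : T * h ≤ ∑ l ∈ Ico m k, p l)
    (hE : (T - T') ^ 2 + E' ≤ E) : LB k p h m T E := by
  obtain ⟨t, h1, h2, h3⟩ := H
  refine ⟨Function.update t m T, fun i hi hik => ?_, Function.update_self _ _ _, ?_⟩
  · rcases Nat.eq_or_lt_of_le hi with h0 | h0
    · subst h0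
      rw [Function.update_self]
      exact hT
    · rw [Function.update_of_ne (by omega)]
      exact h1 i h0 hik
  · rw [sum_eq_sum_Ico_succ_bot hmk, Function.update_self, Function.update_of_ne (by omega), h2]
    have h4 : ∑ i ∈ Ico (m + 1) k, (Function.update t m T i - Function.update t m T (i + 1)) ^ 2
        = ∑ i ∈ Ico (m + 1) k, (t i - t (i + 1)) ^ 2 := by
      refine sum_congr rfl fun i hi => ?_
      have := (mem_Ico.1 hi).1
      rw [Function.update_of_ne (by omega), Function.update_of_ne (by omega)]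
    rw [h4]
    linarith

theorem LB.stepD {k : ℕ} {p : ℕ → ℝ} {h : ℝ} {m : ℕ} {T' E' d E : ℝ} (hmk : m < k)
    (H : LB k p h (m + 1) T' E') (hd : d * h ≤ p m) (hE : d ^ 2 + E' ≤ E) :
    LB k p h m (T' + d) E := by
  refine H.cons hmk ?_ ?_
  · rw [sum_eq_sum_Ico_succ_bot hmk]
    have := H.bound (by omega)
    linarith
  · calc (T' + d - T') ^ 2 + E' = d ^ 2 + E' := by ring
      _ ≤ E := hE

theorem LB.step {k : ℕ} {p : ℕ → ℝ} (hp : ∀ i < k, 0 < p i)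
    (ha : ∀ i j, i ≤ j → j < k → p j ≤ p i) {h : ℝ} (hh : 0 < h) {m : ℕ} {T' E' T E : ℝ}
    (hmk : m < k) (H : LB k p h (m + 1) T' E') (hPF : PF k p h m)
    (hnum : ∀ x : ℝ, 0 < x → T' ≤ x → x < T →
      ((x - T') ^ 2 + E') ^ 2 < 4 / 9 * x ^ 3 / ((m : ℝ) + 1) ^ 2)
    (hE : (T - T') ^ 2 + E' ≤ E) : LB k p h m T E := by
  refine H.cons hmk ?_ hE
  by_contra hc
  rw [not_le] at hc
  have hb := H.bound (by omega)
  obtain ⟨t, h1, h2, h3⟩ := H
  set s : ℝ := ∑ l ∈ Ico m k, p l with hs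
  have hs' : s = p m + ∑ l ∈ Ico (m + 1) k, p l := sum_eq_sum_Ico_succ_bot hmk _
  have hpm := hp m hmk
  have hs0 : 0 < s := by
    have := chain_tail_nonneg hp (m + 1)
    rw [hs']
    linarith
  set x : ℝ := s / h with hx
  have hsx : s = x * h := by rw [hx]; field_simp
  have hx0 : 0 < x := div_pos hs0 hh
  have hx1 : T' ≤ x := by
    rw [hx, le_div_iff₀ hh, hs']
    linarith
  have hx2 : x < T := by
    rw [hx, div_lt_iff₀ hh]
    exact hc
  have hq := sq_tail_le' hmk hp ha (t := fun j => t j * h)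
    (fun j hj hjk => h1 j hj hjk)
  have h4 : ∑ i ∈ Ico (m + 1) k, (t i * h - t (i + 1) * h) ^ 2
      = (∑ i ∈ Ico (m + 1) k, (t i - t (i + 1)) ^ 2) * h ^ 2 := by
    rw [sum_mul]
    refine sum_congr rfl fun i _ => ?_
    ring
  simp only [h4] at hq
  rw [← hs, h2] at hq
  have hQ0 : 0 ≤ ∑ i ∈ Ico m k, p i ^ 2 := sum_nonneg fun _ _ => sq_nonneg _
  have hE0 : 0 ≤ E' := le_trans (sum_nonneg fun _ _ => sq_nonneg _) h3
  have hq2 : ∑ i ∈ Ico m k, p i ^ 2 ≤ ((x - T') ^ 2 + E') * h ^ 2 := by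
    have h5 : (∑ i ∈ Ico (m + 1) k, (t i - t (i + 1)) ^ 2) * h ^ 2 ≤ E' * h ^ 2 :=
      mul_le_mul_of_nonneg_right h3 (sq_nonneg h)
    have h6 : (s - T' * h) ^ 2 = (x - T') ^ 2 * h ^ 2 := by rw [hsx]; ring
    rw [h6] at hq
    linarith
  have hq3 : (∑ i ∈ Ico m k, p i ^ 2) ^ 2 ≤ (((x - T') ^ 2 + E') * h ^ 2) ^ 2 :=
    pow_le_pow_left₀ hQ0 hq2 2
  have h7 := hnum x hx0 hx1 hx2
  unfold PF at hPF
  rw [← hs, hsx] at hPF
  have h8 : 4 / 9 * h * (x * h) ^ 3 / ((m : ℝ) + 1) ^ 2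
      = (4 / 9 * x ^ 3 / ((m : ℝ) + 1) ^ 2) * h ^ 4 := by ring
  have h9 : (((x - T') ^ 2 + E') * h ^ 2) ^ 2 = ((x - T') ^ 2 + E') ^ 2 * h ^ 4 := by ring
  rw [h8] at hPF
  rw [h9] at hq3
  have h10 := mul_lt_mul_of_pos_right h7 (pow_pos hh 4)
  linarith

theorem lbA_7 {p : ℕ → ℝ} (hp : ∀ i < 8, 0 < p i)
    (ha : ∀ i j, i ≤ j → j < 8 → p j ≤ p i) {h : ℝ} (hh : 0 < h)
    (h7 : PF 8 p h 7) :
    LB 8 p h 7 (1 / 144) (241127 / 5000000000) := by
  refine (LB.nil hp h 8).step hp ha hh (by omega) h7 ?_ (by norm_num)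
  intro x hx _ h2
  have h3 : 0 < x ^ 3 := by positivity
  have h4 : x ^ 3 * x < x ^ 3 * (1 / 144) := mul_lt_mul_of_pos_left h2 h3
  push_cast
  nlinarith

theorem lbA_6 {p : ℕ → ℝ} (hp : ∀ i < 8, 0 < p i)
    (ha : ∀ i j, i ≤ j → j < 8 → p j ≤ p i) {h : ℝ} (hh : 0 < h)
    (h7 : PF 8 p h 7) (h6 : PF 8 p h 6) :
    LB 8 p h 6 (251 / 10000) (59039 / 156250000) := by
  have H := lbA_7 hp ha hh h7
  exact H.step hp ha hh (by omega) h6
    (by
      intro x _ h1 h2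
      have hu : 0 ≤ x - 1 / 144 := by linarith
      have hv : 0 < 251 / 10000 - x := by linarith
      have q0 := pow_pos hv 4
      have q1 := mul_nonneg hu (pow_pos hv 3).le
      have q2 := mul_nonneg (pow_nonneg hu 2) (pow_pos hv 2).le
      have q3 := mul_nonneg (pow_nonneg hu 3) hv.le
      have q4 := pow_nonneg hu 4
      push_cast
      nlinarith [q0, q1, q2, q3, q4])
    (by norm_num)

theorem lbA_5 {p : ℕ → ℝ} (hp : ∀ i < 8, 0 < p i)
    (ha : ∀ i j, i ≤ j → j < 8 → p j ≤ p i) {h : ℝ} (hh : 0 < h)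
    (h7 : PF 8 p h 7) (h6 : PF 8 p h 6) (h5 : PF 8 p h 5) :
    LB 8 p h 5 (153 / 2500) (4202649 / 2500000000) := by
  have H := lbA_6 hp ha hh h7 h6
  exact H.step hp ha hh (by omega) h5
    (by
      intro x _ h1 h2
      have hu : 0 ≤ x - 251 / 10000 := by linarith
      have hv : 0 < 153 / 2500 - x := by linarith
      have q0 := pow_pos hv 4
      have q1 := mul_nonneg hu (pow_pos hv 3).le
      have q2 := mul_nonneg (pow_nonneg hu 2) (pow_pos hv 2).le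
      have q3 := mul_nonneg (pow_nonneg hu 3) hv.le
      have q4 := pow_nonneg hu 4
      push_cast
      nlinarith [q0, q1, q2, q3, q4])
    (by norm_num)

theorem lbA_4 {p : ℕ → ℝ} (hp : ∀ i < 8, 0 < p i)
    (ha : ∀ i j, i ≤ j → j < 8 → p j ≤ p i) {h : ℝ} (hh : 0 < h)
    (h7 : PF 8 p h 7) (h6 : PF 8 p h 6) (h5 : PF 8 p h 5) (h4 : PF 8 p h 4) :
    LB 8 p h 4 (127 / 1000) (15026749 / 2500000000) := by
  have H := lbA_5 hp ha hh h7 h6 h5
  exact H.step hp ha hh (by omega) h4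
    (by
      intro x _ h1 h2
      have hu : 0 ≤ x - 153 / 2500 := by linarith
      have hv : 0 < 127 / 1000 - x := by linarith
      have q0 := pow_pos hv 4
      have q1 := mul_nonneg hu (pow_pos hv 3).le
      have q2 := mul_nonneg (pow_nonneg hu 2) (pow_pos hv 2).le
      have q3 := mul_nonneg (pow_nonneg hu 3) hv.le
      have q4 := pow_nonneg hu 4
      push_cast
      nlinarith [q0, q1, q2, q3, q4])
    (by norm_num)

theorem lbA_3 {p : ℕ → ℝ} (hp : ∀ i < 8, 0 < p i)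
    (ha : ∀ i j, i ≤ j → j < 8 → p j ≤ p i) {h : ℝ} (hh : 0 < h)
    (h7 : PF 8 p h 7) (h6 : PF 8 p h 6) (h5 : PF 8 p h 5) (h4 : PF 8 p h 4) (h3 : PF 8 p h 3) :
    LB 8 p h 3 (247 / 1000) (51026749 / 2500000000) := by
  have H := lbA_4 hp ha hh h7 h6 h5 h4
  exact H.step hp ha hh (by omega) h3
    (by
      intro x _ h1 h2
      have hu : 0 ≤ x - 127 / 1000 := by linarith
      have hv : 0 < 247 / 1000 - x := by linarith
      have q0 := pow_pos hv 4
      have q1 := mul_nonneg hu (pow_pos hv 3).le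
      have q2 := mul_nonneg (pow_nonneg hu 2) (pow_pos hv 2).le
      have q3 := mul_nonneg (pow_nonneg hu 3) hv.le
      have q4 := pow_nonneg hu 4
      push_cast
      nlinarith [q0, q1, q2, q3, q4])
    (by norm_num)

theorem lbB_8 {k : ℕ} (hk : 9 ≤ k) {p : ℕ → ℝ} (hp : ∀ i < k, 0 < p i)
    (ha : ∀ i j, i ≤ j → j < k → p j ≤ p i) {h : ℝ} (hh : 0 < h)
    (h8 : PF k p h 8) :
    LB k p h 8 (4 / 729) (301069 / 10000000000) := by
  refine (LB.nil hp h 9).step hp ha hh (by omega) h8 ?_ (by norm_num)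
  intro x hx _ h2
  have h3 : 0 < x ^ 3 := by positivity
  have h4 : x ^ 3 * x < x ^ 3 * (4 / 729) := mul_lt_mul_of_pos_left h2 h3
  push_cast
  nlinarith

theorem lbB_7 {k : ℕ} (hk : 9 ≤ k) {p : ℕ → ℝ} (hp : ∀ i < k, 0 < p i)
    (ha : ∀ i j, i ≤ j → j < k → p j ≤ p i) {h : ℝ} (hh : 0 < h)
    (h8 : PF k p h 8) (h7 : PF k p h 7) :
    LB k p h 7 (39 / 2000) (28309 / 125000000) := by
  have H := lbB_8 hk hp ha hh h8
  exact H.step hp ha hh (by omega) h7
    (by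
      intro x _ h1 h2
      have hu : 0 ≤ x - 4 / 729 := by linarith
      have hv : 0 < 39 / 2000 - x := by linarith
      have q0 := pow_pos hv 4
      have q1 := mul_nonneg hu (pow_pos hv 3).le
      have q2 := mul_nonneg (pow_nonneg hu 2) (pow_pos hv 2).le
      have q3 := mul_nonneg (pow_nonneg hu 3) hv.le
      have q4 := pow_nonneg hu 4
      push_cast
      nlinarith [q0, q1, q2, q3, q4])
    (by norm_num)

theorem lbB_6 {k : ℕ} (hk : 9 ≤ k) {p : ℕ → ℝ} (hp : ∀ i < k, 0 < p i)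
    (ha : ∀ i j, i ≤ j → j < k → p j ≤ p i) {h : ℝ} (hh : 0 < h)
    (h8 : PF k p h 8) (h7 : PF k p h 7) (h6 : PF k p h 6) :
    LB k p h 6 (29 / 625) (475041 / 500000000) := by
  have H := lbB_7 hk hp ha hh h8 h7
  exact H.step hp ha hh (by omega) h6
    (by
      intro x _ h1 h2
      have hu : 0 ≤ x - 39 / 2000 := by linarith
      have hv : 0 < 29 / 625 - x := by linarith
      have q0 := pow_pos hv 4
      have q1 := mul_nonneg hu (pow_pos hv 3).le
      have q2 := mul_nonneg (pow_nonneg hu 2) (pow_pos hv 2).le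
      have q3 := mul_nonneg (pow_nonneg hu 3) hv.le
      have q4 := pow_nonneg hu 4
      push_cast
      nlinarith [q0, q1, q2, q3, q4])
    (by norm_num)

theorem lbB_5 {k : ℕ} (hk : 9 ≤ k) {p : ℕ → ℝ} (hp : ∀ i < k, 0 < p i)
    (ha : ∀ i j, i ≤ j → j < k → p j ≤ p i) {h : ℝ} (hh : 0 < h)
    (h8 : PF k p h 8) (h7 : PF k p h 7) (h6 : PF k p h 6) (h5 : PF k p h 5) :
    LB k p h 5 (117 / 1250) (1588961 / 500000000) := by
  have H := lbB_6 hk hp ha hh h8 h7 h6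
  exact H.step hp ha hh (by omega) h5
    (by
      intro x _ h1 h2
      have hu : 0 ≤ x - 29 / 625 := by linarith
      have hv : 0 < 117 / 1250 - x := by linarith
      have q0 := pow_pos hv 4
      have q1 := mul_nonneg hu (pow_pos hv 3).le
      have q2 := mul_nonneg (pow_nonneg hu 2) (pow_pos hv 2).le
      have q3 := mul_nonneg (pow_nonneg hu 3) hv.le
      have q4 := pow_nonneg hu 4
      push_cast
      nlinarith [q0, q1, q2, q3, q4])
    (by norm_num)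

theorem lbB_4 {k : ℕ} (hk : 9 ≤ k) {p : ℕ → ℝ} (hp : ∀ i < k, 0 < p i)
    (ha : ∀ i j, i ≤ j → j < k → p j ≤ p i) {h : ℝ} (hh : 0 < h)
    (h8 : PF k p h 8) (h7 : PF k p h 7) (h6 : PF k p h 6) (h5 : PF k p h 5) (h4 : PF k p h 4) :
    LB k p h 4 (1743 / 10000) (2422603 / 250000000) := by
  have H := lbB_5 hk hp ha hh h8 h7 h6 h5
  exact H.step hp ha hh (by omega) h4
    (by
      intro x _ h1 h2
      have hu : 0 ≤ x - 117 / 1250 := by linarith
      have hv : 0 < 1743 / 10000 - x := by linarith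
      have q0 := pow_pos hv 4
      have q1 := mul_nonneg hu (pow_pos hv 3).le
      have q2 := mul_nonneg (pow_nonneg hu 2) (pow_pos hv 2).le
      have q3 := mul_nonneg (pow_nonneg hu 3) hv.le
      have q4 := pow_nonneg hu 4
      push_cast
      nlinarith [q0, q1, q2, q3, q4])
    (by norm_num)

theorem lbB_3 {k : ℕ} (hk : 9 ≤ k) {p : ℕ → ℝ} (hp : ∀ i < k, 0 < p i)
    (ha : ∀ i j, i ≤ j → j < k → p j ≤ p i) {h : ℝ} (hh : 0 < h)
    (h8 : PF k p h 8) (h7 : PF k p h 7) (h6 : PF k p h 6) (h5 : PF k p h 5) (h4 : PF k p h 4) (h3 : PF k p h 3) :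
    LB k p h 3 (157 / 500) (14603251 / 500000000) := by
  have H := lbB_4 hk hp ha hh h8 h7 h6 h5 h4
  exact H.step hp ha hh (by omega) h3
    (by
      intro x _ h1 h2
      have hu : 0 ≤ x - 1743 / 10000 := by linarith
      have hv : 0 < 157 / 500 - x := by linarith
      have q0 := pow_pos hv 4
      have q1 := mul_nonneg hu (pow_pos hv 3).le
      have q2 := mul_nonneg (pow_nonneg hu 2) (pow_pos hv 2).le
      have q3 := mul_nonneg (pow_nonneg hu 3) hv.le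
      have q4 := pow_nonneg hu 4
      push_cast
      nlinarith [q0, q1, q2, q3, q4])
    (by norm_num)

theorem lbC_10 {k : ℕ} (hk : 11 ≤ k) {p : ℕ → ℝ} (hp : ∀ i < k, 0 < p i)
    (ha : ∀ i j, i ≤ j → j < k → p j ≤ p i) {h : ℝ} (hh : 0 < h)
    (h10 : PF k p h 10) :
    LB k p h 10 (4 / 1089) (134917 / 10000000000) := by
  refine (LB.nil hp h 11).step hp ha hh (by omega) h10 ?_ (by norm_num)
  intro x hx _ h2
  have h3 : 0 < x ^ 3 := by positivity
  have h4 : x ^ 3 * x < x ^ 3 * (4 / 1089) := mul_lt_mul_of_pos_left h2 h3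
  push_cast
  nlinarith

theorem lbC_9 {k : ℕ} (hk : 11 ≤ k) {p : ℕ → ℝ} (hp : ∀ i < k, 0 < p i)
    (ha : ∀ i j, i ≤ j → j < k → p j ≤ p i) {h : ℝ} (hh : 0 < h)
    (h10 : PF k p h 10) (h9 : PF k p h 9) :
    LB k p h 9 (127 / 10000) (118721 / 1250000000) := by
  have H := lbC_10 hk hp ha hh h10
  exact H.step hp ha hh (by omega) h9
    (by
      intro x _ h1 h2
      have hu : 0 ≤ x - 4 / 1089 := by linarith
      have hv : 0 < 127 / 10000 - x := by linarith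
      have q0 := pow_pos hv 4
      have q1 := mul_nonneg hu (pow_pos hv 3).le
      have q2 := mul_nonneg (pow_nonneg hu 2) (pow_pos hv 2).le
      have q3 := mul_nonneg (pow_nonneg hu 3) hv.le
      have q4 := pow_nonneg hu 4
      push_cast
      nlinarith [q0, q1, q2, q3, q4])
    (by norm_num)

theorem lbC_8 {k : ℕ} (hk : 11 ≤ k) {p : ℕ → ℝ} (hp : ∀ i < k, 0 < p i)
    (ha : ∀ i j, i ≤ j → j < k → p j ≤ p i) {h : ℝ} (hh : 0 < h)
    (h10 : PF k p h 10) (h9 : PF k p h 9) (h8 : PF k p h 8) :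
    LB k p h 8 (293 / 10000) (463171 / 1250000000) := by
  have H := lbC_9 hk hp ha hh h10 h9
  exact H.step hp ha hh (by omega) h8
    (by
      intro x _ h1 h2
      have hu : 0 ≤ x - 127 / 10000 := by linarith
      have hv : 0 < 293 / 10000 - x := by linarith
      have q0 := pow_pos hv 4
      have q1 := mul_nonneg hu (pow_pos hv 3).le
      have q2 := mul_nonneg (pow_nonneg hu 2) (pow_pos hv 2).le
      have q3 := mul_nonneg (pow_nonneg hu 3) hv.le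
      have q4 := pow_nonneg hu 4
      push_cast
      nlinarith [q0, q1, q2, q3, q4])
    (by norm_num)

theorem lbC_7 {k : ℕ} (hk : 11 ≤ k) {p : ℕ → ℝ} (hp : ∀ i < k, 0 < p i)
    (ha : ∀ i j, i ≤ j → j < k → p j ≤ p i) {h : ℝ} (hh : 0 < h)
    (h10 : PF k p h 10) (h9 : PF k p h 9) (h8 : PF k p h 8) (h7 : PF k p h 7) :
    LB k p h 7 (71 / 1250) (2816967 / 2500000000) := by
  have H := lbC_8 hk hp ha hh h10 h9 h8
  exact H.step hp ha hh (by omega) h7
    (by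
      intro x _ h1 h2
      have hu : 0 ≤ x - 293 / 10000 := by linarith
      have hv : 0 < 71 / 1250 - x := by linarith
      have q0 := pow_pos hv 4
      have q1 := mul_nonneg hu (pow_pos hv 3).le
      have q2 := mul_nonneg (pow_nonneg hu 2) (pow_pos hv 2).le
      have q3 := mul_nonneg (pow_nonneg hu 3) hv.le
      have q4 := pow_nonneg hu 4
      push_cast
      nlinarith [q0, q1, q2, q3, q4])
    (by norm_num)

theorem lbC_6 {k : ℕ} (hk : 11 ≤ k) {p : ℕ → ℝ} (hp : ∀ i < k, 0 < p i)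
    (ha : ∀ i j, i ≤ j → j < k → p j ≤ p i) {h : ℝ} (hh : 0 < h)
    (h10 : PF k p h 10) (h9 : PF k p h 9) (h8 : PF k p h 8) (h7 : PF k p h 7) (h6 : PF k p h 6) :
    LB k p h 6 (251 / 2500) (7569367 / 2500000000) := by
  have H := lbC_7 hk hp ha hh h10 h9 h8 h7
  exact H.step hp ha hh (by omega) h6
    (by
      intro x _ h1 h2
      have hu : 0 ≤ x - 71 / 1250 := by linarith
      have hv : 0 < 251 / 2500 - x := by linarith
      have q0 := pow_pos hv 4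
      have q1 := mul_nonneg hu (pow_pos hv 3).le
      have q2 := mul_nonneg (pow_nonneg hu 2) (pow_pos hv 2).le
      have q3 := mul_nonneg (pow_nonneg hu 3) hv.le
      have q4 := pow_nonneg hu 4
      push_cast
      nlinarith [q0, q1, q2, q3, q4])
    (by norm_num)

theorem lbC_5 {k : ℕ} (hk : 11 ≤ k) {p : ℕ → ℝ} (hp : ∀ i < k, 0 < p i)
    (ha : ∀ i j, i ≤ j → j < k → p j ≤ p i) {h : ℝ} (hh : 0 < h)
    (h10 : PF k p h 10) (h9 : PF k p h 9) (h8 : PF k p h 8) (h7 : PF k p h 7) (h6 : PF k p h 6) (h5 : PF k p h 5) :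
    LB k p h 5 (843 / 5000) (19197467 / 2500000000) := by
  have H := lbC_6 hk hp ha hh h10 h9 h8 h7 h6
  exact H.step hp ha hh (by omega) h5
    (by
      intro x _ h1 h2
      have hu : 0 ≤ x - 251 / 2500 := by linarith
      have hv : 0 < 843 / 5000 - x := by linarith
      have q0 := pow_pos hv 4
      have q1 := mul_nonneg hu (pow_pos hv 3).le
      have q2 := mul_nonneg (pow_nonneg hu 2) (pow_pos hv 2).le
      have q3 := mul_nonneg (pow_nonneg hu 3) hv.le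
      have q4 := pow_nonneg hu 4
      push_cast
      nlinarith [q0, q1, q2, q3, q4])
    (by norm_num)

theorem lbC_4 {k : ℕ} (hk : 11 ≤ k) {p : ℕ → ℝ} (hp : ∀ i < k, 0 < p i)
    (ha : ∀ i j, i ≤ j → j < k → p j ≤ p i) {h : ℝ} (hh : 0 < h)
    (h10 : PF k p h 10) (h9 : PF k p h 9) (h8 : PF k p h 8) (h7 : PF k p h 7) (h6 : PF k p h 6) (h5 : PF k p h 5) (h4 : PF k p h 4) :
    LB k p h 4 (2767 / 10000) (12102873 / 625000000) := by
  have H := lbC_5 hk hp ha hh h10 h9 h8 h7 h6 h5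
  exact H.step hp ha hh (by omega) h4
    (by
      intro x _ h1 h2
      have hu : 0 ≤ x - 843 / 5000 := by linarith
      have hv : 0 < 2767 / 10000 - x := by linarith
      have q0 := pow_pos hv 4
      have q1 := mul_nonneg hu (pow_pos hv 3).le
      have q2 := mul_nonneg (pow_nonneg hu 2) (pow_pos hv 2).le
      have q3 := mul_nonneg (pow_nonneg hu 3) hv.le
      have q4 := pow_nonneg hu 4
      push_cast
      nlinarith [q0, q1, q2, q3, q4])
    (by norm_num)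

theorem lbC_3 {k : ℕ} (hk : 11 ≤ k) {p : ℕ → ℝ} (hp : ∀ i < k, 0 < p i)
    (ha : ∀ i j, i ≤ j → j < k → p j ≤ p i) {h : ℝ} (hh : 0 < h)
    (h10 : PF k p h 10) (h9 : PF k p h 9) (h8 : PF k p h 8) (h7 : PF k p h 7) (h6 : PF k p h 6) (h5 : PF k p h 5) (h4 : PF k p h 4) (h3 : PF k p h 3) :
    LB k p h 3 (227 / 500) (126999717 / 2500000000) := by
  have H := lbC_4 hk hp ha hh h10 h9 h8 h7 h6 h5 h4
  exact H.step hp ha hh (by omega) h3
    (by
      intro x _ h1 h2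
      have hu : 0 ≤ x - 2767 / 10000 := by linarith
      have hv : 0 < 227 / 500 - x := by linarith
      have q0 := pow_pos hv 4
      have q1 := mul_nonneg hu (pow_pos hv 3).le
      have q2 := mul_nonneg (pow_nonneg hu 2) (pow_pos hv 2).le
      have q3 := mul_nonneg (pow_nonneg hu 3) hv.le
      have q4 := pow_nonneg hu 4
      push_cast
      nlinarith [q0, q1, q2, q3, q4])
    (by norm_num)

theorem chain6_3' {p : ℕ → ℝ} (hp : ∀ i < 6, 0 < p i) (ha : ∀ i j, i ≤ j → j < 6 → p j ≤ p i)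
    {h : ℝ} (hh : 0 ≤ h) (hD : ∀ i < 6, 3 ≤ i → 369 / 10000 * h ≤ p i) (h3 : PF 6 p h 3) :
    166 / 1000 * h ≤ ∑ i ∈ Ico 3 6, p i := by
  rcases hh.eq_or_lt with h0 | h0
  · rw [← h0, mul_zero]
    exact chain_tail_nonneg hp 3
  have L5 : LB 6 p h 5 (0 + 369 / 10000) ((369 / 10000) ^ 2) :=
    (LB.nil hp h 6).stepD (by omega) (hD 5 (by omega) (by omega)) (by norm_num)
  have L4 : LB 6 p h 4 (0 + 369 / 10000 + 369 / 10000) (136161 / 50000000) :=
    L5.stepD (by omega) (hD 4 (by omega) (by omega)) (by norm_num)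
  rw [show (0 + 369 / 10000 + 369 / 10000 : ℝ) = 369 / 5000 by norm_num] at L4
  have L3 : LB 6 p h 3 (83 / 500) 1 := L4.step hp ha h0 (by omega) h3
    (by
      intro x _ h1 h2
      have hu : 0 ≤ x - 369 / 5000 := by linarith
      have hv : 0 < 83 / 500 - x := by linarith
      have q0 := pow_pos hv 4
      have q1 := mul_nonneg hu (pow_pos hv 3).le
      have q2 := mul_nonneg (pow_nonneg hu 2) (pow_pos hv 2).le
      have q3 := mul_nonneg (pow_nonneg hu 3) hv.le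
      have q4 := pow_nonneg hu 4
      push_cast
      nlinarith [q0, q1, q2, q3, q4])
    (by norm_num)
  have := L3.bound (by omega)
  linarith

theorem chain7_5' {p : ℕ → ℝ} {h : ℝ} (hh : 0 ≤ h)
    (hD : ∀ i < 7, 5 ≤ i → 271 / 10000 * h ≤ p i) :
    54 / 1000 * h ≤ ∑ i ∈ Ico 5 7, p i := by
  have h5 := hD 5 (by omega) (by omega)
  have h6 := hD 6 (by omega) (by omega)
  rw [sum_eq_sum_Ico_succ_bot (by omega), sum_eq_sum_Ico_succ_bot (by omega), Ico_self, sum_empty]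
  linarith

theorem lb7_4 {p : ℕ → ℝ} (hp : ∀ i < 7, 0 < p i) (ha : ∀ i j, i ≤ j → j < 7 → p j ≤ p i)
    {h : ℝ} (h0 : 0 < h) (hD : ∀ i < 7, 4 ≤ i → 271 / 10000 * h ≤ p i) (h4 : PF 7 p h 4) :
    LB 7 p h 4 (231 / 2000) (522651 / 100000000) := by
  have L6 : LB 7 p h 6 (0 + 271 / 10000) ((271 / 10000) ^ 2) :=
    (LB.nil hp h 7).stepD (by omega) (hD 6 (by omega) (by omega)) (by norm_num)
  have L5 : LB 7 p h 5 (0 + 271 / 10000 + 271 / 10000) (73441 / 50000000) :=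
    L6.stepD (by omega) (hD 5 (by omega) (by omega)) (by norm_num)
  rw [show (0 + 271 / 10000 + 271 / 10000 : ℝ) = 271 / 5000 by norm_num] at L5
  exact L5.step hp ha h0 (by omega) h4
    (by
      intro x _ h1 h2
      have hu : 0 ≤ x - 271 / 5000 := by linarith
      have hv : 0 < 231 / 2000 - x := by linarith
      have q0 := pow_pos hv 4
      have q1 := mul_nonneg hu (pow_pos hv 3).le
      have q2 := mul_nonneg (pow_nonneg hu 2) (pow_pos hv 2).le
      have q3 := mul_nonneg (pow_nonneg hu 3) hv.le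
      have q4 := pow_nonneg hu 4
      push_cast
      nlinarith [q0, q1, q2, q3, q4])
    (by norm_num)

theorem chain7_4' {p : ℕ → ℝ} (hp : ∀ i < 7, 0 < p i) (ha : ∀ i j, i ≤ j → j < 7 → p j ≤ p i)
    {h : ℝ} (hh : 0 ≤ h) (hD : ∀ i < 7, 4 ≤ i → 271 / 10000 * h ≤ p i) (h4 : PF 7 p h 4) :
    1155 / 10000 * h ≤ ∑ i ∈ Ico 4 7, p i := by
  rcases hh.eq_or_lt with h0 | h0
  · rw [← h0, mul_zero]
    exact chain_tail_nonneg hp 4
  have := (lb7_4 hp ha h0 hD h4).bound (by omega)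
  linarith

theorem chain7_3' {p : ℕ → ℝ} (hp : ∀ i < 7, 0 < p i) (ha : ∀ i j, i ≤ j → j < 7 → p j ≤ p i)
    {h : ℝ} (hh : 0 ≤ h) (hD : ∀ i < 7, 3 ≤ i → 271 / 10000 * h ≤ p i)
    (hP : ∀ m, 3 ≤ m → m ≤ 4 → PF 7 p h m) :
    23 / 100 * h ≤ ∑ i ∈ Ico 3 7, p i := by
  rcases hh.eq_or_lt with h0 | h0
  · rw [← h0, mul_zero]
    exact chain_tail_nonneg hp 3
  have L4 := lb7_4 hp ha h0 (fun i hi h => hD i hi (by omega)) (hP 4 (by omega) (by omega))
  have L3 : LB 7 p h 3 (23 / 100) 1 := L4.step hp ha h0 (by omega) (hP 3 (by omega) (by omega))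
    (by
      intro x _ h1 h2
      have hu : 0 ≤ x - 231 / 2000 := by linarith
      have hv : 0 < 23 / 100 - x := by linarith
      have q0 := pow_pos hv 4
      have q1 := mul_nonneg hu (pow_pos hv 3).le
      have q2 := mul_nonneg (pow_nonneg hu 2) (pow_pos hv 2).le
      have q3 := mul_nonneg (pow_nonneg hu 3) hv.le
      have q4 := pow_nonneg hu 4
      push_cast
      nlinarith [q0, q1, q2, q3, q4])
    (by norm_num)
  have := L3.bound (by omega)
  linarith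

theorem chain8_5' {p : ℕ → ℝ} (hp : ∀ i < 8, 0 < p i)
    (ha : ∀ i j, i ≤ j → j < 8 → p j ≤ p i)
    {h : ℝ} (hh : 0 ≤ h) (hP : ∀ m, 5 ≤ m → m ≤ 7 → PF 8 p h m) :
    54 / 1000 * h ≤ ∑ i ∈ Ico 5 8, p i := by
  rcases hh.eq_or_lt with h0 | h0
  · rw [← h0, mul_zero]
    exact chain_tail_nonneg hp 5
  have := (lbA_5 hp ha h0 (hP 7 (by omega) (by omega)) (hP 6 (by omega) (by omega)) (hP 5 (by omega) (by omega))).bound (by omega)
  linarith

theorem chain8_4' {p : ℕ → ℝ} (hp : ∀ i < 8, 0 < p i)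
    (ha : ∀ i j, i ≤ j → j < 8 → p j ≤ p i)
    {h : ℝ} (hh : 0 ≤ h) (hP : ∀ m, 4 ≤ m → m ≤ 7 → PF 8 p h m) :
    1155 / 10000 * h ≤ ∑ i ∈ Ico 4 8, p i := by
  rcases hh.eq_or_lt with h0 | h0
  · rw [← h0, mul_zero]
    exact chain_tail_nonneg hp 4
  have := (lbA_4 hp ha h0 (hP 7 (by omega) (by omega)) (hP 6 (by omega) (by omega)) (hP 5 (by omega) (by omega)) (hP 4 (by omega) (by omega))).bound (by omega)
  linarith

theorem chain8_3' {p : ℕ → ℝ} (hp : ∀ i < 8, 0 < p i)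
    (ha : ∀ i j, i ≤ j → j < 8 → p j ≤ p i)
    {h : ℝ} (hh : 0 ≤ h) (hP : ∀ m, 3 ≤ m → m ≤ 7 → PF 8 p h m) :
    23 / 100 * h ≤ ∑ i ∈ Ico 3 8, p i := by
  rcases hh.eq_or_lt with h0 | h0
  · rw [← h0, mul_zero]
    exact chain_tail_nonneg hp 3
  have := (lbA_3 hp ha h0 (hP 7 (by omega) (by omega)) (hP 6 (by omega) (by omega)) (hP 5 (by omega) (by omega)) (hP 4 (by omega) (by omega)) (hP 3 (by omega) (by omega))).bound (by omega)
  linarith

theorem chain9_5' {k : ℕ} (hk : 9 ≤ k) {p : ℕ → ℝ} (hp : ∀ i < k, 0 < p i)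
    (ha : ∀ i j, i ≤ j → j < k → p j ≤ p i)
    {h : ℝ} (hh : 0 ≤ h) (hP : ∀ m, 5 ≤ m → m ≤ 8 → PF k p h m) :
    935 / 10000 * h ≤ ∑ i ∈ Ico 5 k, p i := by
  rcases hh.eq_or_lt with h0 | h0
  · rw [← h0, mul_zero]
    exact chain_tail_nonneg hp 5
  have := (lbB_5 hk hp ha h0 (hP 8 (by omega) (by omega)) (hP 7 (by omega) (by omega)) (hP 6 (by omega) (by omega)) (hP 5 (by omega) (by omega))).bound (by omega)
  linarith

theorem chain9_4' {k : ℕ} (hk : 9 ≤ k) {p : ℕ → ℝ} (hp : ∀ i < k, 0 < p i)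
    (ha : ∀ i j, i ≤ j → j < k → p j ≤ p i)
    {h : ℝ} (hh : 0 ≤ h) (hP : ∀ m, 4 ≤ m → m ≤ 8 → PF k p h m) :
    174 / 1000 * h ≤ ∑ i ∈ Ico 4 k, p i := by
  rcases hh.eq_or_lt with h0 | h0
  · rw [← h0, mul_zero]
    exact chain_tail_nonneg hp 4
  have := (lbB_4 hk hp ha h0 (hP 8 (by omega) (by omega)) (hP 7 (by omega) (by omega)) (hP 6 (by omega) (by omega)) (hP 5 (by omega) (by omega)) (hP 4 (by omega) (by omega))).bound (by omega)
  linarith

theorem chain9_3' {k : ℕ} (hk : 9 ≤ k) {p : ℕ → ℝ} (hp : ∀ i < k, 0 < p i)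
    (ha : ∀ i j, i ≤ j → j < k → p j ≤ p i)
    {h : ℝ} (hh : 0 ≤ h) (hP : ∀ m, 3 ≤ m → m ≤ 8 → PF k p h m) :
    31 / 100 * h ≤ ∑ i ∈ Ico 3 k, p i := by
  rcases hh.eq_or_lt with h0 | h0
  · rw [← h0, mul_zero]
    exact chain_tail_nonneg hp 3
  have := (lbB_3 hk hp ha h0 (hP 8 (by omega) (by omega)) (hP 7 (by omega) (by omega)) (hP 6 (by omega) (by omega)) (hP 5 (by omega) (by omega)) (hP 4 (by omega) (by omega)) (hP 3 (by omega) (by omega))).bound (by omega)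
  linarith

theorem chain11_6' {k : ℕ} (hk : 11 ≤ k) {p : ℕ → ℝ} (hp : ∀ i < k, 0 < p i)
    (ha : ∀ i j, i ≤ j → j < k → p j ≤ p i)
    {h : ℝ} (hh : 0 ≤ h) (hP : ∀ m, 6 ≤ m → m ≤ 10 → PF k p h m) :
    1 / 10 * h ≤ ∑ i ∈ Ico 6 k, p i := by
  rcases hh.eq_or_lt with h0 | h0
  · rw [← h0, mul_zero]
    exact chain_tail_nonneg hp 6
  have := (lbC_6 hk hp ha h0 (hP 10 (by omega) (by omega)) (hP 9 (by omega) (by omega)) (hP 8 (by omega) (by omega)) (hP 7 (by omega) (by omega)) (hP 6 (by omega) (by omega))).bound (by omega)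
  linarith

theorem chain11_5' {k : ℕ} (hk : 11 ≤ k) {p : ℕ → ℝ} (hp : ∀ i < k, 0 < p i)
    (ha : ∀ i j, i ≤ j → j < k → p j ≤ p i)
    {h : ℝ} (hh : 0 ≤ h) (hP : ∀ m, 5 ≤ m → m ≤ 10 → PF k p h m) :
    168 / 1000 * h ≤ ∑ i ∈ Ico 5 k, p i := by
  rcases hh.eq_or_lt with h0 | h0
  · rw [← h0, mul_zero]
    exact chain_tail_nonneg hp 5
  have := (lbC_5 hk hp ha h0 (hP 10 (by omega) (by omega)) (hP 9 (by omega) (by omega)) (hP 8 (by omega) (by omega)) (hP 7 (by omega) (by omega)) (hP 6 (by omega) (by omega)) (hP 5 (by omega) (by omega))).bound (by omega)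
  linarith

theorem chain11_4' {k : ℕ} (hk : 11 ≤ k) {p : ℕ → ℝ} (hp : ∀ i < k, 0 < p i)
    (ha : ∀ i j, i ≤ j → j < k → p j ≤ p i)
    {h : ℝ} (hh : 0 ≤ h) (hP : ∀ m, 4 ≤ m → m ≤ 10 → PF k p h m) :
    275 / 1000 * h ≤ ∑ i ∈ Ico 4 k, p i := by
  rcases hh.eq_or_lt with h0 | h0
  · rw [← h0, mul_zero]
    exact chain_tail_nonneg hp 4
  have := (lbC_4 hk hp ha h0 (hP 10 (by omega) (by omega)) (hP 9 (by omega) (by omega)) (hP 8 (by omega) (by omega)) (hP 7 (by omega) (by omega)) (hP 6 (by omega) (by omega)) (hP 5 (by omega) (by omega)) (hP 4 (by omega) (by omega))).bound (by omega)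
  linarith

theorem chain11_3' {k : ℕ} (hk : 11 ≤ k) {p : ℕ → ℝ} (hp : ∀ i < k, 0 < p i)
    (ha : ∀ i j, i ≤ j → j < k → p j ≤ p i)
    {h : ℝ} (hh : 0 ≤ h) (hP : ∀ m, 3 ≤ m → m ≤ 10 → PF k p h m) :
    45 / 100 * h ≤ ∑ i ∈ Ico 3 k, p i := by
  rcases hh.eq_or_lt with h0 | h0
  · rw [← h0, mul_zero]
    exact chain_tail_nonneg hp 3
  have := (lbC_3 hk hp ha h0 (hP 10 (by omega) (by omega)) (hP 9 (by omega) (by omega)) (hP 8 (by omega) (by omega)) (hP 7 (by omega) (by omega)) (hP 6 (by omega) (by omega)) (hP 5 (by omega) (by omega)) (hP 4 (by omega) (by omega)) (hP 3 (by omega) (by omega))).bound (by omega)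
  linarith

end Vale.Agent.P226
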