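import Mathlib

/-!
[J4] four cells, all of measure `≥ .085` (see `Jensen.lean`).

With `f p = 16 p²(1-p)²`: `y ≤ f p` for `p ≤ 1/2` (take `c = 1 - 2p`), `y ≤ 1` otherwise. Tangents of `f`
at `1/4` (if all `p i ≥ .14`), at `.3` (if some `p i ∈ [.085, .115]`, where `y i ≤ 4 π p²`), and at `.29`
(if some `p i ∈ [.115, .14]`, where `y i ≤ f (p i)`).
-/

open Finset

namespace Vale.Agent.P226

theorem j4_f {y p : ℝ} (hp0 : 0 < p) (hy0 : 0 ≤ y) (hy1 : y ≤ 1)
    (hc : ∀ c, 0 < c → c < 1 → Real.sqrt y ≤ 4 * c * p + (1 - c) ^ 2) (hp : p ≤ 1 / 2) :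
    y ≤ 16 * p ^ 2 * (1 - p) ^ 2 := by
  rcases hp.lt_or_eq with h | h
  · have h1 := hc (1 - 2 * p) (by linarith) (by linarith)
    have h2 : Real.sqrt y ≤ 4 * p * (1 - p) := by nlinarith
    have h3 : y = Real.sqrt y ^ 2 := (Real.sq_sqrt hy0).symm
    have h4 : Real.sqrt y ^ 2 ≤ (4 * p * (1 - p)) ^ 2 :=
      pow_le_pow_left₀ (Real.sqrt_nonneg y) h2 2
    rw [h3]
    nlinarith
  · subst h
    norm_num
    exact hy1

theorem j4_tan (s β γ : ℝ) {y p : ℝ} (hp0 : 0 < p) (hp1 : 0 ≤ -16 * p ^ 2 + β * p + γ)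
    (hy0 : 0 ≤ y) (hy1 : y ≤ 1)
    (hc : ∀ c, 0 < c → c < 1 → Real.sqrt y ≤ 4 * c * p + (1 - c) ^ 2)
    (L0 L1 : ℝ) (hid : ∀ x : ℝ, L0 + L1 * x - 16 * x ^ 2 * (1 - x) ^ 2 =
      (x - s) ^ 2 * (-16 * x ^ 2 + β * x + γ)) (hL1 : 0 ≤ L1) (hL : 1 ≤ L0 + L1 * (1 / 2)) :
    y ≤ L0 + L1 * p := by
  rcases le_or_gt p (1 / 2) with h | h
  · have h1 := j4_f hp0 hy0 hy1 hc h
    have h2 := hid p
    have h3 := mul_nonneg (sq_nonneg (p - s)) hp1
    linarith
  · nlinarith

theorem jensen4' {y p : Fin 4 → ℝ} (hp : ∀ i, 85 / 1000 ≤ p i) (hsum : ∑ i, p i = 1)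
    (hy0 : ∀ i, 0 ≤ y i) (hy1 : ∀ i, y i ≤ 1)
    (hc : ∀ i c, 0 < c → c < 1 → Real.sqrt (y i) ≤ 4 * c * p i + (1 - c) ^ 2)
    (hk : ∀ i, y i ≤ 4 * Real.pi * p i ^ 2) : ∑ i, y i ≤ 9 / 4 := by
  have hp0 : ∀ i, 0 < p i := fun i => by linarith [hp i]
  have hpm : ∀ i, p i ≤ 745 / 1000 := by
    intro i
    have h0 := hp 0
    have h1 := hp 1
    have h2 := hp 2
    have h3 := hp 3
    rw [Fin.sum_univ_four] at hsum
    fin_cases i <;> simp only [Fin.zero_eta, Fin.mk_one, Fin.reduceFinMk] <;> linarith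
  by_cases hall : ∀ i, 14 / 100 ≤ p i
  · have h1 : ∀ i ∈ (univ : Finset (Fin 4)), y i ≤ -(3 / 16) + 3 * p i := by
      intro i _
      refine j4_tan (1 / 4) 24 (-3) (hp0 i) ?_ (hy0 i) (hy1 i) (hc i) _ _ (fun x => by ring)
        (by norm_num) (by norm_num)
      nlinarith [hall i, hpm i]
    refine (Finset.sum_le_sum h1).trans ?_
    rw [Finset.sum_add_distrib, ← Finset.mul_sum, hsum]
    norm_num
  · push Not at hall
    obtain ⟨i, hi⟩ := hall
    rcases le_or_gt (p i) (115 / 1000) with hq | hq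
    · have h1 : ∀ j ∈ (univ : Finset (Fin 4)), 0 ≤ (-(1008 / 10000) + 2688 / 1000 * p j) - y j := by
        intro j _
        have h2 : y j ≤ -(1008 / 10000) + 2688 / 1000 * p j := by
          refine j4_tan (3 / 10) (224 / 10) (-(112 / 100)) (hp0 j) ?_ (hy0 j) (hy1 j) (hc j) _ _
            (fun x => by ring) (by norm_num) (by norm_num)
          nlinarith [hp j, hpm j]
        linarith
      have h3 := Finset.single_le_sum h1 (mem_univ i)
      rw [Finset.sum_sub_distrib, Finset.sum_add_distrib, ← Finset.mul_sum, hsum] at h3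
      have h4 := hk i
      have h5 : Real.pi < 3.1416 := Real.pi_lt_d4
      have h6 : 4 * Real.pi * p i ^ 2 ≤ 4 * 3.1416 * p i ^ 2 := by
        apply mul_le_mul_of_nonneg_right _ (sq_nonneg _)
        linarith
      simp only [Finset.sum_const, Finset.card_univ, Fintype.card_fin, nsmul_eq_mul] at h3
      have h7 := hp i
      norm_num at h3 h6
      nlinarith [mul_nonneg (sub_nonneg.2 h7) (sub_nonneg.2 hq)]
    · have h1 : ∀ j ∈ (univ : Finset (Fin 4)),
          0 ≤ (-(12419888 / 100000000) + 2767296 / 1000000 * p j) - y j := by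
        intro j _
        have h2 : y j ≤ -(12419888 / 100000000) + 2767296 / 1000000 * p j := by
          refine j4_tan (29 / 100) (2272 / 100) (-(14768 / 10000)) (hp0 j) ?_ (hy0 j) (hy1 j)
            (hc j) _ _ (fun x => by ring) (by norm_num) (by norm_num)
          nlinarith [hp j, hpm j]
        linarith
      have h3 := Finset.single_le_sum h1 (mem_univ i)
      rw [Finset.sum_sub_distrib, Finset.sum_add_distrib, ← Finset.mul_sum, hsum] at h3
      simp only [Finset.sum_const, Finset.card_univ, Fintype.card_fin, nsmul_eq_mul] at h3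
      have h4 := j4_f (hp0 i) (hy0 i) (hy1 i) (hc i) (by linarith)
      have hu : 0 ≤ p i - 115 / 1000 := by linarith
      have hv : 0 ≤ 14 / 100 - p i := by linarith
      have q0 := pow_nonneg hv 4
      have q1 := mul_nonneg hu (pow_nonneg hv 3)
      have q2 := mul_nonneg (pow_nonneg hu 2) (pow_nonneg hv 2)
      have q3 := mul_nonneg (pow_nonneg hu 3) hv
      have q4 := pow_nonneg hu 4
      norm_num at h3
      nlinarith [q0, q1, q2, q3, q4, mul_nonneg hu hv]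

end Vale.Agent.P226
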