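import Mathlib
import Vale.Agent.P226.Full.Table

/-! Final numeric contradictions. Generated. -/

set_option linter.unusedVariables false

namespace Vale.Agent.P226

theorem f3_mono {a b z z' : ℝ} (ha : 0 ≤ a) (hz : z' ≤ z) (hzb : z ≤ b) :
    f3 a b z' ≤ f3 a b z := by
  unfold f3
  nlinarith [mul_nonneg (sub_nonneg.2 hz) (show (0:ℝ) ≤ 2 * a + 2 * b - z - z' by linarith)]

theorem vert3 {a b c S Y S0 m : ℝ} (hcb : c ≤ b) (hba : b ≤ a) (hY : Y ≤ a + b + 1 * c)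
    (hS : S ≤ S0) (hq : m ≤ f3 a b ((Y - a - b) / 1 - S0)) (hS0 : 0 ≤ S)
    (ha : 0 ≤ a) : m ≤ f3 a b (c - S) := by
  refine hq.trans (f3_mono ha ?_ ?_)
  · have : (Y - a - b) / 1 ≤ c := by
      rw [div_le_iff₀ (by norm_num)]; linarith
    linarith
  · linarith

theorem vert4 {a b c S Y S0 m : ℝ} (hcb : c ≤ b) (hba : b ≤ a) (hY : Y ≤ a + b + 2 * c)
    (hS : S ≤ S0) (hq : m ≤ f3 a b ((Y - a - b) / 2 - S0)) (hS0 : 0 ≤ S)
    (ha : 0 ≤ a) : m ≤ f3 a b (c - S) := by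
  refine hq.trans (f3_mono ha ?_ ?_)
  · have : (Y - a - b) / 2 ≤ c := by
      rw [div_le_iff₀ (by norm_num)]; linarith
    linarith
  · linarith

theorem vert5 {a b c S Y S0 m : ℝ} (hcb : c ≤ b) (hba : b ≤ a) (hY : Y ≤ a + b + 3 * c)
    (hS : S ≤ S0) (hq : m ≤ f3 a b ((Y - a - b) / 3 - S0)) (hS0 : 0 ≤ S)
    (ha : 0 ≤ a) : m ≤ f3 a b (c - S) := by
  refine hq.trans (f3_mono ha ?_ ?_)
  · have : (Y - a - b) / 3 ≤ c := by
      rw [div_le_iff₀ (by norm_num)]; linarith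
    linarith
  · linarith

theorem vert6 {a b c S Y S0 m : ℝ} (hcb : c ≤ b) (hba : b ≤ a) (hY : Y ≤ a + b + 4 * c)
    (hS : S ≤ S0) (hq : m ≤ f3 a b ((Y - a - b) / 4 - S0)) (hS0 : 0 ≤ S)
    (ha : 0 ≤ a) : m ≤ f3 a b (c - S) := by
  refine hq.trans (f3_mono ha ?_ ?_)
  · have : (Y - a - b) / 4 ≤ c := by
      rw [div_le_iff₀ (by norm_num)]; linarith
    linarith
  · linarith

theorem fin7_3 {ra pa yb yc S P : ℝ} (hr0 : 0 ≤ ra) (hr1 : ra ≤ 1)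
    (hk : 282 / 1000 * ra ≤ pa) (hc : Cap7 ra pa) (hcb : yc ≤ yb) (hba : yb ≤ ra ^ 2) (hc0 : 0 ≤ yc)
    (hY : 9 / 4 - S ≤ ra ^ 2 + yb + 1 * yc) (hS0 : 0 ≤ S) (hP0 : 0 ≤ P)
    (hSP : S ≤ 125664 / 10000 * (101 / 2000) * P)
    (hline : 4169 / 10000 * ra ^ 2 + (-49 / 5000) ≤ pa)
    (hbud : pa - 4169 / 10000 * ra ^ 2 - (-49 / 5000) + P - 4169 / 10000 * S ≤ 1 - 9 / 4 * (4169 / 10000) - 3 * (-49 / 5000))
    (hT : ∀ h, 0 ≤ h → h ^ 2 ≤ f3 (ra ^ 2) yb (yc - S) → 23 / 100 * h ≤ P) : False := by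
  have hPm : P ≤ 497 / 4000 := by linarith
  have hSm : S ≤ 1577 / 20000 := by linarith
  have hra : ra ^ 2 ≤ 1 := pow_le_one₀ hr0 hr1
  have H0 : (3 / 5 : ℝ) ^ 2 ≤ f3 (ra ^ 2) yb (yc - S) :=
    vert3 (Y := 43423 / 20000) (S0 := 1577 / 20000) hcb hba (by linarith) hSm (by
      have e1 := mul_nonneg (sub_nonneg.2 hra) (sub_nonneg.2 hba)
      have e2 := mul_nonneg (sub_nonneg.2 hra) (show (0:ℝ) ≤ ra ^ 2 + 2 * yb - 43423 / 20000 by linarith)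
      have e3 := mul_nonneg (sub_nonneg.2 hba) (show (0:ℝ) ≤ ra ^ 2 + 2 * yb - 43423 / 20000 by linarith)
      unfold f3
      linarith) hS0 (sq_nonneg ra)
  have P0 := hT (3 / 5) (by norm_num) H0
  linarith

theorem T7_7_4_x1 {r p : ℝ} (hr0 : 0 ≤ r) (hr1 : r ≤ 1) (hk : 282 / 1000 * r ≤ p)
    (hx : 23 / 25 ≤ r ^ 2) (hc : Cap7 r p) :
    689 / 2000 * r ^ 2 + 179 / 2500 ≤ p := by
  have h0 : (959 / 1000 : ℝ) ≤ r := by nlinarith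
  have hcc := hc (1 / 10) (by norm_num) (by norm_num)
  norm_num at hcc
  nlinarith [mul_nonneg (sub_nonneg.2 h0) (sub_nonneg.2 hr1)]

theorem T7_7_4_x2 {r p : ℝ} (hr0 : 0 ≤ r) (hr1 : r ≤ 1) (hk : 282 / 1000 * r ≤ p)
    (hx : 4 / 5 ≤ r ^ 2) (hc : Cap7 r p) :
    689 / 2000 * r ^ 2 + 487 / 10000 ≤ p := by
  have h0 : (447 / 500 : ℝ) ≤ r := by nlinarith
  have hcc := hc (9 / 50) (by norm_num) (by norm_num)
  norm_num at hcc
  nlinarith [mul_nonneg (sub_nonneg.2 h0) (sub_nonneg.2 hr1)]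

theorem fin7_4 {ra pa yb yc S P : ℝ} (hr0 : 0 ≤ ra) (hr1 : ra ≤ 1)
    (hk : 282 / 1000 * ra ≤ pa) (hc : Cap7 ra pa) (hcb : yc ≤ yb) (hba : yb ≤ ra ^ 2) (hc0 : 0 ≤ yc)
    (hY : 9 / 4 - S ≤ ra ^ 2 + yb + 2 * yc) (hS0 : 0 ≤ S) (hP0 : 0 ≤ P)
    (hSP : S ≤ 125664 / 10000 * (101 / 2000) * P)
    (hline : 689 / 2000 * ra ^ 2 + 39 / 1000 ≤ pa)
    (hbud : pa - 689 / 2000 * ra ^ 2 - 39 / 1000 + P - 689 / 2000 * S ≤ 1 - 9 / 4 * (689 / 2000) - 4 * (39 / 1000))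
    (hT : ∀ h, 0 ≤ h → h ^ 2 ≤ f3 (ra ^ 2) yb (yc - S) → 231 / 2000 * h ≤ P) : False := by
  have hPm : P ≤ 1763 / 20000 := by linarith
  have hSm : S ≤ 1119 / 20000 := by linarith
  have hra : ra ^ 2 ≤ 1 := pow_le_one₀ hr0 hr1
  have H0 : (403 / 1000 : ℝ) ^ 2 ≤ f3 (ra ^ 2) yb (yc - S) :=
    vert4 (Y := 43881 / 20000) (S0 := 1119 / 20000) hcb hba (by linarith) hSm (by
      have e1 := mul_nonneg (sub_nonneg.2 hra) (sub_nonneg.2 hba)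
      have e2 := mul_nonneg (sub_nonneg.2 hra) (show (0:ℝ) ≤ ra ^ 2 + 3 * yb - 43881 / 20000 by linarith)
      have e3 := mul_nonneg (sub_nonneg.2 hba) (show (0:ℝ) ≤ ra ^ 2 + 3 * yb - 43881 / 20000 by linarith)
      unfold f3
      linarith) hS0 (sq_nonneg ra)
  have P0 := hT (403 / 1000) (by norm_num) H0
  have X1 : ra ^ 2 ≤ 23 / 25 := by
    by_contra hcon
    push Not at hcon
    have := T7_7_4_x1 hr0 hr1 hk hcon.le hc
    linarith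
  have H1 : (82 / 125 : ℝ) ^ 2 ≤ f3 (ra ^ 2) yb (yc - S) :=
    vert4 (Y := 43881 / 20000) (S0 := 1119 / 20000) hcb hba (by linarith) hSm (by
      have e1 := mul_nonneg (sub_nonneg.2 X1) (sub_nonneg.2 hba)
      have e2 := mul_nonneg (sub_nonneg.2 X1) (show (0:ℝ) ≤ ra ^ 2 + 3 * yb - 43881 / 20000 by linarith)
      have e3 := mul_nonneg (sub_nonneg.2 hba) (show (0:ℝ) ≤ ra ^ 2 + 3 * yb - 43881 / 20000 by linarith)
      unfold f3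
      linarith) hS0 (sq_nonneg ra)
  have P1 := hT (82 / 125) (by norm_num) H1
  have X2 : ra ^ 2 ≤ 4 / 5 := by
    by_contra hcon
    push Not at hcon
    have := T7_7_4_x2 hr0 hr1 hk hcon.le hc
    linarith
  have H2 : (211 / 250 : ℝ) ^ 2 ≤ f3 (ra ^ 2) yb (yc - S) :=
    vert4 (Y := 43881 / 20000) (S0 := 1119 / 20000) hcb hba (by linarith) hSm (by
      have e1 := mul_nonneg (sub_nonneg.2 X2) (sub_nonneg.2 hba)
      have e2 := mul_nonneg (sub_nonneg.2 X2) (show (0:ℝ) ≤ ra ^ 2 + 3 * yb - 43881 / 20000 by linarith)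
      have e3 := mul_nonneg (sub_nonneg.2 hba) (show (0:ℝ) ≤ ra ^ 2 + 3 * yb - 43881 / 20000 by linarith)
      unfold f3
      linarith) hS0 (sq_nonneg ra)
  have P2 := hT (211 / 250) (by norm_num) H2
  linarith

theorem T7_7_5_x1 {r p : ℝ} (hr0 : 0 ≤ r) (hr1 : r ≤ 1) (hk : 282 / 1000 * r ≤ p)
    (hx : 41 / 50 ≤ r ^ 2) (hc : Cap7 r p) :
    689 / 2000 * r ^ 2 + 32 / 625 ≤ p := by
  have h0 : (181 / 200 : ℝ) ≤ r := by nlinarith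
  have hcc := hc (17 / 100) (by norm_num) (by norm_num)
  norm_num at hcc
  nlinarith [mul_nonneg (sub_nonneg.2 h0) (sub_nonneg.2 hr1)]

theorem T7_7_5_x2 {r p : ℝ} (hr0 : 0 ≤ r) (hr1 : r ≤ 1) (hk : 282 / 1000 * r ≤ p)
    (hx : 17 / 25 ≤ r ^ 2) (hc : Cap7 r p) :
    689 / 2000 * r ^ 2 + 41 / 1000 ≤ p := by
  have h0 : (103 / 125 : ℝ) ≤ r := by nlinarith
  have hcc := hc (6 / 25) (by norm_num) (by norm_num)
  norm_num at hcc
  nlinarith [mul_nonneg (sub_nonneg.2 h0) (sub_nonneg.2 hr1)]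

theorem fin7_5 {ra pa yb yc S P : ℝ} (hr0 : 0 ≤ ra) (hr1 : ra ≤ 1)
    (hk : 282 / 1000 * ra ≤ pa) (hc : Cap7 ra pa) (hcb : yc ≤ yb) (hba : yb ≤ ra ^ 2) (hc0 : 0 ≤ yc)
    (hY : 9 / 4 - S ≤ ra ^ 2 + yb + 3 * yc) (hS0 : 0 ≤ S) (hP0 : 0 ≤ P)
    (hSP : S ≤ 125664 / 10000 * (101 / 2000) * P)
    (hline : 689 / 2000 * ra ^ 2 + 39 / 1000 ≤ pa)
    (hbud : pa - 689 / 2000 * ra ^ 2 - 39 / 1000 + P - 689 / 2000 * S ≤ 1 - 9 / 4 * (689 / 2000) - 5 * (39 / 1000))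
    (hT : ∀ h, 0 ≤ h → h ^ 2 ≤ f3 (ra ^ 2) yb (yc - S) → 27 / 500 * h ≤ P) : False := by
  have hPm : P ≤ 239 / 6250 := by linarith
  have hSm : S ≤ 2427 / 100000 := by linarith
  have hra : ra ^ 2 ≤ 1 := pow_le_one₀ hr0 hr1
  have H0 : (21 / 50 : ℝ) ^ 2 ≤ f3 (ra ^ 2) yb (yc - S) :=
    vert5 (Y := 222573 / 100000) (S0 := 2427 / 100000) hcb hba (by linarith) hSm (by
      have e1 := mul_nonneg (sub_nonneg.2 hra) (sub_nonneg.2 hba)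
      have e2 := mul_nonneg (sub_nonneg.2 hra) (show (0:ℝ) ≤ ra ^ 2 + 4 * yb - 222573 / 100000 by linarith)
      have e3 := mul_nonneg (sub_nonneg.2 hba) (show (0:ℝ) ≤ ra ^ 2 + 4 * yb - 222573 / 100000 by linarith)
      unfold f3
      linarith) hS0 (sq_nonneg ra)
  have P0 := hT (21 / 50) (by norm_num) H0
  have X1 : ra ^ 2 ≤ 41 / 50 := by
    by_contra hcon
    push Not at hcon
    have := T7_7_5_x1 hr0 hr1 hk hcon.le hc
    linarith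
  have H1 : (663 / 1000 : ℝ) ^ 2 ≤ f3 (ra ^ 2) yb (yc - S) :=
    vert5 (Y := 222573 / 100000) (S0 := 2427 / 100000) hcb hba (by linarith) hSm (by
      have e1 := mul_nonneg (sub_nonneg.2 X1) (sub_nonneg.2 hba)
      have e2 := mul_nonneg (sub_nonneg.2 X1) (show (0:ℝ) ≤ ra ^ 2 + 4 * yb - 222573 / 100000 by linarith)
      have e3 := mul_nonneg (sub_nonneg.2 hba) (show (0:ℝ) ≤ ra ^ 2 + 4 * yb - 222573 / 100000 by linarith)
      unfold f3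
      linarith) hS0 (sq_nonneg ra)
  have P1 := hT (663 / 1000) (by norm_num) H1
  have X2 : ra ^ 2 ≤ 17 / 25 := by
    by_contra hcon
    push Not at hcon
    have := T7_7_5_x2 hr0 hr1 hk hcon.le hc
    linarith
  have H2 : (93 / 125 : ℝ) ^ 2 ≤ f3 (ra ^ 2) yb (yc - S) :=
    vert5 (Y := 222573 / 100000) (S0 := 2427 / 100000) hcb hba (by linarith) hSm (by
      have e1 := mul_nonneg (sub_nonneg.2 X2) (sub_nonneg.2 hba)
      have e2 := mul_nonneg (sub_nonneg.2 X2) (show (0:ℝ) ≤ ra ^ 2 + 4 * yb - 222573 / 100000 by linarith)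
      have e3 := mul_nonneg (sub_nonneg.2 hba) (show (0:ℝ) ≤ ra ^ 2 + 4 * yb - 222573 / 100000 by linarith)
      unfold f3
      linarith) hS0 (sq_nonneg ra)
  have P2 := hT (93 / 125) (by norm_num) H2
  linarith

theorem T9_9_3_x1 {r p : ℝ} (hr0 : 0 ≤ r) (hr1 : r ≤ 1) (hk : 282 / 1000 * r ≤ p)
    (hx : 47 / 50 ≤ r ^ 2) (hc : Cap9 r p) :
    21 / 50 * r ^ 2 + 13 / 2000 ≤ p := by
  have h0 : (969 / 1000 : ℝ) ≤ r := by nlinarith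
  have hcc := hc (7 / 100) (by norm_num) (by norm_num)
  norm_num at hcc
  nlinarith [mul_nonneg (sub_nonneg.2 h0) (sub_nonneg.2 hr1)]

theorem fin9_3 {ra pa yb yc S P : ℝ} (hr0 : 0 ≤ ra) (hr1 : ra ≤ 1)
    (hk : 282 / 1000 * ra ≤ pa) (hc : Cap9 ra pa) (hcb : yc ≤ yb) (hba : yb ≤ ra ^ 2) (hc0 : 0 ≤ yc)
    (hY : 9 / 4 - S ≤ ra ^ 2 + yb + 1 * yc) (hS0 : 0 ≤ S) (hP0 : 0 ≤ P)
    (hSP : S ≤ 125664 / 10000 * (121 / 2000) * P)
    (hline : 21 / 50 * ra ^ 2 + (-7 / 500) ≤ pa)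
    (hbud : pa - 21 / 50 * ra ^ 2 - (-7 / 500) + P - 21 / 50 * S ≤ 1 - 9 / 4 * (21 / 50) - 3 * (-7 / 500))
    (hT : ∀ h, 0 ≤ h → h ^ 2 ≤ f3 (ra ^ 2) yb (yc - S) → 31 / 100 * h ≤ P) : False := by
  have hPm : P ≤ 14251 / 100000 := by linarith
  have hSm : S ≤ 2167 / 20000 := by linarith
  have hra : ra ^ 2 ≤ 1 := pow_le_one₀ hr0 hr1
  have H0 : (363 / 1000 : ℝ) ^ 2 ≤ f3 (ra ^ 2) yb (yc - S) :=
    vert3 (Y := 42833 / 20000) (S0 := 2167 / 20000) hcb hba (by linarith) hSm (by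
      have e1 := mul_nonneg (sub_nonneg.2 hra) (sub_nonneg.2 hba)
      have e2 := mul_nonneg (sub_nonneg.2 hra) (show (0:ℝ) ≤ ra ^ 2 + 2 * yb - 42833 / 20000 by linarith)
      have e3 := mul_nonneg (sub_nonneg.2 hba) (show (0:ℝ) ≤ ra ^ 2 + 2 * yb - 42833 / 20000 by linarith)
      unfold f3
      linarith) hS0 (sq_nonneg ra)
  have P0 := hT (363 / 1000) (by norm_num) H0
  have X1 : ra ^ 2 ≤ 47 / 50 := by
    by_contra hcon
    push Not at hcon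
    have := T9_9_3_x1 hr0 hr1 hk hcon.le hc
    linarith
  have H1 : (743 / 1000 : ℝ) ^ 2 ≤ f3 (ra ^ 2) yb (yc - S) :=
    vert3 (Y := 42833 / 20000) (S0 := 2167 / 20000) hcb hba (by linarith) hSm (by
      have e1 := mul_nonneg (sub_nonneg.2 X1) (sub_nonneg.2 hba)
      have e2 := mul_nonneg (sub_nonneg.2 X1) (show (0:ℝ) ≤ ra ^ 2 + 2 * yb - 42833 / 20000 by linarith)
      have e3 := mul_nonneg (sub_nonneg.2 hba) (show (0:ℝ) ≤ ra ^ 2 + 2 * yb - 42833 / 20000 by linarith)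
      unfold f3
      linarith) hS0 (sq_nonneg ra)
  have P1 := hT (743 / 1000) (by norm_num) H1
  linarith

theorem T9_9_4_x1 {r p : ℝ} (hr0 : 0 ≤ r) (hr1 : r ≤ 1) (hk : 282 / 1000 * r ≤ p)
    (hx : 49 / 50 ≤ r ^ 2) (hc : Cap9 r p) :
    173 / 500 * r ^ 2 + 121 / 1250 ≤ p := by
  have h0 : (989 / 1000 : ℝ) ≤ r := by nlinarith
  have hcc := hc (1 / 25) (by norm_num) (by norm_num)
  norm_num at hcc
  nlinarith [mul_nonneg (sub_nonneg.2 h0) (sub_nonneg.2 hr1)]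

theorem T9_9_4_x2 {r p : ℝ} (hr0 : 0 ≤ r) (hr1 : r ≤ 1) (hk : 282 / 1000 * r ≤ p)
    (hx : 93 / 100 ≤ r ^ 2) (hc : Cap9 r p) :
    173 / 500 * r ^ 2 + 93 / 1250 ≤ p := by
  have h0 : (241 / 250 : ℝ) ≤ r := by nlinarith
  have hcc := hc (9 / 100) (by norm_num) (by norm_num)
  norm_num at hcc
  nlinarith [mul_nonneg (sub_nonneg.2 h0) (sub_nonneg.2 hr1)]

theorem T9_9_4_x3 {r p : ℝ} (hr0 : 0 ≤ r) (hr1 : r ≤ 1) (hk : 282 / 1000 * r ≤ p)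
    (hx : 81 / 100 ≤ r ^ 2) (hc : Cap9 r p) :
    173 / 500 * r ^ 2 + 59 / 1250 ≤ p := by
  have h0 : (9 / 10 : ℝ) ≤ r := by nlinarith
  have hcc := hc (3 / 20) (by norm_num) (by norm_num)
  norm_num at hcc
  nlinarith [mul_nonneg (sub_nonneg.2 h0) (sub_nonneg.2 hr1)]

theorem fin9_4 {ra pa yb yc S P : ℝ} (hr0 : 0 ≤ ra) (hr1 : ra ≤ 1)
    (hk : 282 / 1000 * ra ≤ pa) (hc : Cap9 ra pa) (hcb : yc ≤ yb) (hba : yb ≤ ra ^ 2) (hc0 : 0 ≤ yc)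
    (hY : 9 / 4 - S ≤ ra ^ 2 + yb + 2 * yc) (hS0 : 0 ≤ S) (hP0 : 0 ≤ P)
    (hSP : S ≤ 125664 / 10000 * (121 / 2000) * P)
    (hline : 173 / 500 * ra ^ 2 + 359 / 10000 ≤ pa)
    (hbud : pa - 173 / 500 * ra ^ 2 - 359 / 10000 + P - 173 / 500 * S ≤ 1 - 9 / 4 * (173 / 500) - 4 * (359 / 10000))
    (hT : ∀ h, 0 ≤ h → h ^ 2 ≤ f3 (ra ^ 2) yb (yc - S) → 87 / 500 * h ≤ P) : False := by
  have hPm : P ≤ 10571 / 100000 := by linarith
  have hSm : S ≤ 8037 / 100000 := by linarith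
  have hra : ra ^ 2 ≤ 1 := pow_le_one₀ hr0 hr1
  have H0 : (133 / 1000 : ℝ) ^ 2 ≤ f3 (ra ^ 2) yb (yc - S) :=
    vert4 (Y := 216963 / 100000) (S0 := 8037 / 100000) hcb hba (by linarith) hSm (by
      have e1 := mul_nonneg (sub_nonneg.2 hra) (sub_nonneg.2 hba)
      have e2 := mul_nonneg (sub_nonneg.2 hra) (show (0:ℝ) ≤ ra ^ 2 + 3 * yb - 216963 / 100000 by linarith)
      have e3 := mul_nonneg (sub_nonneg.2 hba) (show (0:ℝ) ≤ ra ^ 2 + 3 * yb - 216963 / 100000 by linarith)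
      unfold f3
      linarith) hS0 (sq_nonneg ra)
  have P0 := hT (133 / 1000) (by norm_num) H0
  have X1 : ra ^ 2 ≤ 49 / 50 := by
    by_contra hcon
    push Not at hcon
    have := T9_9_4_x1 hr0 hr1 hk hcon.le hc
    linarith
  have H1 : (77 / 250 : ℝ) ^ 2 ≤ f3 (ra ^ 2) yb (yc - S) :=
    vert4 (Y := 216963 / 100000) (S0 := 8037 / 100000) hcb hba (by linarith) hSm (by
      have e1 := mul_nonneg (sub_nonneg.2 X1) (sub_nonneg.2 hba)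
      have e2 := mul_nonneg (sub_nonneg.2 X1) (show (0:ℝ) ≤ ra ^ 2 + 3 * yb - 216963 / 100000 by linarith)
      have e3 := mul_nonneg (sub_nonneg.2 hba) (show (0:ℝ) ≤ ra ^ 2 + 3 * yb - 216963 / 100000 by linarith)
      unfold f3
      linarith) hS0 (sq_nonneg ra)
  have P1 := hT (77 / 250) (by norm_num) H1
  have X2 : ra ^ 2 ≤ 93 / 100 := by
    by_contra hcon
    push Not at hcon
    have := T9_9_4_x2 hr0 hr1 hk hcon.le hc
    linarith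
  have H2 : (13 / 25 : ℝ) ^ 2 ≤ f3 (ra ^ 2) yb (yc - S) :=
    vert4 (Y := 216963 / 100000) (S0 := 8037 / 100000) hcb hba (by linarith) hSm (by
      have e1 := mul_nonneg (sub_nonneg.2 X2) (sub_nonneg.2 hba)
      have e2 := mul_nonneg (sub_nonneg.2 X2) (show (0:ℝ) ≤ ra ^ 2 + 3 * yb - 216963 / 100000 by linarith)
      have e3 := mul_nonneg (sub_nonneg.2 hba) (show (0:ℝ) ≤ ra ^ 2 + 3 * yb - 216963 / 100000 by linarith)
      unfold f3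
      linarith) hS0 (sq_nonneg ra)
  have P2 := hT (13 / 25) (by norm_num) H2
  have X3 : ra ^ 2 ≤ 81 / 100 := by
    by_contra hcon
    push Not at hcon
    have := T9_9_4_x3 hr0 hr1 hk hcon.le hc
    linarith
  have H3 : (769 / 1000 : ℝ) ^ 2 ≤ f3 (ra ^ 2) yb (yc - S) :=
    vert4 (Y := 216963 / 100000) (S0 := 8037 / 100000) hcb hba (by linarith) hSm (by
      have e1 := mul_nonneg (sub_nonneg.2 X3) (sub_nonneg.2 hba)
      have e2 := mul_nonneg (sub_nonneg.2 X3) (show (0:ℝ) ≤ ra ^ 2 + 3 * yb - 216963 / 100000 by linarith)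
      have e3 := mul_nonneg (sub_nonneg.2 hba) (show (0:ℝ) ≤ ra ^ 2 + 3 * yb - 216963 / 100000 by linarith)
      unfold f3
      linarith) hS0 (sq_nonneg ra)
  have P3 := hT (769 / 1000) (by norm_num) H3
  linarith

theorem T9_9_5_x1 {r p : ℝ} (hr0 : 0 ≤ r) (hr1 : r ≤ 1) (hk : 282 / 1000 * r ≤ p)
    (hx : 39 / 50 ≤ r ^ 2) (hc : Cap9 r p) :
    1653 / 5000 * r ^ 2 + 557 / 10000 ≤ p := by
  have h0 : (883 / 1000 : ℝ) ≤ r := by nlinarith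
  have hcc := hc (4 / 25) (by norm_num) (by norm_num)
  norm_num at hcc
  nlinarith [mul_nonneg (sub_nonneg.2 h0) (sub_nonneg.2 hr1)]

theorem fin9_5 {ra pa yb yc S P : ℝ} (hr0 : 0 ≤ ra) (hr1 : ra ≤ 1)
    (hk : 282 / 1000 * ra ≤ pa) (hc : Cap9 ra pa) (hcb : yc ≤ yb) (hba : yb ≤ ra ^ 2) (hc0 : 0 ≤ yc)
    (hY : 9 / 4 - S ≤ ra ^ 2 + yb + 3 * yc) (hS0 : 0 ≤ S) (hP0 : 0 ≤ P)
    (hSP : S ≤ 125664 / 10000 * (121 / 2000) * P)
    (hline : 1653 / 5000 * ra ^ 2 + 219 / 5000 ≤ pa)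
    (hbud : pa - 1653 / 5000 * ra ^ 2 - 219 / 5000 + P - 1653 / 5000 * S ≤ 1 - 9 / 4 * (1653 / 5000) - 5 * (219 / 5000))
    (hT : ∀ h, 0 ≤ h → h ^ 2 ≤ f3 (ra ^ 2) yb (yc - S) → 187 / 2000 * h ≤ P) : False := by
  have hPm : P ≤ 4963 / 100000 := by linarith
  have hSm : S ≤ 1887 / 50000 := by linarith
  have hra : ra ^ 2 ≤ 1 := pow_le_one₀ hr0 hr1
  have H0 : (361 / 1000 : ℝ) ^ 2 ≤ f3 (ra ^ 2) yb (yc - S) :=
    vert5 (Y := 110613 / 50000) (S0 := 1887 / 50000) hcb hba (by linarith) hSm (by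
      have e1 := mul_nonneg (sub_nonneg.2 hra) (sub_nonneg.2 hba)
      have e2 := mul_nonneg (sub_nonneg.2 hra) (show (0:ℝ) ≤ ra ^ 2 + 4 * yb - 110613 / 50000 by linarith)
      have e3 := mul_nonneg (sub_nonneg.2 hba) (show (0:ℝ) ≤ ra ^ 2 + 4 * yb - 110613 / 50000 by linarith)
      unfold f3
      linarith) hS0 (sq_nonneg ra)
  have P0 := hT (361 / 1000) (by norm_num) H0
  have X1 : ra ^ 2 ≤ 39 / 50 := by
    by_contra hcon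
    push Not at hcon
    have := T9_9_5_x1 hr0 hr1 hk hcon.le hc
    linarith
  have H1 : (669 / 1000 : ℝ) ^ 2 ≤ f3 (ra ^ 2) yb (yc - S) :=
    vert5 (Y := 110613 / 50000) (S0 := 1887 / 50000) hcb hba (by linarith) hSm (by
      have e1 := mul_nonneg (sub_nonneg.2 X1) (sub_nonneg.2 hba)
      have e2 := mul_nonneg (sub_nonneg.2 X1) (show (0:ℝ) ≤ ra ^ 2 + 4 * yb - 110613 / 50000 by linarith)
      have e3 := mul_nonneg (sub_nonneg.2 hba) (show (0:ℝ) ≤ ra ^ 2 + 4 * yb - 110613 / 50000 by linarith)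
      unfold f3
      linarith) hS0 (sq_nonneg ra)
  have P1 := hT (669 / 1000) (by norm_num) H1
  linarith

theorem finH_3 {ra pa yb yc S P : ℝ} (hr0 : 0 ≤ ra) (hr1 : ra ≤ 1)
    (hk : 282 / 1000 * ra ≤ pa) (hc : CapH ra pa) (hcb : yc ≤ yb) (hba : yb ≤ ra ^ 2) (hc0 : 0 ≤ yc)
    (hY : 9 / 4 - S ≤ ra ^ 2 + yb + 1 * yc) (hS0 : 0 ≤ S) (hP0 : 0 ≤ P)
    (hSP : S ≤ 125664 / 10000 * (47 / 1000) * P)
    (hline : 2147 / 5000 * ra ^ 2 + (-67 / 2500) ≤ pa)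
    (hbud : pa - 2147 / 5000 * ra ^ 2 - (-67 / 2500) + P - 2147 / 5000 * S ≤ 1 - 9 / 4 * (2147 / 5000) - 3 * (-67 / 2500))
    (hT : ∀ h, 0 ≤ h → h ^ 2 ≤ f3 (ra ^ 2) yb (yc - S) → 9 / 20 * h ≤ P) : False := by
  have hPm : P ≤ 3827 / 25000 := by linarith
  have hSm : S ≤ 4521 / 50000 := by linarith
  have hra : ra ^ 2 ≤ 1 := pow_le_one₀ hr0 hr1
  have H0 : (521 / 1000 : ℝ) ^ 2 ≤ f3 (ra ^ 2) yb (yc - S) :=
    vert3 (Y := 107979 / 50000) (S0 := 4521 / 50000) hcb hba (by linarith) hSm (by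
      have e1 := mul_nonneg (sub_nonneg.2 hra) (sub_nonneg.2 hba)
      have e2 := mul_nonneg (sub_nonneg.2 hra) (show (0:ℝ) ≤ ra ^ 2 + 2 * yb - 107979 / 50000 by linarith)
      have e3 := mul_nonneg (sub_nonneg.2 hba) (show (0:ℝ) ≤ ra ^ 2 + 2 * yb - 107979 / 50000 by linarith)
      unfold f3
      linarith) hS0 (sq_nonneg ra)
  have P0 := hT (521 / 1000) (by norm_num) H0
  linarith

theorem TH_H_4_x1 {r p : ℝ} (hr0 : 0 ≤ r) (hr1 : r ≤ 1) (hk : 282 / 1000 * r ≤ p)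
    (hx : 49 / 50 ≤ r ^ 2) (hc : CapH r p) :
    1753 / 5000 * r ^ 2 + 97 / 1000 ≤ p := by
  have h0 : (989 / 1000 : ℝ) ≤ r := by nlinarith
  have hcc := hc (3 / 20) (by norm_num) (by norm_num)
  norm_num at hcc
  nlinarith [mul_nonneg (sub_nonneg.2 h0) (sub_nonneg.2 hr1)]

theorem TH_H_4_x2 {r p : ℝ} (hr0 : 0 ≤ r) (hr1 : r ≤ 1) (hk : 282 / 1000 * r ≤ p)
    (hx : 23 / 25 ≤ r ^ 2) (hc : CapH r p) :
    1753 / 5000 * r ^ 2 + 623 / 10000 ≤ p := by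
  have h0 : (959 / 1000 : ℝ) ≤ r := by nlinarith
  have hcc := hc (1 / 4) (by norm_num) (by norm_num)
  norm_num at hcc
  nlinarith [mul_nonneg (sub_nonneg.2 h0) (sub_nonneg.2 hr1)]

theorem finH_4 {ra pa yb yc S P : ℝ} (hr0 : 0 ≤ ra) (hr1 : ra ≤ 1)
    (hk : 282 / 1000 * ra ≤ pa) (hc : CapH ra pa) (hcb : yc ≤ yb) (hba : yb ≤ ra ^ 2) (hc0 : 0 ≤ yc)
    (hY : 9 / 4 - S ≤ ra ^ 2 + yb + 2 * yc) (hS0 : 0 ≤ S) (hP0 : 0 ≤ P)
    (hSP : S ≤ 125664 / 10000 * (47 / 1000) * P)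
    (hline : 1753 / 5000 * ra ^ 2 + 263 / 10000 ≤ pa)
    (hbud : pa - 1753 / 5000 * ra ^ 2 - 263 / 10000 + P - 1753 / 5000 * S ≤ 1 - 9 / 4 * (1753 / 5000) - 4 * (263 / 10000))
    (hT : ∀ h, 0 ≤ h → h ^ 2 ≤ f3 (ra ^ 2) yb (yc - S) → 11 / 40 * h ≤ P) : False := by
  have hPm : P ≤ 6681 / 50000 := by linarith
  have hSm : S ≤ 1973 / 25000 := by linarith
  have hra : ra ^ 2 ≤ 1 := pow_le_one₀ hr0 hr1
  have H0 : (81 / 500 : ℝ) ^ 2 ≤ f3 (ra ^ 2) yb (yc - S) :=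
    vert4 (Y := 54277 / 25000) (S0 := 1973 / 25000) hcb hba (by linarith) hSm (by
      have e1 := mul_nonneg (sub_nonneg.2 hra) (sub_nonneg.2 hba)
      have e2 := mul_nonneg (sub_nonneg.2 hra) (show (0:ℝ) ≤ ra ^ 2 + 3 * yb - 54277 / 25000 by linarith)
      have e3 := mul_nonneg (sub_nonneg.2 hba) (show (0:ℝ) ≤ ra ^ 2 + 3 * yb - 54277 / 25000 by linarith)
      unfold f3
      linarith) hS0 (sq_nonneg ra)
  have P0 := hT (81 / 500) (by norm_num) H0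
  have X1 : ra ^ 2 ≤ 49 / 50 := by
    by_contra hcon
    push Not at hcon
    have := TH_H_4_x1 hr0 hr1 hk hcon.le hc
    linarith
  have H1 : (321 / 1000 : ℝ) ^ 2 ≤ f3 (ra ^ 2) yb (yc - S) :=
    vert4 (Y := 54277 / 25000) (S0 := 1973 / 25000) hcb hba (by linarith) hSm (by
      have e1 := mul_nonneg (sub_nonneg.2 X1) (sub_nonneg.2 hba)
      have e2 := mul_nonneg (sub_nonneg.2 X1) (show (0:ℝ) ≤ ra ^ 2 + 3 * yb - 54277 / 25000 by linarith)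
      have e3 := mul_nonneg (sub_nonneg.2 hba) (show (0:ℝ) ≤ ra ^ 2 + 3 * yb - 54277 / 25000 by linarith)
      unfold f3
      linarith) hS0 (sq_nonneg ra)
  have P1 := hT (321 / 1000) (by norm_num) H1
  have X2 : ra ^ 2 ≤ 23 / 25 := by
    by_contra hcon
    push Not at hcon
    have := TH_H_4_x2 hr0 hr1 hk hcon.le hc
    linarith
  have H2 : (557 / 1000 : ℝ) ^ 2 ≤ f3 (ra ^ 2) yb (yc - S) :=
    vert4 (Y := 54277 / 25000) (S0 := 1973 / 25000) hcb hba (by linarith) hSm (by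
      have e1 := mul_nonneg (sub_nonneg.2 X2) (sub_nonneg.2 hba)
      have e2 := mul_nonneg (sub_nonneg.2 X2) (show (0:ℝ) ≤ ra ^ 2 + 3 * yb - 54277 / 25000 by linarith)
      have e3 := mul_nonneg (sub_nonneg.2 hba) (show (0:ℝ) ≤ ra ^ 2 + 3 * yb - 54277 / 25000 by linarith)
      unfold f3
      linarith) hS0 (sq_nonneg ra)
  have P2 := hT (557 / 1000) (by norm_num) H2
  linarith

theorem TH_H_5_x1 {r p : ℝ} (hr0 : 0 ≤ r) (hr1 : r ≤ 1) (hk : 282 / 1000 * r ≤ p)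
    (hx : 93 / 100 ≤ r ^ 2) (hc : CapH r p) :
    208 / 625 * r ^ 2 + 809 / 10000 ≤ p := by
  have h0 : (241 / 250 : ℝ) ≤ r := by nlinarith
  have hcc := hc (1 / 4) (by norm_num) (by norm_num)
  norm_num at hcc
  nlinarith [mul_nonneg (sub_nonneg.2 h0) (sub_nonneg.2 hr1)]

theorem TH_H_5_x2 {r p : ℝ} (hr0 : 0 ≤ r) (hr1 : r ≤ 1) (hk : 282 / 1000 * r ≤ p)
    (hx : 77 / 100 ≤ r ^ 2) (hc : CapH r p) :
    208 / 625 * r ^ 2 + 477 / 10000 ≤ p := by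
  have h0 : (877 / 1000 : ℝ) ≤ r := by nlinarith
  have hcc := hc (1 / 2) (by norm_num) (by norm_num)
  norm_num at hcc
  nlinarith [mul_nonneg (sub_nonneg.2 h0) (sub_nonneg.2 hr1)]

theorem finH_5 {ra pa yb yc S P : ℝ} (hr0 : 0 ≤ ra) (hr1 : ra ≤ 1)
    (hk : 282 / 1000 * ra ≤ pa) (hc : CapH ra pa) (hcb : yc ≤ yb) (hba : yb ≤ ra ^ 2) (hc0 : 0 ≤ yc)
    (hY : 9 / 4 - S ≤ ra ^ 2 + yb + 3 * yc) (hS0 : 0 ≤ S) (hP0 : 0 ≤ P)
    (hSP : S ≤ 125664 / 10000 * (47 / 1000) * P)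
    (hline : 208 / 625 * ra ^ 2 + 71 / 2000 ≤ pa)
    (hbud : pa - 208 / 625 * ra ^ 2 - 71 / 2000 + P - 208 / 625 * S ≤ 1 - 9 / 4 * (208 / 625) - 5 * (71 / 2000))
    (hT : ∀ h, 0 ≤ h → h ^ 2 ≤ f3 (ra ^ 2) yb (yc - S) → 21 / 125 * h ≤ P) : False := by
  have hPm : P ≤ 4587 / 50000 := by linarith
  have hSm : S ≤ 5419 / 100000 := by linarith
  have hra : ra ^ 2 ≤ 1 := pow_le_one₀ hr0 hr1
  have H0 : (21 / 100 : ℝ) ^ 2 ≤ f3 (ra ^ 2) yb (yc - S) :=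
    vert5 (Y := 219581 / 100000) (S0 := 5419 / 100000) hcb hba (by linarith) hSm (by
      have e1 := mul_nonneg (sub_nonneg.2 hra) (sub_nonneg.2 hba)
      have e2 := mul_nonneg (sub_nonneg.2 hra) (show (0:ℝ) ≤ ra ^ 2 + 4 * yb - 219581 / 100000 by linarith)
      have e3 := mul_nonneg (sub_nonneg.2 hba) (show (0:ℝ) ≤ ra ^ 2 + 4 * yb - 219581 / 100000 by linarith)
      unfold f3
      linarith) hS0 (sq_nonneg ra)
  have P0 := hT (21 / 100) (by norm_num) H0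
  have X1 : ra ^ 2 ≤ 93 / 100 := by
    by_contra hcon
    push Not at hcon
    have := TH_H_5_x1 hr0 hr1 hk hcon.le hc
    linarith
  have H1 : (57 / 125 : ℝ) ^ 2 ≤ f3 (ra ^ 2) yb (yc - S) :=
    vert5 (Y := 219581 / 100000) (S0 := 5419 / 100000) hcb hba (by linarith) hSm (by
      have e1 := mul_nonneg (sub_nonneg.2 X1) (sub_nonneg.2 hba)
      have e2 := mul_nonneg (sub_nonneg.2 X1) (show (0:ℝ) ≤ ra ^ 2 + 4 * yb - 219581 / 100000 by linarith)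
      have e3 := mul_nonneg (sub_nonneg.2 hba) (show (0:ℝ) ≤ ra ^ 2 + 4 * yb - 219581 / 100000 by linarith)
      unfold f3
      linarith) hS0 (sq_nonneg ra)
  have P1 := hT (57 / 125) (by norm_num) H1
  have X2 : ra ^ 2 ≤ 77 / 100 := by
    by_contra hcon
    push Not at hcon
    have := TH_H_5_x2 hr0 hr1 hk hcon.le hc
    linarith
  have H2 : (323 / 500 : ℝ) ^ 2 ≤ f3 (ra ^ 2) yb (yc - S) :=
    vert5 (Y := 219581 / 100000) (S0 := 5419 / 100000) hcb hba (by linarith) hSm (by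
      have e1 := mul_nonneg (sub_nonneg.2 X2) (sub_nonneg.2 hba)
      have e2 := mul_nonneg (sub_nonneg.2 X2) (show (0:ℝ) ≤ ra ^ 2 + 4 * yb - 219581 / 100000 by linarith)
      have e3 := mul_nonneg (sub_nonneg.2 hba) (show (0:ℝ) ≤ ra ^ 2 + 4 * yb - 219581 / 100000 by linarith)
      unfold f3
      linarith) hS0 (sq_nonneg ra)
  have P2 := hT (323 / 500) (by norm_num) H2
  linarith

theorem TH_H_6_x1 {r p : ℝ} (hr0 : 0 ≤ r) (hr1 : r ≤ 1) (hk : 282 / 1000 * r ≤ p)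
    (hx : 9 / 10 ≤ r ^ 2) (hc : CapH r p) :
    3289 / 10000 * r ^ 2 + 37 / 500 ≤ p := by
  have h0 : (237 / 250 : ℝ) ≤ r := by nlinarith
  have hcc := hc (3 / 10) (by norm_num) (by norm_num)
  norm_num at hcc
  nlinarith [mul_nonneg (sub_nonneg.2 h0) (sub_nonneg.2 hr1)]

theorem TH_H_6_x2 {r p : ℝ} (hr0 : 0 ≤ r) (hr1 : r ≤ 1) (hk : 282 / 1000 * r ≤ p)
    (hx : 19 / 25 ≤ r ^ 2) (hc : CapH r p) :
    3289 / 10000 * r ^ 2 + 99 / 2000 ≤ p := by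
  have h0 : (871 / 1000 : ℝ) ≤ r := by nlinarith
  have hcc := hc (1 / 2) (by norm_num) (by norm_num)
  norm_num at hcc
  nlinarith [mul_nonneg (sub_nonneg.2 h0) (sub_nonneg.2 hr1)]

theorem finH_6 {ra pa yb yc S P : ℝ} (hr0 : 0 ≤ ra) (hr1 : ra ≤ 1)
    (hk : 282 / 1000 * ra ≤ pa) (hc : CapH ra pa) (hcb : yc ≤ yb) (hba : yb ≤ ra ^ 2) (hc0 : 0 ≤ yc)
    (hY : 9 / 4 - S ≤ ra ^ 2 + yb + 4 * yc) (hS0 : 0 ≤ S) (hP0 : 0 ≤ P)
    (hSP : S ≤ 125664 / 10000 * (47 / 1000) * P)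
    (hline : 3289 / 10000 * ra ^ 2 + 93 / 2500 ≤ pa)
    (hbud : pa - 3289 / 10000 * ra ^ 2 - 93 / 2500 + P - 3289 / 10000 * S ≤ 1 - 9 / 4 * (3289 / 10000) - 6 * (93 / 2500))
    (hT : ∀ h, 0 ≤ h → h ^ 2 ≤ f3 (ra ^ 2) yb (yc - S) → 1 / 10 * h ≤ P) : False := by
  have hPm : P ≤ 913 / 20000 := by linarith
  have hSm : S ≤ 2697 / 100000 := by linarith
  have hra : ra ^ 2 ≤ 1 := pow_le_one₀ hr0 hr1
  have X1 : ra ^ 2 ≤ 9 / 10 := by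
    by_contra hcon
    push Not at hcon
    have := TH_H_6_x1 hr0 hr1 hk hcon.le hc
    linarith
  have H1 : (61 / 200 : ℝ) ^ 2 ≤ f3 (ra ^ 2) yb (yc - S) :=
    vert6 (Y := 222303 / 100000) (S0 := 2697 / 100000) hcb hba (by linarith) hSm (by
      have e1 := mul_nonneg (sub_nonneg.2 X1) (sub_nonneg.2 hba)
      have e2 := mul_nonneg (sub_nonneg.2 X1) (show (0:ℝ) ≤ ra ^ 2 + 5 * yb - 222303 / 100000 by linarith)
      have e3 := mul_nonneg (sub_nonneg.2 hba) (show (0:ℝ) ≤ ra ^ 2 + 5 * yb - 222303 / 100000 by linarith)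
      unfold f3
      linarith) hS0 (sq_nonneg ra)
  have P1 := hT (61 / 200) (by norm_num) H1
  have X2 : ra ^ 2 ≤ 19 / 25 := by
    by_contra hcon
    push Not at hcon
    have := TH_H_6_x2 hr0 hr1 hk hcon.le hc
    linarith
  have H2 : (519 / 1000 : ℝ) ^ 2 ≤ f3 (ra ^ 2) yb (yc - S) :=
    vert6 (Y := 222303 / 100000) (S0 := 2697 / 100000) hcb hba (by linarith) hSm (by
      have e1 := mul_nonneg (sub_nonneg.2 X2) (sub_nonneg.2 hba)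
      have e2 := mul_nonneg (sub_nonneg.2 X2) (show (0:ℝ) ≤ ra ^ 2 + 5 * yb - 222303 / 100000 by linarith)
      have e3 := mul_nonneg (sub_nonneg.2 hba) (show (0:ℝ) ≤ ra ^ 2 + 5 * yb - 222303 / 100000 by linarith)
      unfold f3
      linarith) hS0 (sq_nonneg ra)
  have P2 := hT (519 / 1000) (by norm_num) H2
  linarith

theorem T5_5_3_x1 {r p : ℝ} (hr0 : 0 ≤ r) (hr1 : r ≤ 1) (hk : 282 / 1000 * r ≤ p)
    (hx : 19 / 20 ≤ r ^ 2) (hc : Cap5 r p) :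
    4109 / 10000 * r ^ 2 + 57 / 2500 ≤ p := by
  have h0 : (487 / 500 : ℝ) ≤ r := by nlinarith
  have hcc := hc (1 / 10) (by norm_num) (by norm_num)
  norm_num at hcc
  nlinarith [mul_nonneg (sub_nonneg.2 h0) (sub_nonneg.2 hr1)]

theorem fin5_3 {ra pa yb yc S P : ℝ} (hr0 : 0 ≤ ra) (hr1 : ra ≤ 1)
    (hk : 282 / 1000 * ra ≤ pa) (hc : Cap5 ra pa) (hcb : yc ≤ yb) (hba : yb ≤ ra ^ 2) (hc0 : 0 ≤ yc)
    (hY : 9 / 4 - S ≤ ra ^ 2 + yb + 1 * yc) (hS0 : 0 ≤ S) (hP0 : 0 ≤ P)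
    (hSP : S ≤ 125664 / 10000 * (311 / 5000) * P)
    (hline : 4109 / 10000 * ra ^ 2 + (-9 / 5000) ≤ pa)
    (hbud : pa - 4109 / 10000 * ra ^ 2 - (-9 / 5000) + P - 4109 / 10000 * S ≤ 1 - 9 / 4 * (4109 / 10000) - 3 * (-9 / 5000))
    (hT : ∀ h, 0 ≤ h → h ^ 2 ≤ f3 (ra ^ 2) yb (yc - S) → 83 / 500 * h ≤ P) : False := by
  have hPm : P ≤ 5957 / 50000 := by linarith
  have hSm : S ≤ 9313 / 100000 := by linarith
  have hra : ra ^ 2 ≤ 1 := pow_le_one₀ hr0 hr1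
  have H0 : (1 / 2 : ℝ) ^ 2 ≤ f3 (ra ^ 2) yb (yc - S) :=
    vert3 (Y := 215687 / 100000) (S0 := 9313 / 100000) hcb hba (by linarith) hSm (by
      have e1 := mul_nonneg (sub_nonneg.2 hra) (sub_nonneg.2 hba)
      have e2 := mul_nonneg (sub_nonneg.2 hra) (show (0:ℝ) ≤ ra ^ 2 + 2 * yb - 215687 / 100000 by linarith)
      have e3 := mul_nonneg (sub_nonneg.2 hba) (show (0:ℝ) ≤ ra ^ 2 + 2 * yb - 215687 / 100000 by linarith)
      unfold f3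
      linarith) hS0 (sq_nonneg ra)
  have P0 := hT (1 / 2) (by norm_num) H0
  have X1 : ra ^ 2 ≤ 19 / 20 := by
    by_contra hcon
    push Not at hcon
    have := T5_5_3_x1 hr0 hr1 hk hcon.le hc
    linarith
  have H1 : (771 / 1000 : ℝ) ^ 2 ≤ f3 (ra ^ 2) yb (yc - S) :=
    vert3 (Y := 215687 / 100000) (S0 := 9313 / 100000) hcb hba (by linarith) hSm (by
      have e1 := mul_nonneg (sub_nonneg.2 X1) (sub_nonneg.2 hba)
      have e2 := mul_nonneg (sub_nonneg.2 X1) (show (0:ℝ) ≤ ra ^ 2 + 2 * yb - 215687 / 100000 by linarith)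
      have e3 := mul_nonneg (sub_nonneg.2 hba) (show (0:ℝ) ≤ ra ^ 2 + 2 * yb - 215687 / 100000 by linarith)
      unfold f3
      linarith) hS0 (sq_nonneg ra)
  have P1 := hT (771 / 1000) (by norm_num) H1
  linarith

end Vale.Agent.P226
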