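import Mathlib
import Vale.Agent.P226.Full.Fin

/-! general lemmas for the numeric endgame -/

open Finset

namespace Vale.Agent.P226

theorem pi_lt_s : 4 * Real.pi < 125664 / 10000 := by
  have := Real.pi_lt_d4; linarith

theorem pi_gt_s : (31415 : ℝ) / 10000 < Real.pi := by
  have := Real.pi_gt_d4; linarith

theorem f3_anti {a b c s s' : ℝ} (ha : 0 ≤ a) (hcb : c ≤ b) (hs : 0 ≤ s) (hss : s ≤ s') :
    f3 a b (c - s') ≤ f3 a b (c - s) := f3_mono ha (by linarith) (by linarith)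

/-- the three largest values -/
theorem top3 {N : ℕ} (hN : 3 ≤ N) (y : ℕ → ℝ) : ∃ a b c, a < N ∧ b < N ∧ c < N ∧ a ≠ b ∧ a ≠ c ∧
    b ≠ c ∧ y c ≤ y b ∧ y b ≤ y a ∧ ∀ i < N, i ≠ a → i ≠ b → i ≠ c → y i ≤ y c := by
  obtain ⟨a, ha, hamax⟩ := exists_max_image (range N) y ⟨0, by simp; omega⟩
  have h1 : ((range N).erase a).Nonempty := by
    rw [← card_pos, card_erase_of_mem ha, card_range]; omega
  obtain ⟨b, hb, hbmax⟩ := exists_max_image ((range N).erase a) y h1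
  have h2 : (((range N).erase a).erase b).Nonempty := by
    rw [← card_pos, card_erase_of_mem hb, card_erase_of_mem ha, card_range]; omega
  obtain ⟨c, hc, hcmax⟩ := exists_max_image (((range N).erase a).erase b) y h2
  simp only [mem_erase, mem_range] at ha hb hc
  refine ⟨a, b, c, ha, hb.2, hc.2.2, hb.1.symm, hc.2.1.symm, hc.1.symm, ?_, ?_, ?_⟩
  · exact hbmax c (by simp [hc.2.1, hc.2.2])
  · exact hamax b (by simp [hb.2])
  · intro i hi hia hib hic
    exact hcmax i (by simp [hi, hia, hib])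

variable {k : ℕ} {y p : ℕ → ℝ}

theorem sum_split (f : ℕ → ℝ) {N : ℕ} (h : N ≤ k) :
    ∑ i ∈ range k, f i = ∑ i ∈ range N, f i + ∑ i ∈ Ico N k, f i := by
  rw [range_eq_Ico, range_eq_Ico, sum_Ico_consecutive _ (Nat.zero_le _) h]

theorem sum_ge_three {N : ℕ} {f : ℕ → ℝ} {a b c : ℕ} (ha : a < N) (hb : b < N) (hc : c < N)
    (hab : a ≠ b) (hac : a ≠ c) (hbc : b ≠ c) {m : ℝ} (h : ∀ i < N, i ≠ a → i ≠ b → i ≠ c → m ≤ f i) :
    f a + f b + f c + ((N : ℝ) - 3) * m ≤ ∑ i ∈ range N, f i := by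
  have hs : ({a, b, c} : Finset ℕ) ⊆ range N := by
    intro x hx
    simp only [mem_insert, mem_singleton] at hx
    rcases hx with rfl | rfl | rfl <;> simpa
  have hcard : ({a, b, c} : Finset ℕ).card = 3 := by
    rw [card_insert_of_notMem (by simp [hab, hac]), card_insert_of_notMem (by simp [hbc]),
      card_singleton]
  rw [← sum_sdiff hs]
  have h1 : ∑ i ∈ ({a, b, c} : Finset ℕ), f i = f a + f b + f c := by
    rw [sum_insert (by simp [hab, hac]), sum_insert (by simp [hbc]), sum_singleton]; ring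
  have h2 : ((N : ℝ) - 3) * m ≤ ∑ i ∈ range N \ {a, b, c}, f i := by
    have h3 : ∑ i ∈ range N \ {a, b, c}, m ≤ ∑ i ∈ range N \ {a, b, c}, f i := by
      apply sum_le_sum
      intro i hi
      simp only [mem_sdiff, mem_range, mem_insert, mem_singleton, not_or] at hi
      exact h i hi.1 hi.2.1 hi.2.2.1 hi.2.2.2
    rw [sum_const, nsmul_eq_mul, card_sdiff_of_subset hs, hcard, card_range] at h3
    have h4 : 3 ≤ N := by
      have := card_le_card hs
      rwa [hcard, card_range] at this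
    rw [Nat.cast_sub h4] at h3
    exact_mod_cast h3
  linarith

theorem sum_le_three {N : ℕ} {f : ℕ → ℝ} {a b c : ℕ} (ha : a < N) (hb : b < N) (hc : c < N)
    (hab : a ≠ b) (hac : a ≠ c) (hbc : b ≠ c) {m : ℝ} (h : ∀ i < N, i ≠ a → i ≠ b → i ≠ c → f i ≤ m) :
    ∑ i ∈ range N, f i ≤ f a + f b + f c + ((N : ℝ) - 3) * m := by
  have := sum_ge_three (f := fun i => - f i) ha hb hc hab hac hbc (m := -m)
    (fun i hi h1 h2 h3 => neg_le_neg (h i hi h1 h2 h3))
  simp only [sum_neg_distrib] at this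
  linarith

/-- Prekopa in the form `.282 √y ≤ p` -/
theorem Dat.hk (h : Dat k y p) {i : ℕ} (hi : i < k) : 282 / 1000 * Real.sqrt (y i) ≤ p i := by
  have h1 := h.prek i hi
  have h2 := h.ppos i hi
  have h3 := h.ypos i hi
  have h4 : (282 / 1000 * Real.sqrt (y i)) ^ 2 ≤ p i ^ 2 := by
    rw [mul_pow, Real.sq_sqrt h3.le]
    nlinarith [pi_lt_s, mul_pos h2 h2]
  exact (pow_le_pow_iff_left₀ (by positivity) h2.le two_ne_zero).mp h4

theorem Dat.r1 (h : Dat k y p) {i : ℕ} (hi : i < k) : Real.sqrt (y i) ≤ 1 := by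
  rw [Real.sqrt_le_one]
  exact h.yone i hi

theorem Dat.sq (h : Dat k y p) {i : ℕ} (hi : i < k) : Real.sqrt (y i) ^ 2 = y i :=
  Real.sq_sqrt (h.ypos i hi).le

/-- tail cells: `y ≤ σ p` -/
theorem Dat.tail (h : Dat k y p) {i : ℕ} (hi : i < k) {plow : ℝ} (hp : p i ≤ plow) :
    y i ≤ 125664 / 10000 * plow * p i := by
  have h1 := h.prek i hi
  have h2 := h.ppos i hi
  have h3 : 4 * Real.pi * p i ^ 2 ≤ 125664 / 10000 * p i ^ 2 := by
    nlinarith [pi_lt_s, mul_pos h2 h2]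
  nlinarith [mul_nonneg h2.le (sub_nonneg.2 hp)]

/-- fewer than three big cells -/
theorem Dat.few (h : Dat k y p) (hk : 3 ≤ k) {plow lam beta : ℝ} (hpl : 0 ≤ plow) (hlam : 0 ≤ lam)
    (h2 : p 2 ≤ plow)
    (hline : ∀ i < 2, plow ≤ p i → lam * y i + beta ≤ p i)
    (ht : 0 ≤ 1 - 125664 / 10000 * plow * lam - 125664 / 10000 * plow * beta)
    (hl : 125664 / 10000 * plow * lam ≤ 1)
    (hnum : 125664 / 10000 * plow +
      2 * (1 - 125664 / 10000 * plow * lam - 125664 / 10000 * plow * beta) ≤ 9 / 4) : False := by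
  set σ := 125664 / 10000 * plow with hσ
  have hσ0 : 0 ≤ σ := by positivity
  have h3 : ∀ i < k, 2 ≤ i → y i ≤ σ * p i := fun i hi h2i =>
    h.tail hi ((h.anti 2 i h2i hi).trans h2)
  have h4 : ∀ i < 2, y i - σ * p i ≤ 1 - σ * lam - σ * beta := by
    intro i hi
    have hik : i < k := by omega
    by_cases hp : plow ≤ p i
    · have h5 := hline i hi hp
      have h6 := h.yone i hik
      have h7 : σ * (lam * y i + beta) ≤ σ * p i := mul_le_mul_of_nonneg_left h5 hσ0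
      nlinarith [mul_nonneg (sub_nonneg.2 hl) (sub_nonneg.2 h6)]
    · push Not at hp
      have h5 : y i ≤ σ * p i := h.tail hik hp.le
      linarith
  have h5 : ∑ i ∈ range k, (y i - σ * p i) ≤ 2 * (1 - σ * lam - σ * beta) := by
    rw [sum_split (fun i => y i - σ * p i) (N := 2) (by omega)]
    have h6 : ∑ i ∈ Ico 2 k, (y i - σ * p i) ≤ 0 := by
      apply sum_nonpos
      intro i hi
      rw [mem_Ico] at hi
      have := h3 i hi.2 hi.1
      linarith
    have h7 : ∑ i ∈ range 2, (y i - σ * p i) ≤ ∑ i ∈ range 2, (1 - σ * lam - σ * beta) :=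
      sum_le_sum (fun i hi => h4 i (mem_range.mp hi))
    rw [sum_const, card_range, nsmul_eq_mul] at h7
    push_cast at h7
    linarith
  rw [sum_sub_distrib, ← mul_sum, h.psum] at h5
  have := h.ysum
  linarith

/-- many big cells -/
theorem Dat.many (h : Dat k y p) {M : ℕ} (hM : M ≤ k) {lam beta : ℝ} (hlam : 0 < lam)
    (hline : ∀ i < M, lam * y i + beta ≤ p i) (htail : ∀ i < k, M ≤ i → lam * y i ≤ p i)
    (hnum : 1 ≤ 9 / 4 * lam + M * beta) : False := by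
  have h1 : (M : ℝ) * beta ≤ ∑ i ∈ range k, (p i - lam * y i) := by
    rw [sum_split (fun i => p i - lam * y i) hM]
    have h6 : 0 ≤ ∑ i ∈ Ico M k, (p i - lam * y i) := by
      apply sum_nonneg
      intro i hi
      rw [mem_Ico] at hi
      have := htail i hi.2 hi.1
      linarith
    have h7 : ∑ i ∈ range M, beta ≤ ∑ i ∈ range M, (p i - lam * y i) :=
      sum_le_sum (fun i hi => by have := hline i (mem_range.mp hi); linarith)
    rw [sum_const, card_range, nsmul_eq_mul] at h7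
    linarith
  rw [sum_sub_distrib, ← mul_sum, h.psum] at h1
  have h2 := h.ysum
  nlinarith [mul_lt_mul_of_pos_left h2 hlam]

/-- the linear relations for `N` big cells -/
theorem Dat.core (h : Dat k y p) {N : ℕ} (hNk : N ≤ k) {lam beta plow : ℝ}
    (hlam : 0 ≤ lam) (hline : ∀ i < N, lam * y i + beta ≤ p i)
    (htail : ∀ i < k, N ≤ i → p i ≤ plow) {a b c : ℕ} (ha : a < N) (hb : b < N) (hc : c < N)
    (hab : a ≠ b) (hac : a ≠ c) (hbc : b ≠ c)
    (hrest : ∀ i < N, i ≠ a → i ≠ b → i ≠ c → y i ≤ y c) :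
    9 / 4 - ∑ i ∈ Ico N k, y i ≤ y a + y b + ((N : ℝ) - 2) * y c ∧
    0 ≤ ∑ i ∈ Ico N k, y i ∧ 0 ≤ ∑ i ∈ Ico N k, p i ∧
    ∑ i ∈ Ico N k, y i ≤ 125664 / 10000 * plow * ∑ i ∈ Ico N k, p i ∧
    p a - lam * y a - beta + ∑ i ∈ Ico N k, p i - lam * ∑ i ∈ Ico N k, y i ≤
      1 - 9 / 4 * lam - N * beta := by
  refine ⟨?_, ?_, ?_, ?_, ?_⟩
  · have h1 := sum_le_three (f := y) ha hb hc hab hac hbc hrest
    have h2 := h.ysum
    rw [sum_split y hNk] at h2
    linarith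
  · exact sum_nonneg (fun i hi => (h.ypos i (mem_Ico.mp hi).2).le)
  · exact sum_nonneg (fun i hi => (h.ppos i (mem_Ico.mp hi).2).le)
  · rw [mul_sum]
    exact sum_le_sum (fun i hi => h.tail (mem_Ico.mp hi).2
      (htail i (mem_Ico.mp hi).2 (mem_Ico.mp hi).1))
  · have h1 : p a - lam * y a - beta ≤ ∑ i ∈ range N, (p i - lam * y i - beta) :=
      single_le_sum (f := fun i => p i - lam * y i - beta)
        (fun i hi => by have := hline i (mem_range.mp hi); linarith)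
        (mem_range.mpr ha)
    rw [sum_sub_distrib, sum_sub_distrib, sum_const, card_range, nsmul_eq_mul, ← mul_sum] at h1
    have h2 := h.ysum
    have h3 := h.psum
    rw [sum_split y hNk] at h2
    rw [sum_split p hNk] at h3
    have h4 : lam * (9 / 4) ≤ lam * (∑ i ∈ range N, y i + ∑ i ∈ Ico N k, y i) :=
      mul_le_mul_of_nonneg_left h2.le hlam
    linarith

/-- transfer of the scale to all levels `m ≥ N` -/
theorem Dat.pf (h : Dat k y p) {N : ℕ} (h3 : 3 ≤ N) {a b c : ℕ} (ha : a < N)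
    (hb : b < N) (hc : c < N) (hab : a ≠ b) (hac : a ≠ c) (hbc : b ≠ c) (hcb : y c ≤ y b)
    (hba : y b ≤ y a) {s : ℝ} (hs : 0 ≤ s)
    (hf : s ^ 2 ≤ f3 (y a) (y b) (y c - ∑ i ∈ Ico N k, y i)) {m : ℕ} (hm : N ≤ m) (hmk : m < k) :
    PF k p s m := by
  refine h.pform m a b c (h3.trans hm) hmk (ha.trans_le hm) (hb.trans_le hm) (hc.trans_le hm)
    hab hac hbc (hcb.trans hba) hcb s hs (hf.trans ?_)
  have h1 : ∑ i ∈ Ico m k, y i ≤ ∑ i ∈ Ico N k, y i :=
    sum_le_sum_of_subset_of_nonneg (Ico_subset_Ico hm le_rfl)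
      (fun i hi _ => (h.ypos i (mem_Ico.mp hi).2).le)
  have h2 : 0 ≤ ∑ i ∈ Ico m k, y i :=
    sum_nonneg (fun i hi => (h.ypos i (mem_Ico.mp hi).2).le)
  exact f3_anti (h.ypos a (ha.trans_le (hm.trans hmk.le))).le hcb h2 h1

/-- single deletion in the form `e ≤ p l` -/
theorem dstep {K F yl pl e m : ℝ} (hK : 0 < K) (hpl : 0 < pl)
    (hsingle : 9 * Real.pi ^ 2 / (4 * K ^ 4) * F ≤ yl) (hprek : yl ≤ 4 * Real.pi * pl ^ 2)
    (he : 0 ≤ e) (hm0 : 0 < m) (hm : yl ≤ 125664 / 10000 * e ^ 2 → m ≤ F)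
    (hnum : 16 * K ^ 4 * e ^ 2 ≤ 9 * (31415 / 10000) * m) : e ≤ pl := by
  by_contra hcon
  push Not at hcon
  have hpi := Real.pi_pos
  have h1 : pl ^ 2 < e ^ 2 := by nlinarith
  have h2 : yl ≤ 125664 / 10000 * e ^ 2 := by
    nlinarith [pi_lt_s, mul_pos hpl hpl]
  have h3 := hm h2
  have h4 : 9 * Real.pi ^ 2 / (4 * K ^ 4) * m ≤ 4 * Real.pi * pl ^ 2 := by
    have : 9 * Real.pi ^ 2 / (4 * K ^ 4) * m ≤ 9 * Real.pi ^ 2 / (4 * K ^ 4) * F :=
      mul_le_mul_of_nonneg_left h3 (by positivity)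
    linarith
  rw [div_mul_eq_mul_div, div_le_iff₀ (by positivity)] at h4
  have h5 : 9 * Real.pi * m ≤ 16 * K ^ 4 * pl ^ 2 := by
    have : Real.pi * (9 * Real.pi * m) ≤ Real.pi * (16 * K ^ 4 * pl ^ 2) := by nlinarith
    exact le_of_mul_le_mul_left this hpi
  have h6 : 16 * K ^ 4 * pl ^ 2 < 16 * K ^ 4 * e ^ 2 :=
    mul_lt_mul_of_pos_left h1 (by positivity)
  nlinarith [pi_gt_s]


theorem Dat.dlow (h : Dat k y p) {N : ℕ} {a b c : ℕ} (hNk : N ≤ k) (ha : a < N)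
    (hb : b < N) (hc : c < N) (hab : a ≠ b) (hac : a ≠ c) (hbc : b ≠ c) (hcb : y c ≤ y b)
    (hba : y b ≤ y a) {s : ℝ} (hs : 0 ≤ s)
    (hf : s ^ 2 ≤ f3 (y a) (y b) (y c - ∑ i ∈ Ico N k, y i)) {l : ℕ} (hl : N ≤ l) (hlk : l < k)
    {e : ℝ} (he : 0 ≤ e) (hnum : 16 * (k : ℝ) ^ 4 * e ^ 2 ≤ 9 * (31415 / 10000)) :
    e * s ≤ p l := by
  have hyl := h.ypos l hlk
  have hyS : y l ≤ ∑ i ∈ Ico N k, y i :=
    single_le_sum (f := y) (fun i hi => (h.ypos i (mem_Ico.mp hi).2).le) (mem_Ico.mpr ⟨hl, hlk⟩)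
  have h1 : s ^ 2 ≤ f3 (y a) (y b) (y c - y l) :=
    hf.trans (f3_anti (h.ypos a (ha.trans_le hNk)).le hcb hyl.le hyS)
  have h2 := h.single l a b c hlk (ha.trans_le hNk) (hb.trans_le hNk) (hc.trans_le hNk)
    (by omega) (by omega) (by omega) hab hac hbc (hcb.trans hba) hcb
  rcases eq_or_lt_of_le hs with h0 | h0
  · rw [← h0, mul_zero]; exact (h.ppos l hlk).le
  · have hk0 : (0 : ℝ) < k := by
      have : 0 < k := by omega
      exact_mod_cast this
    refine dstep (m := s ^ 2) hk0 (h.ppos l hlk) h2 (h.prek l hlk) (by positivity) (by positivity)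
      (fun _ => h1) ?_
    rw [mul_pow]
    nlinarith [mul_le_mul_of_nonneg_right hnum (sq_nonneg s)]

end Vale.Agent.P226
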