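import Mathlib
import Vale.Agent.P226.Full.NoDatA
import Vale.Agent.P226.Full.ChainX
import Vale.Agent.P226.Full.JensenX

/-! numeric endgame. Generated. -/

open Finset

namespace Vale.Agent.P226

theorem no_dat7 {k : ℕ} (hk : k = 7 ∨ k = 8) {y p : ℕ → ℝ} (h : Dat k y p)
    (hc : ∀ i < k, Cap7 (Real.sqrt (y i)) (p i)) : False := by
  have hl3 : ∀ i < k, 101 / 2000 ≤ p i → 4169 / 10000 * y i + (-49 / 5000) ≤ p i := by
    intro i hi hp
    have := T7_line3 (Real.sqrt_nonneg _) (h.r1 hi) (h.hk hi) hp (hc i hi)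
    rwa [h.sq hi] at this
  have hl4 : ∀ i < k, 101 / 2000 ≤ p i → 689 / 2000 * y i + 39 / 1000 ≤ p i := by
    intro i hi hp
    have := T7_line4 (Real.sqrt_nonneg _) (h.r1 hi) (h.hk hi) hp (hc i hi)
    rwa [h.sq hi] at this
  rcases lt_or_ge (p 2) (101 / 2000) with h2 | h2
  · exact h.few (by omega) (plow := 101 / 2000) (lam := 689 / 2000) (beta := 39 / 1000) (by norm_num)
      (by norm_num) h2.le (fun i hi hp => hl4 i (by omega) hp) (by norm_num) (by norm_num) (by norm_num)
  rcases lt_or_ge (p 3) (101 / 2000) with h3 | h3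
  · obtain ⟨a, b, c, ha, hb, hc', hab, hac, hbc, hcb, hba, hrest⟩ := top3 (N := 3) (by norm_num) y
    have hbig : ∀ i < 3, 101 / 2000 ≤ p i := fun i hi => h2.trans (h.anti i 2 (by omega) (by omega))
    have htail : ∀ i < k, 3 ≤ i → p i ≤ 101 / 2000 := fun i hi hi3 => (h.anti 3 i hi3 hi).trans h3.le
    have hak : a < k := by omega
    have hck : c < k := by omega
    obtain ⟨e1, e2, e3, e4, e5⟩ := h.core (N := 3) (by omega) (lam := 4169 / 10000) (beta := -49 / 5000)
      (by norm_num) (fun i hi => hl3 i (by omega) (hbig i hi)) htail ha hb hc' hab hac hbc hrest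
    push_cast at e1 e5
    have hla := hl3 a hak (hbig a ha)
    refine fin7_3 (ra := Real.sqrt (y a)) (pa := p a) (yb := y b) (yc := y c)
      (S := ∑ i ∈ Ico 3 k, y i) (P := ∑ i ∈ Ico 3 k, p i) (Real.sqrt_nonneg _) (h.r1 hak)
      (h.hk hak) (hc a hak) hcb (by rw [h.sq hak]; exact hba) (h.ypos c hck).le
      (by rw [h.sq hak]; linarith) e2 e3 e4 (by rw [h.sq hak]; exact hla)
      (by rw [h.sq hak]; linarith) ?_
    intro s hs hf
    rw [h.sq hak] at hf
    have hPF : ∀ m, 3 ≤ m → m < k → PF k p s m := fun m hm hmk =>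
      h.pf (by norm_num) ha hb hc' hab hac hbc hcb hba hs hf hm hmk
    have hD : k = 7 → ∀ i < k, 3 ≤ i → 271 / 10000 * s ≤ p i := by
      intro hk7 i hi hi3
      exact h.dlow (by omega) ha hb hc' hab hac hbc hcb hba hs hf hi3 hi (by norm_num)
        (by rw [hk7]; norm_num)
    rcases hk with rfl | rfl
    · have hch := chain7_3' h.ppos h.anti hs (hD rfl) (fun m hm hm4 => hPF m hm (by omega))
      linarith
    · have hch := chain8_3' h.ppos h.anti hs (fun m hm hm4 => hPF m hm (by omega))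
      linarith
  rcases lt_or_ge (p 4) (101 / 2000) with h4 | h4
  · obtain ⟨a, b, c, ha, hb, hc', hab, hac, hbc, hcb, hba, hrest⟩ := top3 (N := 4) (by norm_num) y
    have hbig : ∀ i < 4, 101 / 2000 ≤ p i := fun i hi => h3.trans (h.anti i 3 (by omega) (by omega))
    have htail : ∀ i < k, 4 ≤ i → p i ≤ 101 / 2000 := fun i hi hi3 => (h.anti 4 i hi3 hi).trans h4.le
    have hak : a < k := by omega
    have hck : c < k := by omega
    obtain ⟨e1, e2, e3, e4, e5⟩ := h.core (N := 4) (by omega) (lam := 689 / 2000) (beta := 39 / 1000)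
      (by norm_num) (fun i hi => hl4 i (by omega) (hbig i hi)) htail ha hb hc' hab hac hbc hrest
    push_cast at e1 e5
    have hla := hl4 a hak (hbig a ha)
    refine fin7_4 (ra := Real.sqrt (y a)) (pa := p a) (yb := y b) (yc := y c)
      (S := ∑ i ∈ Ico 4 k, y i) (P := ∑ i ∈ Ico 4 k, p i) (Real.sqrt_nonneg _) (h.r1 hak)
      (h.hk hak) (hc a hak) hcb (by rw [h.sq hak]; exact hba) (h.ypos c hck).le
      (by rw [h.sq hak]; linarith) e2 e3 e4 (by rw [h.sq hak]; exact hla)
      (by rw [h.sq hak]; linarith) ?_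
    intro s hs hf
    rw [h.sq hak] at hf
    have hPF : ∀ m, 4 ≤ m → m < k → PF k p s m := fun m hm hmk =>
      h.pf (by norm_num) ha hb hc' hab hac hbc hcb hba hs hf hm hmk
    have hD : k = 7 → ∀ i < k, 4 ≤ i → 271 / 10000 * s ≤ p i := by
      intro hk7 i hi hi3
      exact h.dlow (by omega) ha hb hc' hab hac hbc hcb hba hs hf hi3 hi (by norm_num)
        (by rw [hk7]; norm_num)
    rcases hk with rfl | rfl
    · have hch := chain7_4' h.ppos h.anti hs (hD rfl) (hPF 4 le_rfl (by omega))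
      linarith
    · have hch := chain8_4' h.ppos h.anti hs (fun m hm hm4 => hPF m hm (by omega))
      linarith
  rcases lt_or_ge (p 5) (101 / 2000) with h5 | h5
  · obtain ⟨a, b, c, ha, hb, hc', hab, hac, hbc, hcb, hba, hrest⟩ := top3 (N := 5) (by norm_num) y
    have hbig : ∀ i < 5, 101 / 2000 ≤ p i := fun i hi => h4.trans (h.anti i 4 (by omega) (by omega))
    have htail : ∀ i < k, 5 ≤ i → p i ≤ 101 / 2000 := fun i hi hi3 => (h.anti 5 i hi3 hi).trans h5.le
    have hak : a < k := by omega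
    have hck : c < k := by omega
    obtain ⟨e1, e2, e3, e4, e5⟩ := h.core (N := 5) (by omega) (lam := 689 / 2000) (beta := 39 / 1000)
      (by norm_num) (fun i hi => hl4 i (by omega) (hbig i hi)) htail ha hb hc' hab hac hbc hrest
    push_cast at e1 e5
    have hla := hl4 a hak (hbig a ha)
    refine fin7_5 (ra := Real.sqrt (y a)) (pa := p a) (yb := y b) (yc := y c)
      (S := ∑ i ∈ Ico 5 k, y i) (P := ∑ i ∈ Ico 5 k, p i) (Real.sqrt_nonneg _) (h.r1 hak)
      (h.hk hak) (hc a hak) hcb (by rw [h.sq hak]; exact hba) (h.ypos c hck).le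
      (by rw [h.sq hak]; linarith) e2 e3 e4 (by rw [h.sq hak]; exact hla)
      (by rw [h.sq hak]; linarith) ?_
    intro s hs hf
    rw [h.sq hak] at hf
    have hPF : ∀ m, 5 ≤ m → m < k → PF k p s m := fun m hm hmk =>
      h.pf (by norm_num) ha hb hc' hab hac hbc hcb hba hs hf hm hmk
    have hD : k = 7 → ∀ i < k, 5 ≤ i → 271 / 10000 * s ≤ p i := by
      intro hk7 i hi hi3
      exact h.dlow (by omega) ha hb hc' hab hac hbc hcb hba hs hf hi3 hi (by norm_num)
        (by rw [hk7]; norm_num)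
    rcases hk with rfl | rfl
    · have hch := chain7_5' hs (hD rfl)
      linarith
    · have hch := chain8_5' h.ppos h.anti hs (fun m hm hm4 => hPF m hm (by omega))
      linarith
  refine h.many (M := 6) (by omega) (lam := 689 / 2000) (beta := 39 / 1000) (by norm_num)
    (fun i hi => hl4 i (by omega) (h5.trans (h.anti i 5 (by omega) (by omega)))) ?_ (by norm_num)
  intro i hi _
  rcases lt_or_ge (p i) (101 / 2000) with hp | hp
  · have h5 := h.tail hi hp.le
    have h6 := h.ppos i hi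
    linarith
  · have h5 := hl4 i hi hp
    linarith

theorem no_dat9 {k : ℕ} (hk : k = 9 ∨ k = 10) {y p : ℕ → ℝ} (h : Dat k y p)
    (hc : ∀ i < k, Cap9 (Real.sqrt (y i)) (p i)) : False := by
  have hk9 : 9 ≤ k := by omega
  have hl3 : ∀ i < k, 121 / 2000 ≤ p i → 21 / 50 * y i + (-7 / 500) ≤ p i := by
    intro i hi hp
    have := T9_line3 (Real.sqrt_nonneg _) (h.r1 hi) (h.hk hi) hp (hc i hi)
    rwa [h.sq hi] at this
  have hl4 : ∀ i < k, 121 / 2000 ≤ p i → 173 / 500 * y i + 359 / 10000 ≤ p i := by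
    intro i hi hp
    have := T9_line4 (Real.sqrt_nonneg _) (h.r1 hi) (h.hk hi) hp (hc i hi)
    rwa [h.sq hi] at this
  have hl5 : ∀ i < k, 121 / 2000 ≤ p i → 1653 / 5000 * y i + 219 / 5000 ≤ p i := by
    intro i hi hp
    have := T9_line5 (Real.sqrt_nonneg _) (h.r1 hi) (h.hk hi) hp (hc i hi)
    rwa [h.sq hi] at this
  rcases lt_or_ge (p 2) (121 / 2000) with h2 | h2
  · exact h.few (by omega) (plow := 121 / 2000) (lam := 173 / 500) (beta := 359 / 10000) (by norm_num)
      (by norm_num) h2.le (fun i hi hp => hl4 i (by omega) hp) (by norm_num) (by norm_num) (by norm_num)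
  rcases lt_or_ge (p 3) (121 / 2000) with h3 | h3
  · obtain ⟨a, b, c, ha, hb, hc', hab, hac, hbc, hcb, hba, hrest⟩ := top3 (N := 3) (by norm_num) y
    have hbig : ∀ i < 3, 121 / 2000 ≤ p i := fun i hi => h2.trans (h.anti i 2 (by omega) (by omega))
    have htail : ∀ i < k, 3 ≤ i → p i ≤ 121 / 2000 := fun i hi hi3 => (h.anti 3 i hi3 hi).trans h3.le
    have hak : a < k := by omega
    have hck : c < k := by omega
    obtain ⟨e1, e2, e3, e4, e5⟩ := h.core (N := 3) (by omega) (lam := 21 / 50) (beta := -7 / 500)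
      (by norm_num) (fun i hi => hl3 i (by omega) (hbig i hi)) htail ha hb hc' hab hac hbc hrest
    push_cast at e1 e5
    have hla := hl3 a hak (hbig a ha)
    refine fin9_3 (ra := Real.sqrt (y a)) (pa := p a) (yb := y b) (yc := y c)
      (S := ∑ i ∈ Ico 3 k, y i) (P := ∑ i ∈ Ico 3 k, p i) (Real.sqrt_nonneg _) (h.r1 hak)
      (h.hk hak) (hc a hak) hcb (by rw [h.sq hak]; exact hba) (h.ypos c hck).le
      (by rw [h.sq hak]; linarith) e2 e3 e4 (by rw [h.sq hak]; exact hla)
      (by rw [h.sq hak]; linarith) ?_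
    intro s hs hf
    rw [h.sq hak] at hf
    have hPF : ∀ m, 3 ≤ m → m < k → PF k p s m := fun m hm hmk =>
      h.pf (by norm_num) ha hb hc' hab hac hbc hcb hba hs hf hm hmk
    have hch := chain9_3' hk9 h.ppos h.anti hs (fun m hm hm4 => hPF m hm (by omega))
    linarith
  rcases lt_or_ge (p 4) (121 / 2000) with h4 | h4
  · obtain ⟨a, b, c, ha, hb, hc', hab, hac, hbc, hcb, hba, hrest⟩ := top3 (N := 4) (by norm_num) y
    have hbig : ∀ i < 4, 121 / 2000 ≤ p i := fun i hi => h3.trans (h.anti i 3 (by omega) (by omega))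
    have htail : ∀ i < k, 4 ≤ i → p i ≤ 121 / 2000 := fun i hi hi3 => (h.anti 4 i hi3 hi).trans h4.le
    have hak : a < k := by omega
    have hck : c < k := by omega
    obtain ⟨e1, e2, e3, e4, e5⟩ := h.core (N := 4) (by omega) (lam := 173 / 500) (beta := 359 / 10000)
      (by norm_num) (fun i hi => hl4 i (by omega) (hbig i hi)) htail ha hb hc' hab hac hbc hrest
    push_cast at e1 e5
    have hla := hl4 a hak (hbig a ha)
    refine fin9_4 (ra := Real.sqrt (y a)) (pa := p a) (yb := y b) (yc := y c)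
      (S := ∑ i ∈ Ico 4 k, y i) (P := ∑ i ∈ Ico 4 k, p i) (Real.sqrt_nonneg _) (h.r1 hak)
      (h.hk hak) (hc a hak) hcb (by rw [h.sq hak]; exact hba) (h.ypos c hck).le
      (by rw [h.sq hak]; linarith) e2 e3 e4 (by rw [h.sq hak]; exact hla)
      (by rw [h.sq hak]; linarith) ?_
    intro s hs hf
    rw [h.sq hak] at hf
    have hPF : ∀ m, 4 ≤ m → m < k → PF k p s m := fun m hm hmk =>
      h.pf (by norm_num) ha hb hc' hab hac hbc hcb hba hs hf hm hmk
    have hch := chain9_4' hk9 h.ppos h.anti hs (fun m hm hm4 => hPF m hm (by omega))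
    linarith
  rcases lt_or_ge (p 5) (121 / 2000) with h5 | h5
  · obtain ⟨a, b, c, ha, hb, hc', hab, hac, hbc, hcb, hba, hrest⟩ := top3 (N := 5) (by norm_num) y
    have hbig : ∀ i < 5, 121 / 2000 ≤ p i := fun i hi => h4.trans (h.anti i 4 (by omega) (by omega))
    have htail : ∀ i < k, 5 ≤ i → p i ≤ 121 / 2000 := fun i hi hi3 => (h.anti 5 i hi3 hi).trans h5.le
    have hak : a < k := by omega
    have hck : c < k := by omega
    obtain ⟨e1, e2, e3, e4, e5⟩ := h.core (N := 5) (by omega) (lam := 1653 / 5000) (beta := 219 / 5000)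
      (by norm_num) (fun i hi => hl5 i (by omega) (hbig i hi)) htail ha hb hc' hab hac hbc hrest
    push_cast at e1 e5
    have hla := hl5 a hak (hbig a ha)
    refine fin9_5 (ra := Real.sqrt (y a)) (pa := p a) (yb := y b) (yc := y c)
      (S := ∑ i ∈ Ico 5 k, y i) (P := ∑ i ∈ Ico 5 k, p i) (Real.sqrt_nonneg _) (h.r1 hak)
      (h.hk hak) (hc a hak) hcb (by rw [h.sq hak]; exact hba) (h.ypos c hck).le
      (by rw [h.sq hak]; linarith) e2 e3 e4 (by rw [h.sq hak]; exact hla)
      (by rw [h.sq hak]; linarith) ?_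
    intro s hs hf
    rw [h.sq hak] at hf
    have hPF : ∀ m, 5 ≤ m → m < k → PF k p s m := fun m hm hmk =>
      h.pf (by norm_num) ha hb hc' hab hac hbc hcb hba hs hf hm hmk
    have hch := chain9_5' hk9 h.ppos h.anti hs (fun m hm hm4 => hPF m hm (by omega))
    linarith
  refine h.many (M := 6) (by omega) (lam := 1653 / 5000) (beta := 219 / 5000) (by norm_num)
    (fun i hi => hl5 i (by omega) (h5.trans (h.anti i 5 (by omega) (by omega)))) ?_ (by norm_num)
  intro i hi _
  rcases lt_or_ge (p i) (121 / 2000) with hp | hp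
  · have h5 := h.tail hi hp.le
    have h6 := h.ppos i hi
    linarith
  · have h5 := hl5 i hi hp
    linarith

theorem no_dat11 {k : ℕ} (hk : 11 ≤ k) {y p : ℕ → ℝ} (h : Dat k y p)
    (hc : ∀ i < k, CapH (Real.sqrt (y i)) (p i)) : False := by
  have hl3 : ∀ i < k, 47 / 1000 ≤ p i → 2147 / 5000 * y i + (-67 / 2500) ≤ p i := by
    intro i hi hp
    have := TH_line3 (Real.sqrt_nonneg _) (h.r1 hi) (h.hk hi) hp (hc i hi)
    rwa [h.sq hi] at this
  have hl4 : ∀ i < k, 47 / 1000 ≤ p i → 1753 / 5000 * y i + 263 / 10000 ≤ p i := by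
    intro i hi hp
    have := TH_line4 (Real.sqrt_nonneg _) (h.r1 hi) (h.hk hi) hp (hc i hi)
    rwa [h.sq hi] at this
  have hl5 : ∀ i < k, 47 / 1000 ≤ p i → 208 / 625 * y i + 71 / 2000 ≤ p i := by
    intro i hi hp
    have := TH_line5 (Real.sqrt_nonneg _) (h.r1 hi) (h.hk hi) hp (hc i hi)
    rwa [h.sq hi] at this
  have hl6 : ∀ i < k, 47 / 1000 ≤ p i → 3289 / 10000 * y i + 93 / 2500 ≤ p i := by
    intro i hi hp
    have := TH_line6 (Real.sqrt_nonneg _) (h.r1 hi) (h.hk hi) hp (hc i hi)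
    rwa [h.sq hi] at this
  rcases lt_or_ge (p 2) (47 / 1000) with h2 | h2
  · exact h.few (by omega) (plow := 47 / 1000) (lam := 1753 / 5000) (beta := 263 / 10000) (by norm_num)
      (by norm_num) h2.le (fun i hi hp => hl4 i (by omega) hp) (by norm_num) (by norm_num) (by norm_num)
  rcases lt_or_ge (p 3) (47 / 1000) with h3 | h3
  · obtain ⟨a, b, c, ha, hb, hc', hab, hac, hbc, hcb, hba, hrest⟩ := top3 (N := 3) (by norm_num) y
    have hbig : ∀ i < 3, 47 / 1000 ≤ p i := fun i hi => h2.trans (h.anti i 2 (by omega) (by omega))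
    have htail : ∀ i < k, 3 ≤ i → p i ≤ 47 / 1000 := fun i hi hi3 => (h.anti 3 i hi3 hi).trans h3.le
    have hak : a < k := by omega
    have hck : c < k := by omega
    obtain ⟨e1, e2, e3, e4, e5⟩ := h.core (N := 3) (by omega) (lam := 2147 / 5000) (beta := -67 / 2500)
      (by norm_num) (fun i hi => hl3 i (by omega) (hbig i hi)) htail ha hb hc' hab hac hbc hrest
    push_cast at e1 e5
    have hla := hl3 a hak (hbig a ha)
    refine finH_3 (ra := Real.sqrt (y a)) (pa := p a) (yb := y b) (yc := y c)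
      (S := ∑ i ∈ Ico 3 k, y i) (P := ∑ i ∈ Ico 3 k, p i) (Real.sqrt_nonneg _) (h.r1 hak)
      (h.hk hak) (hc a hak) hcb (by rw [h.sq hak]; exact hba) (h.ypos c hck).le
      (by rw [h.sq hak]; linarith) e2 e3 e4 (by rw [h.sq hak]; exact hla)
      (by rw [h.sq hak]; linarith) ?_
    intro s hs hf
    rw [h.sq hak] at hf
    have hPF : ∀ m, 3 ≤ m → m < k → PF k p s m := fun m hm hmk =>
      h.pf (by norm_num) ha hb hc' hab hac hbc hcb hba hs hf hm hmk
    have hch := chain11_3' hk h.ppos h.anti hs (fun m hm hm4 => hPF m hm (by omega))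
    linarith
  rcases lt_or_ge (p 4) (47 / 1000) with h4 | h4
  · obtain ⟨a, b, c, ha, hb, hc', hab, hac, hbc, hcb, hba, hrest⟩ := top3 (N := 4) (by norm_num) y
    have hbig : ∀ i < 4, 47 / 1000 ≤ p i := fun i hi => h3.trans (h.anti i 3 (by omega) (by omega))
    have htail : ∀ i < k, 4 ≤ i → p i ≤ 47 / 1000 := fun i hi hi3 => (h.anti 4 i hi3 hi).trans h4.le
    have hak : a < k := by omega
    have hck : c < k := by omega
    obtain ⟨e1, e2, e3, e4, e5⟩ := h.core (N := 4) (by omega) (lam := 1753 / 5000) (beta := 263 / 10000)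
      (by norm_num) (fun i hi => hl4 i (by omega) (hbig i hi)) htail ha hb hc' hab hac hbc hrest
    push_cast at e1 e5
    have hla := hl4 a hak (hbig a ha)
    refine finH_4 (ra := Real.sqrt (y a)) (pa := p a) (yb := y b) (yc := y c)
      (S := ∑ i ∈ Ico 4 k, y i) (P := ∑ i ∈ Ico 4 k, p i) (Real.sqrt_nonneg _) (h.r1 hak)
      (h.hk hak) (hc a hak) hcb (by rw [h.sq hak]; exact hba) (h.ypos c hck).le
      (by rw [h.sq hak]; linarith) e2 e3 e4 (by rw [h.sq hak]; exact hla)
      (by rw [h.sq hak]; linarith) ?_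
    intro s hs hf
    rw [h.sq hak] at hf
    have hPF : ∀ m, 4 ≤ m → m < k → PF k p s m := fun m hm hmk =>
      h.pf (by norm_num) ha hb hc' hab hac hbc hcb hba hs hf hm hmk
    have hch := chain11_4' hk h.ppos h.anti hs (fun m hm hm4 => hPF m hm (by omega))
    linarith
  rcases lt_or_ge (p 5) (47 / 1000) with h5 | h5
  · obtain ⟨a, b, c, ha, hb, hc', hab, hac, hbc, hcb, hba, hrest⟩ := top3 (N := 5) (by norm_num) y
    have hbig : ∀ i < 5, 47 / 1000 ≤ p i := fun i hi => h4.trans (h.anti i 4 (by omega) (by omega))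
    have htail : ∀ i < k, 5 ≤ i → p i ≤ 47 / 1000 := fun i hi hi3 => (h.anti 5 i hi3 hi).trans h5.le
    have hak : a < k := by omega
    have hck : c < k := by omega
    obtain ⟨e1, e2, e3, e4, e5⟩ := h.core (N := 5) (by omega) (lam := 208 / 625) (beta := 71 / 2000)
      (by norm_num) (fun i hi => hl5 i (by omega) (hbig i hi)) htail ha hb hc' hab hac hbc hrest
    push_cast at e1 e5
    have hla := hl5 a hak (hbig a ha)
    refine finH_5 (ra := Real.sqrt (y a)) (pa := p a) (yb := y b) (yc := y c)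
      (S := ∑ i ∈ Ico 5 k, y i) (P := ∑ i ∈ Ico 5 k, p i) (Real.sqrt_nonneg _) (h.r1 hak)
      (h.hk hak) (hc a hak) hcb (by rw [h.sq hak]; exact hba) (h.ypos c hck).le
      (by rw [h.sq hak]; linarith) e2 e3 e4 (by rw [h.sq hak]; exact hla)
      (by rw [h.sq hak]; linarith) ?_
    intro s hs hf
    rw [h.sq hak] at hf
    have hPF : ∀ m, 5 ≤ m → m < k → PF k p s m := fun m hm hmk =>
      h.pf (by norm_num) ha hb hc' hab hac hbc hcb hba hs hf hm hmk
    have hch := chain11_5' hk h.ppos h.anti hs (fun m hm hm4 => hPF m hm (by omega))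
    linarith
  rcases lt_or_ge (p 6) (47 / 1000) with h6 | h6
  · obtain ⟨a, b, c, ha, hb, hc', hab, hac, hbc, hcb, hba, hrest⟩ := top3 (N := 6) (by norm_num) y
    have hbig : ∀ i < 6, 47 / 1000 ≤ p i := fun i hi => h5.trans (h.anti i 5 (by omega) (by omega))
    have htail : ∀ i < k, 6 ≤ i → p i ≤ 47 / 1000 := fun i hi hi3 => (h.anti 6 i hi3 hi).trans h6.le
    have hak : a < k := by omega
    have hck : c < k := by omega
    obtain ⟨e1, e2, e3, e4, e5⟩ := h.core (N := 6) (by omega) (lam := 3289 / 10000) (beta := 93 / 2500)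
      (by norm_num) (fun i hi => hl6 i (by omega) (hbig i hi)) htail ha hb hc' hab hac hbc hrest
    push_cast at e1 e5
    have hla := hl6 a hak (hbig a ha)
    refine finH_6 (ra := Real.sqrt (y a)) (pa := p a) (yb := y b) (yc := y c)
      (S := ∑ i ∈ Ico 6 k, y i) (P := ∑ i ∈ Ico 6 k, p i) (Real.sqrt_nonneg _) (h.r1 hak)
      (h.hk hak) (hc a hak) hcb (by rw [h.sq hak]; exact hba) (h.ypos c hck).le
      (by rw [h.sq hak]; linarith) e2 e3 e4 (by rw [h.sq hak]; exact hla)
      (by rw [h.sq hak]; linarith) ?_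
    intro s hs hf
    rw [h.sq hak] at hf
    have hPF : ∀ m, 6 ≤ m → m < k → PF k p s m := fun m hm hmk =>
      h.pf (by norm_num) ha hb hc' hab hac hbc hcb hba hs hf hm hmk
    have hch := chain11_6' hk h.ppos h.anti hs (fun m hm hm4 => hPF m hm (by omega))
    linarith
  refine h.many (M := 7) (by omega) (lam := 3289 / 10000) (beta := 93 / 2500) (by norm_num)
    (fun i hi => hl6 i (by omega) (h6.trans (h.anti i 6 (by omega) (by omega)))) ?_ (by norm_num)
  intro i hi _
  rcases lt_or_ge (p i) (47 / 1000) with hp | hp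
  · have h5 := h.tail hi hp.le
    have h6 := h.ppos i hi
    linarith
  · have h5 := hl6 i hi hp
    linarith

end Vale.Agent.P226
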