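import Mathlib
import Vale.Agent.P226.Full.NoDatA

/-! D-type numeric contradictions (k = 4, 5, 6). Generated. -/

set_option linter.unusedVariables false

namespace Vale.Agent.P226

theorem T3_finD4_3_x1 {r p : ℝ} (hr0 : 0 ≤ r) (hr1 : r ≤ 1) (hk : 282 / 1000 * r ≤ p)
    (hx : 9 / 10 ≤ r ^ 2) (hc : Cap3 r p) :
    3943 / 10000 * r ^ 2 + 31 / 1000 ≤ p := by
  have h0 : (237 / 250 : ℝ) ≤ r := by nlinarith
  have hcc := hc (21 / 100) (by norm_num) (by norm_num)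
  norm_num at hcc
  nlinarith [mul_nonneg (sub_nonneg.2 h0) (sub_nonneg.2 hr1)]

theorem T3_finD4_3_x2 {r p : ℝ} (hr0 : 0 ≤ r) (hr1 : r ≤ 1) (hk : 282 / 1000 * r ≤ p)
    (hx : 83 / 100 ≤ r ^ 2) (hc : Cap3 r p) :
    3943 / 10000 * r ^ 2 + 117 / 5000 ≤ p := by
  have h0 : (911 / 1000 : ℝ) ≤ r := by nlinarith
  have hcc := hc (29 / 100) (by norm_num) (by norm_num)
  norm_num at hcc
  nlinarith [mul_nonneg (sub_nonneg.2 h0) (sub_nonneg.2 hr1)]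

theorem finD4_3 {ra pa yb yc q1 z1 : ℝ} (hr0 : 0 ≤ ra) (hr1 : ra ≤ 1)
    (hk : 282 / 1000 * ra ≤ pa) (hc : Cap3 ra pa) (hcb : yc ≤ yb) (hba : yb ≤ ra ^ 2)
    (hY : 9 / 4 - (z1) ≤ ra ^ 2 + yb + 1 * yc)
    (hq1 : 0 < q1) (hp1 : q1 ≤ 17 / 200) (hz1 : 0 ≤ z1) (hk1 : z1 ≤ 4 * Real.pi * q1 ^ 2)
    (hs1 : 9 * Real.pi ^ 2 / (4 * (4 : ℝ) ^ 4) * f3 (ra ^ 2) yb (yc - z1) ≤ z1)
    (hline : 3943 / 10000 * ra ^ 2 + 207 / 10000 ≤ pa)
    (hbud : pa - 3943 / 10000 * ra ^ 2 - 207 / 10000 + (q1) - 3943 / 10000 * (z1) ≤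
      1 - 9 / 4 * (3943 / 10000) - 3 * (207 / 10000)) : False := by
  have hra : ra ^ 2 ≤ 1 := pow_le_one₀ hr0 hr1
  have hw1 : z1 ≤ 125664 / 10000 * q1 ^ 2 := by
    have h1 := mul_nonneg (sub_nonneg.2 pi_lt_s.le) (mul_pos hq1 hq1).le
    linarith
  have hm1 : q1 ≤ 17 / 200 := hp1
  have hS0 : z1 ≤ 227 / 2500 := by linarith [mul_nonneg hq1.le (sub_nonneg.2 hm1)]
  have E1_1 : 7 / 125 ≤ q1 := by
    refine dstep (K := 4) (m := 284 / 625) (by norm_num) hq1 hs1 hk1 (by norm_num) (by norm_num)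
      (fun hz => ?_) (by norm_num)
    exact vert3 (Y := 2699 / 1250) (S0 := 384846 / 9765625) hcb hba (by linarith) (by norm_num at hz ⊢; linarith) (by
      have e1 := mul_nonneg (sub_nonneg.2 hra) (sub_nonneg.2 hba)
      have e2 := mul_nonneg (sub_nonneg.2 hra) (show (0:ℝ) ≤ ra ^ 2 + 2 * yb - 2699 / 1250 by linarith)
      have e3 := mul_nonneg (sub_nonneg.2 hba) (show (0:ℝ) ≤ ra ^ 2 + 2 * yb - 2699 / 1250 by linarith)
      unfold f3
      linarith) hz1 (sq_nonneg ra)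
  have C1_1 : 1975651111 / 48828125000 ≤ q1 - 15484161 / 3125000 * q1 ^ 2 := by
    linarith [mul_nonneg (sub_nonneg.2 E1_1) (show (0:ℝ) ≤ 1 - 15484161 / 3125000 * (q1 + 7 / 125) by linarith)]
  have X1 : ra ^ 2 ≤ 9 / 10 := by
    by_contra hcon
    push Not at hcon
    have := T3_finD4_3_x1 hr0 hr1 hk hcon.le hc
    linarith
  have E2_1 : 79 / 1000 ≤ q1 := by
    refine dstep (K := 4) (m := 4521 / 5000) (by norm_num) hq1 hs1 hk1 (by norm_num) (by norm_num)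
      (fun hz => ?_) (by norm_num)
    exact vert3 (Y := 2699 / 1250) (S0 := 24508407 / 312500000) hcb hba (by linarith) (by norm_num at hz ⊢; linarith) (by
      have e1 := mul_nonneg (sub_nonneg.2 X1) (sub_nonneg.2 hba)
      have e2 := mul_nonneg (sub_nonneg.2 X1) (show (0:ℝ) ≤ ra ^ 2 + 2 * yb - 2699 / 1250 by linarith)
      have e3 := mul_nonneg (sub_nonneg.2 hba) (show (0:ℝ) ≤ ra ^ 2 + 2 * yb - 2699 / 1250 by linarith)
      unfold f3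
      linarith) hz1 (sq_nonneg ra)
  have C2_1 : 150238351199 / 3125000000000 ≤ q1 - 15484161 / 3125000 * q1 ^ 2 := by
    linarith [mul_nonneg (sub_nonneg.2 E2_1) (show (0:ℝ) ≤ 1 - 15484161 / 3125000 * (q1 + 79 / 1000) by linarith)]
  have X2 : ra ^ 2 ≤ 83 / 100 := by
    by_contra hcon
    push Not at hcon
    have := T3_finD4_3_x2 hr0 hr1 hk hcon.le hc
    linarith
  have E3_1 : 89 / 1000 ≤ q1 := by
    refine dstep (K := 4) (m := 2869 / 2500) (by norm_num) hq1 hs1 hk1 (by norm_num) (by norm_num)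
      (fun hz => ?_) (by norm_num)
    exact vert3 (Y := 2699 / 1250) (S0 := 31105767 / 312500000) hcb hba (by linarith) (by norm_num at hz ⊢; linarith) (by
      have e1 := mul_nonneg (sub_nonneg.2 X2) (sub_nonneg.2 hba)
      have e2 := mul_nonneg (sub_nonneg.2 X2) (show (0:ℝ) ≤ ra ^ 2 + 2 * yb - 2699 / 1250 by linarith)
      have e3 := mul_nonneg (sub_nonneg.2 hba) (show (0:ℝ) ≤ ra ^ 2 + 2 * yb - 2699 / 1250 by linarith)
      unfold f3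
      linarith) hz1 (sq_nonneg ra)
  linarith

theorem T4_finD5_3_x1 {r p : ℝ} (hr0 : 0 ≤ r) (hr1 : r ≤ 1) (hk : 282 / 1000 * r ≤ p)
    (hx : 23 / 25 ≤ r ^ 2) (hc : Cap4 r p) :
    1013 / 2500 * r ^ 2 + 11 / 625 ≤ p := by
  have h0 : (959 / 1000 : ℝ) ≤ r := by nlinarith
  have hcc := hc.1
  nlinarith [mul_nonneg (sub_nonneg.2 h0) (sub_nonneg.2 hr1)]

theorem finD5_3 {ra pa yb yc q1 q2 z1 z2 : ℝ} (hr0 : 0 ≤ ra) (hr1 : ra ≤ 1)
    (hk : 282 / 1000 * ra ≤ pa) (hc : Cap4 ra pa) (hcb : yc ≤ yb) (hba : yb ≤ ra ^ 2)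
    (hY : 9 / 4 - (z1 + z2) ≤ ra ^ 2 + yb + 1 * yc)
    (hq1 : 0 < q1) (hp1 : q1 ≤ 381 / 5000) (hz1 : 0 ≤ z1) (hk1 : z1 ≤ 4 * Real.pi * q1 ^ 2)
    (hs1 : 9 * Real.pi ^ 2 / (4 * (5 : ℝ) ^ 4) * f3 (ra ^ 2) yb (yc - z1) ≤ z1)
    (hq2 : 0 < q2) (hp2 : q2 ≤ 381 / 5000) (hz2 : 0 ≤ z2) (hk2 : z2 ≤ 4 * Real.pi * q2 ^ 2)
    (hs2 : 9 * Real.pi ^ 2 / (4 * (5 : ℝ) ^ 4) * f3 (ra ^ 2) yb (yc - z2) ≤ z2)
    (hline : 1013 / 2500 * ra ^ 2 + 3 / 500 ≤ pa)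
    (hbud : pa - 1013 / 2500 * ra ^ 2 - 3 / 500 + (q1 + q2) - 1013 / 2500 * (z1 + z2) ≤
      1 - 9 / 4 * (1013 / 2500) - 3 * (3 / 500)) : False := by
  have hra : ra ^ 2 ≤ 1 := pow_le_one₀ hr0 hr1
  have hw1 : z1 ≤ 125664 / 10000 * q1 ^ 2 := by
    have h1 := mul_nonneg (sub_nonneg.2 pi_lt_s.le) (mul_pos hq1 hq1).le
    linarith
  have hw2 : z2 ≤ 125664 / 10000 * q2 ^ 2 := by
    have h1 := mul_nonneg (sub_nonneg.2 pi_lt_s.le) (mul_pos hq2 hq2).le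
    linarith
  have hv1 : z1 ≤ 125664 / 10000 * (381 / 5000) * q1 := by linarith [mul_nonneg hq1.le (sub_nonneg.2 hp1)]
  have hv2 : z2 ≤ 125664 / 10000 * (381 / 5000) * q2 := by linarith [mul_nonneg hq2.le (sub_nonneg.2 hp2)]
  have hS0 : z1 + z2 ≤ 11 / 100 := by linarith
  have E1_1 : 9 / 250 ≤ q1 := by
    refine dstep (K := 5) (m := 573 / 1250) (by norm_num) hq1 hs1 hk1 (by norm_num) (by norm_num)
      (fun hz => ?_) (by norm_num)
    exact vert3 (Y := 107 / 50) (S0 := 318087 / 19531250) hcb hba (by linarith) (by norm_num at hz ⊢; linarith) (by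
      have e1 := mul_nonneg (sub_nonneg.2 hra) (sub_nonneg.2 hba)
      have e2 := mul_nonneg (sub_nonneg.2 hra) (show (0:ℝ) ≤ ra ^ 2 + 2 * yb - 107 / 50 by linarith)
      have e3 := mul_nonneg (sub_nonneg.2 hba) (show (0:ℝ) ≤ ra ^ 2 + 2 * yb - 107 / 50 by linarith)
      unfold f3
      linarith) hz1 (sq_nonneg ra)
  have E1_2 : 9 / 250 ≤ q2 := by
    refine dstep (K := 5) (m := 573 / 1250) (by norm_num) hq2 hs2 hk2 (by norm_num) (by norm_num)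
      (fun hz => ?_) (by norm_num)
    exact vert3 (Y := 107 / 50) (S0 := 318087 / 19531250) hcb hba (by linarith) (by norm_num at hz ⊢; linarith) (by
      have e1 := mul_nonneg (sub_nonneg.2 hra) (sub_nonneg.2 hba)
      have e2 := mul_nonneg (sub_nonneg.2 hra) (show (0:ℝ) ≤ ra ^ 2 + 2 * yb - 107 / 50 by linarith)
      have e3 := mul_nonneg (sub_nonneg.2 hba) (show (0:ℝ) ≤ ra ^ 2 + 2 * yb - 107 / 50 by linarith)
      unfold f3
      linarith) hz2 (sq_nonneg ra)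
  have C1_1 : 1435590369 / 48828125000 ≤ q1 - 3978051 / 781250 * q1 ^ 2 := by
    linarith [mul_nonneg (sub_nonneg.2 E1_1) (show (0:ℝ) ≤ 1 - 3978051 / 781250 * (q1 + 9 / 250) by linarith)]
  have C1_2 : 1435590369 / 48828125000 ≤ q2 - 3978051 / 781250 * q2 ^ 2 := by
    linarith [mul_nonneg (sub_nonneg.2 E1_2) (show (0:ℝ) ≤ 1 - 3978051 / 781250 * (q2 + 9 / 250) by linarith)]
  have X1 : ra ^ 2 ≤ 23 / 25 := by
    by_contra hcon
    push Not at hcon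
    have := T4_finD5_3_x1 hr0 hr1 hk hcon.le hc
    linarith
  have M1_1 : q1 ≤ 581 / 10000 := by
    by_contra hcon
    push Not at hcon
    linarith [mul_nonneg (sub_nonneg.2 hcon.le) (sub_nonneg.2 hp1)]
  have M1_2 : q2 ≤ 581 / 10000 := by
    by_contra hcon
    push Not at hcon
    linarith [mul_nonneg (sub_nonneg.2 hcon.le) (sub_nonneg.2 hp2)]
  have V1_1 : z1 ≤ 125664 / 10000 * (581 / 10000) * q1 := by linarith [mul_nonneg hq1.le (sub_nonneg.2 M1_1)]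
  have V1_2 : z2 ≤ 125664 / 10000 * (581 / 10000) * q2 := by linarith [mul_nonneg hq2.le (sub_nonneg.2 M1_2)]
  have S1 : z1 + z2 ≤ 729 / 10000 := by linarith
  have E2_1 : 53 / 1000 ≤ q1 := by
    refine dstep (K := 5) (m := 621 / 625) (by norm_num) hq1 hs1 hk1 (by norm_num) (by norm_num)
      (fun hz => ?_) (by norm_num)
    exact vert3 (Y := 21771 / 10000) (S0 := 11030943 / 312500000) hcb hba (by linarith) (by norm_num at hz ⊢; linarith) (by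
      have e1 := mul_nonneg (sub_nonneg.2 X1) (sub_nonneg.2 hba)
      have e2 := mul_nonneg (sub_nonneg.2 X1) (show (0:ℝ) ≤ ra ^ 2 + 2 * yb - 21771 / 10000 by linarith)
      have e3 := mul_nonneg (sub_nonneg.2 hba) (show (0:ℝ) ≤ ra ^ 2 + 2 * yb - 21771 / 10000 by linarith)
      unfold f3
      linarith) hz1 (sq_nonneg ra)
  have E2_2 : 53 / 1000 ≤ q2 := by
    refine dstep (K := 5) (m := 621 / 625) (by norm_num) hq2 hs2 hk2 (by norm_num) (by norm_num)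
      (fun hz => ?_) (by norm_num)
    exact vert3 (Y := 21771 / 10000) (S0 := 11030943 / 312500000) hcb hba (by linarith) (by norm_num at hz ⊢; linarith) (by
      have e1 := mul_nonneg (sub_nonneg.2 X1) (sub_nonneg.2 hba)
      have e2 := mul_nonneg (sub_nonneg.2 X1) (show (0:ℝ) ≤ ra ^ 2 + 2 * yb - 21771 / 10000 by linarith)
      have e3 := mul_nonneg (sub_nonneg.2 hba) (show (0:ℝ) ≤ ra ^ 2 + 2 * yb - 21771 / 10000 by linarith)
      unfold f3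
      linarith) hz2 (sq_nonneg ra)
  have C2_1 : 30231904741 / 781250000000 ≤ q1 - 3978051 / 781250 * q1 ^ 2 := by
    linarith [mul_nonneg (sub_nonneg.2 E2_1) (show (0:ℝ) ≤ 1 - 3978051 / 781250 * (q1 + 53 / 1000) by linarith)]
  have C2_2 : 30231904741 / 781250000000 ≤ q2 - 3978051 / 781250 * q2 ^ 2 := by
    linarith [mul_nonneg (sub_nonneg.2 E2_2) (show (0:ℝ) ≤ 1 - 3978051 / 781250 * (q2 + 53 / 1000) by linarith)]
  linarith

theorem T4_finD5_4_x1 {r p : ℝ} (hr0 : 0 ≤ r) (hr1 : r ≤ 1) (hk : 282 / 1000 * r ≤ p)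
    (hx : 19 / 25 ≤ r ^ 2) (hc : Cap4 r p) :
    1693 / 5000 * r ^ 2 + 71 / 1250 ≤ p := by
  have h0 : (871 / 1000 : ℝ) ≤ r := by nlinarith
  have hcc := hc.2.1
  nlinarith [mul_nonneg (sub_nonneg.2 h0) (sub_nonneg.2 hr1)]

theorem finD5_4 {ra pa yb yc q1 z1 : ℝ} (hr0 : 0 ≤ ra) (hr1 : ra ≤ 1)
    (hk : 282 / 1000 * ra ≤ pa) (hc : Cap4 ra pa) (hcb : yc ≤ yb) (hba : yb ≤ ra ^ 2)
    (hY : 9 / 4 - (z1) ≤ ra ^ 2 + yb + 2 * yc)
    (hq1 : 0 < q1) (hp1 : q1 ≤ 381 / 5000) (hz1 : 0 ≤ z1) (hk1 : z1 ≤ 4 * Real.pi * q1 ^ 2)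
    (hs1 : 9 * Real.pi ^ 2 / (4 * (5 : ℝ) ^ 4) * f3 (ra ^ 2) yb (yc - z1) ≤ z1)
    (hline : 1693 / 5000 * ra ^ 2 + 51 / 1000 ≤ pa)
    (hbud : pa - 1693 / 5000 * ra ^ 2 - 51 / 1000 + (q1) - 1693 / 5000 * (z1) ≤
      1 - 9 / 4 * (1693 / 5000) - 4 * (51 / 1000)) : False := by
  have hra : ra ^ 2 ≤ 1 := pow_le_one₀ hr0 hr1
  have hw1 : z1 ≤ 125664 / 10000 * q1 ^ 2 := by
    have h1 := mul_nonneg (sub_nonneg.2 pi_lt_s.le) (mul_pos hq1 hq1).le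
    linarith
  have hm1 : q1 ≤ 83 / 2000 := by
    by_contra hcon
    push Not at hcon
    linarith [mul_nonneg (sub_nonneg.2 hcon.le) (sub_nonneg.2 hp1)]
  have hS0 : z1 ≤ 433 / 20000 := by linarith [mul_nonneg hq1.le (sub_nonneg.2 hm1)]
  have E1_1 : 33 / 1000 ≤ q1 := by
    refine dstep (K := 5) (m := 963 / 2500) (by norm_num) hq1 hs1 hk1 (by norm_num) (by norm_num)
      (fun hz => ?_) (by norm_num)
    exact vert4 (Y := 44567 / 20000) (S0 := 4276503 / 312500000) hcb hba (by linarith) (by norm_num at hz ⊢; linarith) (by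
      have e1 := mul_nonneg (sub_nonneg.2 hra) (sub_nonneg.2 hba)
      have e2 := mul_nonneg (sub_nonneg.2 hra) (show (0:ℝ) ≤ ra ^ 2 + 3 * yb - 44567 / 20000 by linarith)
      have e3 := mul_nonneg (sub_nonneg.2 hba) (show (0:ℝ) ≤ ra ^ 2 + 3 * yb - 44567 / 20000 by linarith)
      unfold f3
      linarith) hz1 (sq_nonneg ra)
  have C1_1 : 44322380421 / 1562500000000 ≤ q1 - 6648411 / 1562500 * q1 ^ 2 := by
    linarith [mul_nonneg (sub_nonneg.2 E1_1) (show (0:ℝ) ≤ 1 - 6648411 / 1562500 * (q1 + 33 / 1000) by linarith)]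
  have X1 : ra ^ 2 ≤ 19 / 25 := by
    by_contra hcon
    push Not at hcon
    have := T4_finD5_4_x1 hr0 hr1 hk hcon.le hc
    linarith
  have E2_1 : 49 / 1000 ≤ q1 := by
    refine dstep (K := 5) (m := 8493 / 10000) (by norm_num) hq1 hs1 hk1 (by norm_num) (by norm_num)
      (fun hz => ?_) (by norm_num)
    exact vert4 (Y := 44567 / 20000) (S0 := 9428727 / 312500000) hcb hba (by linarith) (by norm_num at hz ⊢; linarith) (by
      have e1 := mul_nonneg (sub_nonneg.2 X1) (sub_nonneg.2 hba)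
      have e2 := mul_nonneg (sub_nonneg.2 X1) (show (0:ℝ) ≤ ra ^ 2 + 3 * yb - 44567 / 20000 by linarith)
      have e3 := mul_nonneg (sub_nonneg.2 hba) (show (0:ℝ) ≤ ra ^ 2 + 3 * yb - 44567 / 20000 by linarith)
      unfold f3
      linarith) hz1 (sq_nonneg ra)
  linarith

theorem T5_finD6_4_x1 {r p : ℝ} (hr0 : 0 ≤ r) (hr1 : r ≤ 1) (hk : 282 / 1000 * r ≤ p)
    (hx : 41 / 50 ≤ r ^ 2) (hc : Cap5 r p) :
    683 / 2000 * r ^ 2 + 113 / 2000 ≤ p := by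
  have h0 : (181 / 200 : ℝ) ≤ r := by nlinarith
  have hcc := hc (1 / 5) (by norm_num) (by norm_num)
  norm_num at hcc
  nlinarith [mul_nonneg (sub_nonneg.2 h0) (sub_nonneg.2 hr1)]

theorem finD6_4 {ra pa yb yc q1 q2 z1 z2 : ℝ} (hr0 : 0 ≤ ra) (hr1 : ra ≤ 1)
    (hk : 282 / 1000 * ra ≤ pa) (hc : Cap5 ra pa) (hcb : yc ≤ yb) (hba : yb ≤ ra ^ 2)
    (hY : 9 / 4 - (z1 + z2) ≤ ra ^ 2 + yb + 2 * yc)
    (hq1 : 0 < q1) (hp1 : q1 ≤ 311 / 5000) (hz1 : 0 ≤ z1) (hk1 : z1 ≤ 4 * Real.pi * q1 ^ 2)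
    (hs1 : 9 * Real.pi ^ 2 / (4 * (6 : ℝ) ^ 4) * f3 (ra ^ 2) yb (yc - z1) ≤ z1)
    (hq2 : 0 < q2) (hp2 : q2 ≤ 311 / 5000) (hz2 : 0 ≤ z2) (hk2 : z2 ≤ 4 * Real.pi * q2 ^ 2)
    (hs2 : 9 * Real.pi ^ 2 / (4 * (6 : ℝ) ^ 4) * f3 (ra ^ 2) yb (yc - z2) ≤ z2)
    (hline : 683 / 2000 * ra ^ 2 + 451 / 10000 ≤ pa)
    (hbud : pa - 683 / 2000 * ra ^ 2 - 451 / 10000 + (q1 + q2) - 683 / 2000 * (z1 + z2) ≤
      1 - 9 / 4 * (683 / 2000) - 4 * (451 / 10000)) : False := by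
  have hra : ra ^ 2 ≤ 1 := pow_le_one₀ hr0 hr1
  have hw1 : z1 ≤ 125664 / 10000 * q1 ^ 2 := by
    have h1 := mul_nonneg (sub_nonneg.2 pi_lt_s.le) (mul_pos hq1 hq1).le
    linarith
  have hw2 : z2 ≤ 125664 / 10000 * q2 ^ 2 := by
    have h1 := mul_nonneg (sub_nonneg.2 pi_lt_s.le) (mul_pos hq2 hq2).le
    linarith
  have hv1 : z1 ≤ 125664 / 10000 * (311 / 5000) * q1 := by linarith [mul_nonneg hq1.le (sub_nonneg.2 hp1)]
  have hv2 : z2 ≤ 125664 / 10000 * (311 / 5000) * q2 := by linarith [mul_nonneg hq2.le (sub_nonneg.2 hp2)]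
  have hS0 : z1 + z2 ≤ 2731 / 50000 := by linarith
  have E1_1 : 11 / 500 ≤ q1 := by
    refine dstep (K := 6) (m := 71 / 200) (by norm_num) hq1 hs1 hk1 (by norm_num) (by norm_num)
      (fun hz => ?_) (by norm_num)
    exact vert4 (Y := 109769 / 50000) (S0 := 475167 / 78125000) hcb hba (by linarith) (by norm_num at hz ⊢; linarith) (by
      have e1 := mul_nonneg (sub_nonneg.2 hra) (sub_nonneg.2 hba)
      have e2 := mul_nonneg (sub_nonneg.2 hra) (show (0:ℝ) ≤ ra ^ 2 + 3 * yb - 109769 / 50000 by linarith)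
      have e3 := mul_nonneg (sub_nonneg.2 hba) (show (0:ℝ) ≤ ra ^ 2 + 3 * yb - 109769 / 50000 by linarith)
      unfold f3
      linarith) hz1 (sq_nonneg ra)
  have E1_2 : 11 / 500 ≤ q2 := by
    refine dstep (K := 6) (m := 71 / 200) (by norm_num) hq2 hs2 hk2 (by norm_num) (by norm_num)
      (fun hz => ?_) (by norm_num)
    exact vert4 (Y := 109769 / 50000) (S0 := 475167 / 78125000) hcb hba (by linarith) (by norm_num at hz ⊢; linarith) (by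
      have e1 := mul_nonneg (sub_nonneg.2 hra) (sub_nonneg.2 hba)
      have e2 := mul_nonneg (sub_nonneg.2 hra) (show (0:ℝ) ≤ ra ^ 2 + 3 * yb - 109769 / 50000 by linarith)
      have e3 := mul_nonneg (sub_nonneg.2 hba) (show (0:ℝ) ≤ ra ^ 2 + 3 * yb - 109769 / 50000 by linarith)
      unfold f3
      linarith) hz2 (sq_nonneg ra)
  have C1_1 : 3112960939 / 156250000000 ≤ q1 - 2682141 / 625000 * q1 ^ 2 := by
    linarith [mul_nonneg (sub_nonneg.2 E1_1) (show (0:ℝ) ≤ 1 - 2682141 / 625000 * (q1 + 11 / 500) by linarith)]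
  have C1_2 : 3112960939 / 156250000000 ≤ q2 - 2682141 / 625000 * q2 ^ 2 := by
    linarith [mul_nonneg (sub_nonneg.2 E1_2) (show (0:ℝ) ≤ 1 - 2682141 / 625000 * (q2 + 11 / 500) by linarith)]
  have X1 : ra ^ 2 ≤ 41 / 50 := by
    by_contra hcon
    push Not at hcon
    have := T5_finD6_4_x1 hr0 hr1 hk hcon.le hc
    linarith
  have M1_1 : q1 ≤ 373 / 10000 := by
    by_contra hcon
    push Not at hcon
    linarith [mul_nonneg (sub_nonneg.2 hcon.le) (sub_nonneg.2 hp1)]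
  have M1_2 : q2 ≤ 373 / 10000 := by
    by_contra hcon
    push Not at hcon
    linarith [mul_nonneg (sub_nonneg.2 hcon.le) (sub_nonneg.2 hp2)]
  have V1_1 : z1 ≤ 125664 / 10000 * (373 / 10000) * q1 := by linarith [mul_nonneg hq1.le (sub_nonneg.2 M1_1)]
  have V1_2 : z2 ≤ 125664 / 10000 * (373 / 10000) * q2 := by linarith [mul_nonneg hq2.le (sub_nonneg.2 M1_2)]
  have S1 : z1 + z2 ≤ 2859 / 100000 := by linarith
  have E2_1 : 33 / 1000 ≤ q1 := by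
    refine dstep (K := 6) (m := 7987 / 10000) (by norm_num) hq1 hs1 hk1 (by norm_num) (by norm_num)
      (fun hz => ?_) (by norm_num)
    exact vert4 (Y := 222141 / 100000) (S0 := 4276503 / 312500000) hcb hba (by linarith) (by norm_num at hz ⊢; linarith) (by
      have e1 := mul_nonneg (sub_nonneg.2 X1) (sub_nonneg.2 hba)
      have e2 := mul_nonneg (sub_nonneg.2 X1) (show (0:ℝ) ≤ ra ^ 2 + 3 * yb - 222141 / 100000 by linarith)
      have e3 := mul_nonneg (sub_nonneg.2 hba) (show (0:ℝ) ≤ ra ^ 2 + 3 * yb - 222141 / 100000 by linarith)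
      unfold f3
      linarith) hz1 (sq_nonneg ra)
  have E2_2 : 33 / 1000 ≤ q2 := by
    refine dstep (K := 6) (m := 7987 / 10000) (by norm_num) hq2 hs2 hk2 (by norm_num) (by norm_num)
      (fun hz => ?_) (by norm_num)
    exact vert4 (Y := 222141 / 100000) (S0 := 4276503 / 312500000) hcb hba (by linarith) (by norm_num at hz ⊢; linarith) (by
      have e1 := mul_nonneg (sub_nonneg.2 X1) (sub_nonneg.2 hba)
      have e2 := mul_nonneg (sub_nonneg.2 X1) (show (0:ℝ) ≤ ra ^ 2 + 3 * yb - 222141 / 100000 by linarith)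
      have e3 := mul_nonneg (sub_nonneg.2 hba) (show (0:ℝ) ≤ ra ^ 2 + 3 * yb - 222141 / 100000 by linarith)
      unfold f3
      linarith) hz2 (sq_nonneg ra)
  have C2_1 : 17704148451 / 625000000000 ≤ q1 - 2682141 / 625000 * q1 ^ 2 := by
    linarith [mul_nonneg (sub_nonneg.2 E2_1) (show (0:ℝ) ≤ 1 - 2682141 / 625000 * (q1 + 33 / 1000) by linarith)]
  have C2_2 : 17704148451 / 625000000000 ≤ q2 - 2682141 / 625000 * q2 ^ 2 := by
    linarith [mul_nonneg (sub_nonneg.2 E2_2) (show (0:ℝ) ≤ 1 - 2682141 / 625000 * (q2 + 33 / 1000) by linarith)]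
  linarith

theorem finD6_5 {ra pa yb yc q1 z1 : ℝ} (hr0 : 0 ≤ ra) (hr1 : ra ≤ 1)
    (hk : 282 / 1000 * ra ≤ pa) (hc : Cap5 ra pa) (hcb : yc ≤ yb) (hba : yb ≤ ra ^ 2)
    (hY : 9 / 4 - (z1) ≤ ra ^ 2 + yb + 3 * yc)
    (hq1 : 0 < q1) (hp1 : q1 ≤ 311 / 5000) (hz1 : 0 ≤ z1) (hk1 : z1 ≤ 4 * Real.pi * q1 ^ 2)
    (hs1 : 9 * Real.pi ^ 2 / (4 * (6 : ℝ) ^ 4) * f3 (ra ^ 2) yb (yc - z1) ≤ z1)
    (hline : 683 / 2000 * ra ^ 2 + 451 / 10000 ≤ pa)
    (hbud : pa - 683 / 2000 * ra ^ 2 - 451 / 10000 + (q1) - 683 / 2000 * (z1) ≤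
      1 - 9 / 4 * (683 / 2000) - 5 * (451 / 10000)) : False := by
  have hra : ra ^ 2 ≤ 1 := pow_le_one₀ hr0 hr1
  have hw1 : z1 ≤ 125664 / 10000 * q1 ^ 2 := by
    have h1 := mul_nonneg (sub_nonneg.2 pi_lt_s.le) (mul_pos hq1 hq1).le
    linarith
  have hm1 : q1 ≤ 63 / 10000 := by
    by_contra hcon
    push Not at hcon
    linarith [mul_nonneg (sub_nonneg.2 hcon.le) (sub_nonneg.2 hp1)]
  have hS0 : z1 ≤ 1 / 2000 := by linarith [mul_nonneg hq1.le (sub_nonneg.2 hm1)]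
  have E1_1 : 9 / 500 ≤ q1 := by
    refine dstep (K := 6) (m := 2377 / 10000) (by norm_num) hq1 hs1 hk1 (by norm_num) (by norm_num)
      (fun hz => ?_) (by norm_num)
    exact vert5 (Y := 4499 / 2000) (S0 := 318087 / 78125000) hcb hba (by linarith) (by norm_num at hz ⊢; linarith) (by
      have e1 := mul_nonneg (sub_nonneg.2 hra) (sub_nonneg.2 hba)
      have e2 := mul_nonneg (sub_nonneg.2 hra) (show (0:ℝ) ≤ ra ^ 2 + 4 * yb - 4499 / 2000 by linarith)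
      have e3 := mul_nonneg (sub_nonneg.2 hba) (show (0:ℝ) ≤ ra ^ 2 + 4 * yb - 4499 / 2000 by linarith)
      unfold f3
      linarith) hz1 (sq_nonneg ra)
  linarith

end Vale.Agent.P226
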