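import Mathlib
import Vale.Agent.P226.Full.NoDatA
import Vale.Agent.P226.Full.FinD
import Vale.Agent.P226.Full.ChainX
import Vale.Agent.P226.Full.JensenX

/-! numeric endgame. Generated. -/

open Finset

set_option linter.unusedSimpArgs false

namespace Vale.Agent.P226

theorem no_dat4 {y p : ℕ → ℝ} (h : Dat 4 y p) (hc : ∀ i < 4, Cap3 (Real.sqrt (y i)) (p i)) :
    False := by
  have hl3 : ∀ i < 4, 17 / 200 ≤ p i → 3943 / 10000 * y i + 207 / 10000 ≤ p i := by
    intro i hi hp
    have := T3_line3 (Real.sqrt_nonneg _) (h.r1 hi) (h.hk hi) (by linarith) (hc i hi)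
    rwa [h.sq hi] at this
  rcases lt_or_ge (p 2) (17 / 200) with h2 | h2
  · exact h.few (by omega) (plow := 17 / 200) (lam := 3943 / 10000) (beta := 207 / 10000) (by norm_num)
      (by norm_num) h2.le (fun i hi hp => hl3 i (by omega) hp) (by norm_num) (by norm_num) (by norm_num)
  rcases lt_or_ge (p 3) (17 / 200) with h3 | h3
  · obtain ⟨a, b, c, ha, hb, hc', hab, hac, hbc, hcb, hba, hrest⟩ := top3 (N := 3) (by norm_num) y
    have hbig : ∀ i < 3, 17 / 200 ≤ p i := fun i hi => h2.trans (h.anti i 2 (by omega) (by omega))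
    have htail : ∀ i < 4, 3 ≤ i → p i ≤ 17 / 200 := fun i hi hi3 => (h.anti 3 i hi3 hi).trans h3.le
    have hak : a < 4 := by omega
    have hbk : b < 4 := by omega
    have hck : c < 4 := by omega
    obtain ⟨e1, e2, e3, e4, e5⟩ := h.core (N := 3) (by omega) (lam := 3943 / 10000) (beta := 207 / 10000)
      (by norm_num) (fun i hi => hl3 i (by omega) (hbig i hi)) htail ha hb hc' hab hac hbc hrest
    push_cast at e1 e5
    have hla := hl3 a hak (hbig a ha)
    have hsy : ∑ i ∈ Ico 3 4, y i = y 3 := by simp [Finset.sum_Ico_succ_top]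
    have hsp : ∑ i ∈ Ico 3 4, p i = p 3 := by simp [Finset.sum_Ico_succ_top]
    rw [hsy] at e1 e5
    rw [hsp] at e5
    have hsing : ∀ l, 3 ≤ l → l < 4 → 9 * Real.pi ^ 2 / (4 * (4 : ℝ) ^ 4) *
        f3 (Real.sqrt (y a) ^ 2) (y b) (y c - y l) ≤ y l := by
      intro l hl1 hl2
      rw [h.sq hak]
      exact_mod_cast h.single l a b c hl2 hak hbk hck (by omega) (by omega) (by omega) hab hac hbc
        (hcb.trans hba) hcb
    exact finD4_3 (ra := Real.sqrt (y a)) (pa := p a) (yb := y b) (yc := y c) (q1 := p 3) (z1 := y 3)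
      (Real.sqrt_nonneg _) (h.r1 hak) (h.hk hak) (hc a hak) hcb (by rw [h.sq hak]; exact hba)
      (by rw [h.sq hak]; linarith)
      (h.ppos 3 (by norm_num)) (htail 3 (by norm_num) (by norm_num)) (h.ypos 3 (by norm_num)).le
      (h.prek 3 (by norm_num)) (hsing 3 (by norm_num) (by norm_num))
      (by rw [h.sq hak]; exact hla) (by rw [h.sq hak]; linarith)
  have hj := jensen4' (y := fun i : Fin 4 => y i) (p := fun i : Fin 4 => p i)
    (fun i => by
      have h5 := h3.trans (h.anti i 3 (by omega) (by norm_num))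
      linarith)
    (by rw [Fin.sum_univ_eq_sum_range (fun i => p i)]; exact h.psum)
    (fun i => (h.ypos i i.2).le) (fun i => h.yone i i.2) (fun i => hc i i.2)
    (fun i => h.prek i i.2)
  rw [Fin.sum_univ_eq_sum_range (fun i => y i)] at hj
  exact absurd h.ysum (not_lt.mpr hj)

theorem no_dat5 {y p : ℕ → ℝ} (h : Dat 5 y p) (hc : ∀ i < 5, Cap4 (Real.sqrt (y i)) (p i)) :
    False := by
  have hl3 : ∀ i < 5, 381 / 5000 ≤ p i → 1013 / 2500 * y i + 3 / 500 ≤ p i := by
    intro i hi hp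
    have := T4_line3 (Real.sqrt_nonneg _) (h.r1 hi) (h.hk hi) (by linarith) (hc i hi)
    rwa [h.sq hi] at this
  have hl4 : ∀ i < 5, 381 / 5000 ≤ p i → 1693 / 5000 * y i + 51 / 1000 ≤ p i := by
    intro i hi hp
    have := T4_line4 (Real.sqrt_nonneg _) (h.r1 hi) (h.hk hi) (by linarith) (hc i hi)
    rwa [h.sq hi] at this
  rcases lt_or_ge (p 2) (381 / 5000) with h2 | h2
  · exact h.few (by omega) (plow := 381 / 5000) (lam := 1693 / 5000) (beta := 51 / 1000) (by norm_num)
      (by norm_num) h2.le (fun i hi hp => hl4 i (by omega) hp) (by norm_num) (by norm_num) (by norm_num)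
  rcases lt_or_ge (p 3) (381 / 5000) with h3 | h3
  · obtain ⟨a, b, c, ha, hb, hc', hab, hac, hbc, hcb, hba, hrest⟩ := top3 (N := 3) (by norm_num) y
    have hbig : ∀ i < 3, 381 / 5000 ≤ p i := fun i hi => h2.trans (h.anti i 2 (by omega) (by omega))
    have htail : ∀ i < 5, 3 ≤ i → p i ≤ 381 / 5000 := fun i hi hi3 => (h.anti 3 i hi3 hi).trans h3.le
    have hak : a < 5 := by omega
    have hbk : b < 5 := by omega
    have hck : c < 5 := by omega
    obtain ⟨e1, e2, e3, e4, e5⟩ := h.core (N := 3) (by omega) (lam := 1013 / 2500) (beta := 3 / 500)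
      (by norm_num) (fun i hi => hl3 i (by omega) (hbig i hi)) htail ha hb hc' hab hac hbc hrest
    push_cast at e1 e5
    have hla := hl3 a hak (hbig a ha)
    have hsy : ∑ i ∈ Ico 3 5, y i = y 3 + y 4 := by simp [Finset.sum_Ico_succ_top]
    have hsp : ∑ i ∈ Ico 3 5, p i = p 3 + p 4 := by simp [Finset.sum_Ico_succ_top]
    rw [hsy] at e1 e5
    rw [hsp] at e5
    have hsing : ∀ l, 3 ≤ l → l < 5 → 9 * Real.pi ^ 2 / (4 * (5 : ℝ) ^ 4) *
        f3 (Real.sqrt (y a) ^ 2) (y b) (y c - y l) ≤ y l := by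
      intro l hl1 hl2
      rw [h.sq hak]
      exact_mod_cast h.single l a b c hl2 hak hbk hck (by omega) (by omega) (by omega) hab hac hbc
        (hcb.trans hba) hcb
    exact finD5_3 (ra := Real.sqrt (y a)) (pa := p a) (yb := y b) (yc := y c) (q1 := p 3) (q2 := p 4) (z1 := y 3) (z2 := y 4)
      (Real.sqrt_nonneg _) (h.r1 hak) (h.hk hak) (hc a hak) hcb (by rw [h.sq hak]; exact hba)
      (by rw [h.sq hak]; linarith)
      (h.ppos 3 (by norm_num)) (htail 3 (by norm_num) (by norm_num)) (h.ypos 3 (by norm_num)).le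
      (h.prek 3 (by norm_num)) (hsing 3 (by norm_num) (by norm_num))
      (h.ppos 4 (by norm_num)) (htail 4 (by norm_num) (by norm_num)) (h.ypos 4 (by norm_num)).le
      (h.prek 4 (by norm_num)) (hsing 4 (by norm_num) (by norm_num))
      (by rw [h.sq hak]; exact hla) (by rw [h.sq hak]; linarith)
  rcases lt_or_ge (p 4) (381 / 5000) with h4 | h4
  · obtain ⟨a, b, c, ha, hb, hc', hab, hac, hbc, hcb, hba, hrest⟩ := top3 (N := 4) (by norm_num) y
    have hbig : ∀ i < 4, 381 / 5000 ≤ p i := fun i hi => h3.trans (h.anti i 3 (by omega) (by omega))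
    have htail : ∀ i < 5, 4 ≤ i → p i ≤ 381 / 5000 := fun i hi hi3 => (h.anti 4 i hi3 hi).trans h4.le
    have hak : a < 5 := by omega
    have hbk : b < 5 := by omega
    have hck : c < 5 := by omega
    obtain ⟨e1, e2, e3, e4, e5⟩ := h.core (N := 4) (by omega) (lam := 1693 / 5000) (beta := 51 / 1000)
      (by norm_num) (fun i hi => hl4 i (by omega) (hbig i hi)) htail ha hb hc' hab hac hbc hrest
    push_cast at e1 e5
    have hla := hl4 a hak (hbig a ha)
    have hsy : ∑ i ∈ Ico 4 5, y i = y 4 := by simp [Finset.sum_Ico_succ_top]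
    have hsp : ∑ i ∈ Ico 4 5, p i = p 4 := by simp [Finset.sum_Ico_succ_top]
    rw [hsy] at e1 e5
    rw [hsp] at e5
    have hsing : ∀ l, 4 ≤ l → l < 5 → 9 * Real.pi ^ 2 / (4 * (5 : ℝ) ^ 4) *
        f3 (Real.sqrt (y a) ^ 2) (y b) (y c - y l) ≤ y l := by
      intro l hl1 hl2
      rw [h.sq hak]
      exact_mod_cast h.single l a b c hl2 hak hbk hck (by omega) (by omega) (by omega) hab hac hbc
        (hcb.trans hba) hcb
    exact finD5_4 (ra := Real.sqrt (y a)) (pa := p a) (yb := y b) (yc := y c) (q1 := p 4) (z1 := y 4)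
      (Real.sqrt_nonneg _) (h.r1 hak) (h.hk hak) (hc a hak) hcb (by rw [h.sq hak]; exact hba)
      (by rw [h.sq hak]; linarith)
      (h.ppos 4 (by norm_num)) (htail 4 (by norm_num) (by norm_num)) (h.ypos 4 (by norm_num)).le
      (h.prek 4 (by norm_num)) (hsing 4 (by norm_num) (by norm_num))
      (by rw [h.sq hak]; exact hla) (by rw [h.sq hak]; linarith)
  refine h.many (M := 5) (by omega) (lam := 1693 / 5000) (beta := 51 / 1000) (by norm_num)
    (fun i hi => hl4 i (by omega) (h4.trans (h.anti i 4 (by omega) (by omega)))) ?_ (by norm_num)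
  intro i hi _
  rcases lt_or_ge (p i) (381 / 5000) with hp | hp
  · have h5 := h.tail hi hp.le
    have h6 := h.ppos i hi
    linarith
  · have h5 := hl4 i hi hp
    linarith

theorem no_dat6 {y p : ℕ → ℝ} (h : Dat 6 y p) (hc : ∀ i < 6, Cap5 (Real.sqrt (y i)) (p i)) :
    False := by
  have hl3 : ∀ i < 6, 311 / 5000 ≤ p i → 4109 / 10000 * y i + (-9 / 5000) ≤ p i := by
    intro i hi hp
    have := T5_line3 (Real.sqrt_nonneg _) (h.r1 hi) (h.hk hi) (by linarith) (hc i hi)
    rwa [h.sq hi] at this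
  have hl4 : ∀ i < 6, 311 / 5000 ≤ p i → 683 / 2000 * y i + 451 / 10000 ≤ p i := by
    intro i hi hp
    have := T5_line4 (Real.sqrt_nonneg _) (h.r1 hi) (h.hk hi) (by linarith) (hc i hi)
    rwa [h.sq hi] at this
  rcases lt_or_ge (p 2) (311 / 5000) with h2 | h2
  · exact h.few (by omega) (plow := 311 / 5000) (lam := 683 / 2000) (beta := 451 / 10000) (by norm_num)
      (by norm_num) h2.le (fun i hi hp => hl4 i (by omega) hp) (by norm_num) (by norm_num) (by norm_num)
  rcases lt_or_ge (p 3) (311 / 5000) with h3 | h3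
  · obtain ⟨a, b, c, ha, hb, hc', hab, hac, hbc, hcb, hba, hrest⟩ := top3 (N := 3) (by norm_num) y
    have hbig : ∀ i < 3, 311 / 5000 ≤ p i := fun i hi => h2.trans (h.anti i 2 (by omega) (by omega))
    have htail : ∀ i < 6, 3 ≤ i → p i ≤ 311 / 5000 := fun i hi hi3 => (h.anti 3 i hi3 hi).trans h3.le
    have hak : a < 6 := by omega
    have hck : c < 6 := by omega
    obtain ⟨e1, e2, e3, e4, e5⟩ := h.core (N := 3) (by omega) (lam := 4109 / 10000) (beta := -9 / 5000)
      (by norm_num) (fun i hi => hl3 i (by omega) (hbig i hi)) htail ha hb hc' hab hac hbc hrest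
    push_cast at e1 e5
    have hla := hl3 a hak (hbig a ha)
    refine fin5_3 (ra := Real.sqrt (y a)) (pa := p a) (yb := y b) (yc := y c)
      (S := ∑ i ∈ Ico 3 6, y i) (P := ∑ i ∈ Ico 3 6, p i) (Real.sqrt_nonneg _) (h.r1 hak)
      (h.hk hak) (hc a hak) hcb (by rw [h.sq hak]; exact hba) (h.ypos c hck).le
      (by rw [h.sq hak]; linarith) e2 e3 e4 (by rw [h.sq hak]; exact hla)
      (by rw [h.sq hak]; linarith) ?_
    intro s hs hf
    rw [h.sq hak] at hf
    have hPF : ∀ m, 3 ≤ m → m < 6 → PF 6 p s m := fun m hm hmk =>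
      h.pf (by norm_num) ha hb hc' hab hac hbc hcb hba hs hf hm hmk
    have hD : ∀ i < 6, 3 ≤ i → 369 / 10000 * s ≤ p i := by
      intro i hi hi3
      exact h.dlow (by omega) ha hb hc' hab hac hbc hcb hba hs hf hi3 hi (by norm_num)
        (by norm_num)
    have hch := chain6_3' h.ppos h.anti hs hD (hPF 3 le_rfl (by norm_num))
    linarith
  rcases lt_or_ge (p 4) (311 / 5000) with h4 | h4
  · obtain ⟨a, b, c, ha, hb, hc', hab, hac, hbc, hcb, hba, hrest⟩ := top3 (N := 4) (by norm_num) y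
    have hbig : ∀ i < 4, 311 / 5000 ≤ p i := fun i hi => h3.trans (h.anti i 3 (by omega) (by omega))
    have htail : ∀ i < 6, 4 ≤ i → p i ≤ 311 / 5000 := fun i hi hi3 => (h.anti 4 i hi3 hi).trans h4.le
    have hak : a < 6 := by omega
    have hbk : b < 6 := by omega
    have hck : c < 6 := by omega
    obtain ⟨e1, e2, e3, e4, e5⟩ := h.core (N := 4) (by omega) (lam := 683 / 2000) (beta := 451 / 10000)
      (by norm_num) (fun i hi => hl4 i (by omega) (hbig i hi)) htail ha hb hc' hab hac hbc hrest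
    push_cast at e1 e5
    have hla := hl4 a hak (hbig a ha)
    have hsy : ∑ i ∈ Ico 4 6, y i = y 4 + y 5 := by simp [Finset.sum_Ico_succ_top]
    have hsp : ∑ i ∈ Ico 4 6, p i = p 4 + p 5 := by simp [Finset.sum_Ico_succ_top]
    rw [hsy] at e1 e5
    rw [hsp] at e5
    have hsing : ∀ l, 4 ≤ l → l < 6 → 9 * Real.pi ^ 2 / (4 * (6 : ℝ) ^ 4) *
        f3 (Real.sqrt (y a) ^ 2) (y b) (y c - y l) ≤ y l := by
      intro l hl1 hl2
      rw [h.sq hak]
      exact_mod_cast h.single l a b c hl2 hak hbk hck (by omega) (by omega) (by omega) hab hac hbc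
        (hcb.trans hba) hcb
    exact finD6_4 (ra := Real.sqrt (y a)) (pa := p a) (yb := y b) (yc := y c) (q1 := p 4) (q2 := p 5) (z1 := y 4) (z2 := y 5)
      (Real.sqrt_nonneg _) (h.r1 hak) (h.hk hak) (hc a hak) hcb (by rw [h.sq hak]; exact hba)
      (by rw [h.sq hak]; linarith)
      (h.ppos 4 (by norm_num)) (htail 4 (by norm_num) (by norm_num)) (h.ypos 4 (by norm_num)).le
      (h.prek 4 (by norm_num)) (hsing 4 (by norm_num) (by norm_num))
      (h.ppos 5 (by norm_num)) (htail 5 (by norm_num) (by norm_num)) (h.ypos 5 (by norm_num)).le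
      (h.prek 5 (by norm_num)) (hsing 5 (by norm_num) (by norm_num))
      (by rw [h.sq hak]; exact hla) (by rw [h.sq hak]; linarith)
  rcases lt_or_ge (p 5) (311 / 5000) with h5 | h5
  · obtain ⟨a, b, c, ha, hb, hc', hab, hac, hbc, hcb, hba, hrest⟩ := top3 (N := 5) (by norm_num) y
    have hbig : ∀ i < 5, 311 / 5000 ≤ p i := fun i hi => h4.trans (h.anti i 4 (by omega) (by omega))
    have htail : ∀ i < 6, 5 ≤ i → p i ≤ 311 / 5000 := fun i hi hi3 => (h.anti 5 i hi3 hi).trans h5.le
    have hak : a < 6 := by omega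
    have hbk : b < 6 := by omega
    have hck : c < 6 := by omega
    obtain ⟨e1, e2, e3, e4, e5⟩ := h.core (N := 5) (by omega) (lam := 683 / 2000) (beta := 451 / 10000)
      (by norm_num) (fun i hi => hl4 i (by omega) (hbig i hi)) htail ha hb hc' hab hac hbc hrest
    push_cast at e1 e5
    have hla := hl4 a hak (hbig a ha)
    have hsy : ∑ i ∈ Ico 5 6, y i = y 5 := by simp [Finset.sum_Ico_succ_top]
    have hsp : ∑ i ∈ Ico 5 6, p i = p 5 := by simp [Finset.sum_Ico_succ_top]
    rw [hsy] at e1 e5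
    rw [hsp] at e5
    have hsing : ∀ l, 5 ≤ l → l < 6 → 9 * Real.pi ^ 2 / (4 * (6 : ℝ) ^ 4) *
        f3 (Real.sqrt (y a) ^ 2) (y b) (y c - y l) ≤ y l := by
      intro l hl1 hl2
      rw [h.sq hak]
      exact_mod_cast h.single l a b c hl2 hak hbk hck (by omega) (by omega) (by omega) hab hac hbc
        (hcb.trans hba) hcb
    exact finD6_5 (ra := Real.sqrt (y a)) (pa := p a) (yb := y b) (yc := y c) (q1 := p 5) (z1 := y 5)
      (Real.sqrt_nonneg _) (h.r1 hak) (h.hk hak) (hc a hak) hcb (by rw [h.sq hak]; exact hba)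
      (by rw [h.sq hak]; linarith)
      (h.ppos 5 (by norm_num)) (htail 5 (by norm_num) (by norm_num)) (h.ypos 5 (by norm_num)).le
      (h.prek 5 (by norm_num)) (hsing 5 (by norm_num) (by norm_num))
      (by rw [h.sq hak]; exact hla) (by rw [h.sq hak]; linarith)
  refine h.many (M := 6) (by omega) (lam := 683 / 2000) (beta := 451 / 10000) (by norm_num)
    (fun i hi => hl4 i (by omega) (h5.trans (h.anti i 5 (by omega) (by omega)))) ?_ (by norm_num)
  intro i hi _
  rcases lt_or_ge (p i) (311 / 5000) with hp | hp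
  · have h5 := h.tail hi hp.le
    have h6 := h.ppos i hi
    linarith
  · have h5 := hl4 i hi hp
    linarith

end Vale.Agent.P226
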