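import Mathlib
import Vale.Agent.P226.Full.AsmA
import Vale.Agent.P226.Full.ThreeF
import Vale.Agent.P226.Full.NoDatB
import Vale.Agent.P226.Full.NoDatC

/-! final induction -/

open MeasureTheory ProbabilityTheory Set Finset
open scoped RealInnerProductSpace ENNReal NNReal

namespace Vale.Agent.P226

/-- a violating partition gives an optimal family -/
theorem bd_step_full {n k : ℕ} (hk : 4 ≤ k)
    (hB : ∀ m < k, Bd (EuclideanSpace ℝ (Fin n)) (9 / (8 * Real.pi)) m)
    (hno : ∀ u : Fin k → EuclideanSpace ℝ (Fin n), Opt u →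
      9 / (8 * Real.pi) < ∑ i, ‖u i‖ ^ 2 → False) :
    Bd (EuclideanSpace ℝ (Fin n)) (9 / (8 * Real.pi)) k := by
  obtain ⟨k, rfl⟩ : ∃ k', k = k' + 1 := ⟨k - 1, by omega⟩
  have h := hB k (Nat.lt_succ_self k)
  intro A hA
  by_contra hcon
  push Not at hcon
  have hC0 : (0 : ℝ) < 9 / (8 * Real.pi) := by have := Real.pi_pos; positivity
  obtain ⟨u, hu, _, hmax⟩ := exists_optimal A hA (hC0.trans hcon)
  have hbig : 9 / (8 * Real.pi) < ∑ i, ‖u i‖ ^ 2 := lt_of_lt_of_le hcon (hmax A hA)
  have hms : momentSum (argCell u) = ∑ i, ‖u i‖ ^ 2 := by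
    unfold momentSum
    simp_rw [hu]
  have hpart := isPartition_argCell u
  have hneg : ∀ i j, i ≠ j → ⟪u i, u j⟫ < 0 := by
    intro i j hij
    have h1 := h.inner_neg hpart (by rw [hms]; exact hbig) hij
    rwa [hu i, hu j] at h1
  have hsum : ∑ i, u i = 0 := by
    have := sum_firstMoment hpart
    simpa [hu] using this
  have hne : ∀ i l, l ≠ i → u i - u l ≠ 0 := by
    intro i l hl h0
    rw [sub_eq_zero] at h0
    have h1 := hneg i l hl.symm
    rw [h0, real_inner_self_eq_norm_sq] at h1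
    exact absurd h1 (not_lt.mpr (sq_nonneg _))
  have : Nontrivial (Fin (k + 1)) := by
    rw [Fin.nontrivial_iff_two_le]; omega
  have hopt : Opt u := by
    refine ⟨hneg, hsum, ?_, ?_⟩
    · intro i
      rw [firstMoment_cone (fun l hl => hne i l hl), hu i]
    · have h1 : ∀ i, (stdGaussian (EuclideanSpace ℝ (Fin n))).real (cone u i) =
          (stdGaussian (EuclideanSpace ℝ (Fin n))).real (argCell u i) := by
        intro i
        exact (measureReal_congr (cone_ae_eq (fun l hl => hne i l hl))).symm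
      simp_rw [h1]
      have h2 := sum_setIntegral hpart (integrable_const (1 : ℝ))
      simpa using h2
  exact hno u hopt hbig

theorem bd_eucl (k : ℕ) : ∀ n : ℕ, Bd (EuclideanSpace ℝ (Fin n)) (9 / (8 * Real.pi)) k := by
  induction k using Nat.strong_induction_on with
  | _ k ih =>
    intro n
    by_cases hk3 : k ≤ 3
    · exact bd_three'.mono hk3
    have hk : 4 ≤ k := by omega
    have key : ∀ d : ℕ, k ≤ d + 1 →
        (∀ u : Fin k → EuclideanSpace ℝ (Fin d), Opt u →
          (∀ m < k, Bd (EuclideanSpace ℝ (Fin d)) (9 / (8 * Real.pi)) m) →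
          9 / (8 * Real.pi) < ∑ i, ‖u i‖ ^ 2 → False) →
        Bd (EuclideanSpace ℝ (Fin n)) (9 / (8 * Real.pi)) k := by
      intro d hd hno
      have h1 : Bd (EuclideanSpace ℝ (Fin d)) (9 / (8 * Real.pi)) k :=
        bd_step_full hk (fun m hm => ih m hm d)
          (fun u hu hF => hno u hu (fun m hm => ih m hm d) hF)
      obtain ⟨K, rfl⟩ : ∃ K, k = K + 1 := ⟨k - 1, by omega⟩
      exact Bd.of_dim (K := K) (m := d) (by omega) h1
    have hnt : Nontrivial (Fin k) := by
      rw [Fin.nontrivial_iff_two_le]; omega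
    rcases (show k = 4 ∨ k = 5 ∨ k = 6 ∨ (k = 7 ∨ k = 8) ∨ (k = 9 ∨ k = 10) ∨ 11 ≤ k by omega)
      with h4 | h5 | h6 | h7 | h9 | h11
    · refine key 3 (by omega) (fun u hu hB hF => ?_)
      obtain ⟨y, p, hD, hj⟩ := exists_dat hu hk hB hF
      subst h4
      refine no_dat4 hD (fun i hi => ?_)
      obtain ⟨j, hy, hp⟩ := hj i hi
      rw [hy, hp]
      exact cap3_of hu j
    · refine key 4 (by omega) (fun u hu hB hF => ?_)
      obtain ⟨y, p, hD, hj⟩ := exists_dat hu hk hB hF
      subst h5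
      refine no_dat5 hD (fun i hi => ?_)
      obtain ⟨j, hy, hp⟩ := hj i hi
      rw [hy, hp]
      exact cap4_of hu j
    · refine key 5 (by omega) (fun u hu hB hF => ?_)
      obtain ⟨y, p, hD, hj⟩ := exists_dat hu hk hB hF
      subst h6
      refine no_dat6 hD (fun i hi => ?_)
      obtain ⟨j, hy, hp⟩ := hj i hi
      rw [hy, hp]
      exact cap5_of hu j
    · refine key 7 (by omega) (fun u hu hB hF => ?_)
      obtain ⟨y, p, hD, hj⟩ := exists_dat hu hk hB hF
      refine no_dat7 h7 hD (fun i hi => ?_)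
      obtain ⟨j, hy, hp⟩ := hj i hi
      rw [hy, hp]
      exact cap7_of hu j
    · refine key 9 (by omega) (fun u hu hB hF => ?_)
      obtain ⟨y, p, hD, hj⟩ := exists_dat hu hk hB hF
      refine no_dat9 h9 hD (fun i hi => ?_)
      obtain ⟨j, hy, hp⟩ := hj i hi
      rw [hy, hp]
      exact cap9_of hu j
    · refine key (k - 1) (by omega) (fun u hu hB hF => ?_)
      obtain ⟨y, p, hD, hj⟩ := exists_dat hu hk hB hF
      refine no_dat11 h11 hD (fun i hi => ?_)
      obtain ⟨j, hy, hp⟩ := hj i hi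
      rw [hy, hp]
      exact capH_of hu j

end Vale.Agent.P226
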