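import Mathlib
import Vale.Agent.P226.Full.Base

/-! [E] cap inequality for cones. -/

open MeasureTheory ProbabilityTheory Set
open scoped RealInnerProductSpace ENNReal NNReal

set_option linter.unusedSectionVars false

namespace Vale.Agent.P226

variable {E : Type*} [NormedAddCommGroup E] [InnerProductSpace ℝ E] [FiniteDimensional ℝ E]
  [MeasurableSpace E] [BorelSpace E] {ι : Type*} [Fintype ι] [DecidableEq ι]

/-- [E1] for a measurable cone, `‖x‖` is independent of the event `x ∈ A`.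
Ideas: `‖x‖ = κ ∫_0^∞ (1 - exp(-s‖x‖²/2)) s^{-3/2} ds` and
`∫_A exp(-s‖x‖²/2) dγ = (1+s)^{-n/2} γ(A)` by scaling; or polar coordinates
(`MeasureTheory.Measure.toSphere`). -/
theorem cone_norm {n : ℕ} (A : Set (EuclideanSpace ℝ (Fin n))) (hA : MeasurableSet A)
    (hcone : ∀ x ∈ A, ∀ t : ℝ, 0 < t → t • x ∈ A) :
    ∫ x in A, ‖x‖ ∂(stdGaussian (EuclideanSpace ℝ (Fin n))) =
      (∫ x, ‖x‖ ∂(stdGaussian (EuclideanSpace ℝ (Fin n)))) *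
        (stdGaussian (EuclideanSpace ℝ (Fin n))).real A := by
  sorry

/-- [E2] `E (⟪e,x⟫ - c‖x‖)_+ = c φ(0) ∫_c^1 (1-t²)^{(n-1)/2} t^{-2} dt`.
Proof: pointwise, for `0 < c < 1`, `(ξ - c ρ)_+ = c ∫_c^1 ξ 1{ξ > t ρ} t^{-2} dt`
(`|ξ| ≤ ρ`), Fubini, and `E[ξ; ξ > t ‖x‖] = φ(0) (1-t²)^{(n-1)/2}`: with `κ = t/√(1-t²)` and the
splitting `x = s e + x'`, `ξ > t‖x‖ ↔ s > κ‖x'‖`, `E_s[s; s > κ‖x'‖] = φ(κ‖x'‖)`,
`E exp(-κ²‖x'‖²/2) = (1+κ²)^{-(n-1)/2}` (from `E exp(-κ²‖x‖²/2) = (1+κ²)^{-n/2}` and independence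
of `s` and `x'`). -/
theorem cap_int {n : ℕ} (hn : 2 ≤ n) (e : EuclideanSpace ℝ (Fin n)) (he : ‖e‖ = 1) {c : ℝ}
    (hc0 : 0 < c) (hc1 : c < 1) :
    ∫ x, max 0 (⟪e, x⟫ - c * ‖x‖) ∂(stdGaussian (EuclideanSpace ℝ (Fin n))) =
      c * phi 0 * ∫ t in c..1, (1 - t ^ 2) ^ (((n : ℝ) - 1) / 2) / t ^ 2 := by
  sorry

/-- [E3] mean norms; `φ(0) = 1/√(2π)`. (Derivative at `c = 0` of [E2], or the Gamma function.) -/
theorem mean_norm_three : ∫ x, ‖x‖ ∂(stdGaussian (EuclideanSpace ℝ (Fin 3))) = 4 * phi 0 := by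
  sorry
theorem mean_norm_four :
    ∫ x, ‖x‖ ∂(stdGaussian (EuclideanSpace ℝ (Fin 4))) = (3 * Real.pi / 2) * phi 0 := by
  sorry
theorem mean_norm_five :
    ∫ x, ‖x‖ ∂(stdGaussian (EuclideanSpace ℝ (Fin 5))) = (16 / 3) * phi 0 := by
  sorry
theorem mean_norm_seven :
    ∫ x, ‖x‖ ∂(stdGaussian (EuclideanSpace ℝ (Fin 7))) = (32 / 5) * phi 0 := by
  sorry
theorem mean_norm_nine :
    ∫ x, ‖x‖ ∂(stdGaussian (EuclideanSpace ℝ (Fin 9))) = (256 / 35) * phi 0 := by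
  sorry

/-- [E4] the cap inequality for the cells. From [E1]:
`‖u i‖ = ∫_{A_i} ⟪e,x⟫ ≤ ∫_{A_i} c‖x‖ + ∫ (⟪e,x⟫ - c‖x‖)_+`. -/
theorem Opt.cap {n : ℕ} {u : ι → EuclideanSpace ℝ (Fin n)} [Nontrivial ι] (hu : Opt u) (hn : 2 ≤ n)
    (i : ι) {c : ℝ} (hc0 : 0 < c) (hc1 : c < 1) :
    ‖u i‖ ≤ c * (∫ x, ‖x‖ ∂(stdGaussian (EuclideanSpace ℝ (Fin n)))) * pr u i +
      c * phi 0 * ∫ t in c..1, (1 - t ^ 2) ^ (((n : ℝ) - 1) / 2) / t ^ 2 := by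
  sorry

/-- [G] the half space inequality: `‖u i‖ ≤ l p_i + φ(l) - l Φ(-l)`. -/
theorem Opt.half {u : ι → E} [Nontrivial ι] (hu : Opt u) (i : ι) (l : ℝ) (hl : 0 ≤ l) :
    ‖u i‖ ≤ l * pr u i + (phi l - l * ∫ s in Ioi l, phi s) := by
  sorry

end Vale.Agent.P226
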