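import Mathlib
import Vale.Agent.P226.Full.CapD
import Vale.Agent.P226.Full.MeanNorm

/-!
[PS] explicit forms of the cap inequality `Opt.cap` and of `Opt.half`.

odd `n`: `c ∫_c^1 (1-t²)^((n-1)/2) t^{-2} dt` is a polynomial:
`n=3: (1-c)²`, `n=5: (1-c)³(3+c)/3`, `n=7: 1 - (16/5)c + 3c² - c⁴ + c⁶/5`,
`n=9: 1 - (128/35)c + 4c² - 2c⁴ + (4/5)c⁶ - c⁸/7`.
`n=4`: `c ∫_c^1 (1-t²)^{3/2} t^{-2} dt = (1-c²)^{3/2} - 3c ∫_c^1 √(1-t²) dt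
  = (1-c²)^{3/2} - (3c/2)(arccos c - c√(1-c²))`. Exact values (to 6 digits) of this function:
`.22: .5539430, .28: .4570911, .32: .3982932, .38: .3186005, .43: .2598296, .5: .1888804`
(`3π/2 = 4.712389 < 4.7124`).
half space: with `‖u i‖/φ(0)`: `l/φ(0) = √(2π) l`, and
`φ(l)/φ(0) - (l/φ(0)) ∫_l^∞ φ = e^{-l²/2} - l√(π/2) + l ∫_0^l e^{-s²/2} ds
  ≤ 1 - √(π/2) l + l²/2 - l⁴/24 + l⁶/240`
(both sides agree with first derivatives at `0`, second derivatives `e^{-l²/2} ≤ 1 - l²/2 + l⁴/8`).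
-/

open MeasureTheory ProbabilityTheory Set
open scoped RealInnerProductSpace ENNReal NNReal

set_option linter.unusedSectionVars false

namespace Vale.Agent.P226

variable {ι : Type*} [Fintype ι] [DecidableEq ι] [Nontrivial ι]

theorem Opt.cap3 {u : ι → EuclideanSpace ℝ (Fin 3)} (hu : Opt u) (i : ι) {c : ℝ}
    (hc0 : 0 < c) (hc1 : c < 1) :
    ‖u i‖ ≤ phi 0 * (4 * c * pr u i + (1 - c) ^ 2) := by
  sorry

theorem Opt.cap5 {u : ι → EuclideanSpace ℝ (Fin 5)} (hu : Opt u) (i : ι) {c : ℝ}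
    (hc0 : 0 < c) (hc1 : c < 1) :
    ‖u i‖ ≤ phi 0 * (16 / 3 * c * pr u i + (1 - c) ^ 3 * (3 + c) / 3) := by
  sorry

theorem Opt.cap7 {u : ι → EuclideanSpace ℝ (Fin 7)} (hu : Opt u) (i : ι) {c : ℝ}
    (hc0 : 0 < c) (hc1 : c < 1) :
    ‖u i‖ ≤ phi 0 * (32 / 5 * c * pr u i + (1 - 16 / 5 * c + 3 * c ^ 2 - c ^ 4 + c ^ 6 / 5)) := by
  sorry

theorem Opt.cap9 {u : ι → EuclideanSpace ℝ (Fin 9)} (hu : Opt u) (i : ι) {c : ℝ}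
    (hc0 : 0 < c) (hc1 : c < 1) :
    ‖u i‖ ≤ phi 0 * (256 / 35 * c * pr u i +
      (1 - 128 / 35 * c + 4 * c ^ 2 - 2 * c ^ 4 + 4 / 5 * c ^ 6 - c ^ 8 / 7)) := by
  sorry

theorem Opt.cap4 {u : ι → EuclideanSpace ℝ (Fin 4)} (hu : Opt u) (i : ι) :
    ‖u i‖ ≤ phi 0 * (47124 / 10000 * (22 / 100) * pr u i + 55396 / 100000) ∧
    ‖u i‖ ≤ phi 0 * (47124 / 10000 * (28 / 100) * pr u i + 45711 / 100000) ∧
    ‖u i‖ ≤ phi 0 * (47124 / 10000 * (32 / 100) * pr u i + 39831 / 100000) ∧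
    ‖u i‖ ≤ phi 0 * (47124 / 10000 * (38 / 100) * pr u i + 31862 / 100000) ∧
    ‖u i‖ ≤ phi 0 * (47124 / 10000 * (43 / 100) * pr u i + 25985 / 100000) ∧
    ‖u i‖ ≤ phi 0 * (47124 / 10000 * (50 / 100) * pr u i + 18890 / 100000) := by
  sorry

/-- for `l ≤ 1` -/
theorem Opt.halfp {n : ℕ} {u : ι → EuclideanSpace ℝ (Fin n)} (hu : Opt u) (i : ι) {l : ℝ}
    (hl0 : 0 < l) (hl1 : l ≤ 1) :
    ‖u i‖ ≤ phi 0 * (250663 / 100000 * l * pr u i +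
      (1 - 125331 / 100000 * l + l ^ 2 / 2 - l ^ 4 / 24 + l ^ 6 / 240)) := by
  sorry

end Vale.Agent.P226
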