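import Mathlib
import Vale.Agent.P226.Full.Dat

/-!
[CH] chain of lower bounds for the tail sums `π_m = ∑ i ∈ Ico m k, p i`.

MAJORIZATION (`sq_tail_le`). Let `t j ≤ π_j` for `m < j ≤ k` (so `t k ≤ 0`). With
`q_m = π_m - t (m+1)`, `q_i = t i - t (i+1)` for `i > m`, one has
`∑ p_i² ≤ ∑ q_i²` : indeed `∑ (q_i² - p_i²) = ∑ (q_i - p_i)² + 2 ∑ (q_i - p_i) p_i`, and by Abel
summation `∑ (q_i - p_i) p_i = ∑ D_i (p_i - p_{i+1}) + D_{k-1} p_{k-1} ≥ 0` with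
`D_i = ∑_{j ≤ i} (q_j - p_j) = π_{i+1} - t (i+1) ≥ 0`.

CHAIN. Divide by `h` (if `h = 0` everything is trivial), so `h = 1`. Start: at the last level `M`:
`Q_M ≤ π_M²`, so `π_M ≥ (4/9)/(M+1)²`. Step: if `π_m < t_m` then `t_{m+1} ≤ π_m < t_m` and
`(4/9) π_m³/(m+1)² ≤ ((π_m - t_{m+1})² + R)²`, `R = ∑_{i>m} (t_i - t_{i+1})²`, which is false on
`[t_{m+1}, t_m)` (polynomial inequality in one variable).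
Suggested values:
`k = 6`: `t_5 = .0369, t_4 = .0738` (from `hD`), `t_3 = .166`.
`k = 7`: `t_6 = .0271, t_5 = .0542` (from `hD`), `t_4 = .1155, t_3 = .23`.
`k = 8`, `M = 7`: `t_7 = .0069, t_6 = .0251, t_5 = .0612, t_4 = .1274, t_3 = .2476`.
`k ≥ 9`, `M = 8`: `t_8 = .00548, t_7 = .0195, t_6 = .0465, t_5 = .0937, t_4 = .1745, t_3 = .315`.
`k ≥ 11`, `M = 10`: `t_10 = .00367, t_9 = .01275, t_8 = .0294, t_7 = .0569, t_6 = .1006,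
t_5 = .169, t_4 = .2775, t_3 = .4557` (the exact values are slightly larger; recompute if needed).
-/

open Finset

namespace Vale.Agent.P226

theorem sq_tail_le {k m : ℕ} (hmk : m < k) {p : ℕ → ℝ} (hp : ∀ i < k, 0 < p i)
    (ha : ∀ i j, i ≤ j → j < k → p j ≤ p i) {t : ℕ → ℝ}
    (ht : ∀ j, m < j → j ≤ k → t j ≤ ∑ i ∈ Ico j k, p i) :
    ∑ i ∈ Ico m k, p i ^ 2 ≤ (∑ i ∈ Ico m k, p i - t (m + 1)) ^ 2 +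
      ∑ i ∈ Ico (m + 1) k, (t i - t (i + 1)) ^ 2 := by
  sorry

theorem chain6_3 {p : ℕ → ℝ} (hp : ∀ i < 6, 0 < p i) (ha : ∀ i j, i ≤ j → j < 6 → p j ≤ p i)
    {h : ℝ} (hh : 0 ≤ h) (hD : ∀ i < 6, 3 ≤ i → 369 / 10000 * h ≤ p i) (h3 : PF 6 p h 3) :
    166 / 1000 * h ≤ ∑ i ∈ Ico 3 6, p i := by
  sorry

theorem chain7_5 {p : ℕ → ℝ} {h : ℝ} (hD : ∀ i < 7, 5 ≤ i → 271 / 10000 * h ≤ p i) :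
    54 / 1000 * h ≤ ∑ i ∈ Ico 5 7, p i := by
  sorry

theorem chain7_4 {p : ℕ → ℝ} (hp : ∀ i < 7, 0 < p i) (ha : ∀ i j, i ≤ j → j < 7 → p j ≤ p i)
    {h : ℝ} (hh : 0 ≤ h) (hD : ∀ i < 7, 4 ≤ i → 271 / 10000 * h ≤ p i) (h4 : PF 7 p h 4) :
    1155 / 10000 * h ≤ ∑ i ∈ Ico 4 7, p i := by
  sorry

theorem chain7_3 {p : ℕ → ℝ} (hp : ∀ i < 7, 0 < p i) (ha : ∀ i j, i ≤ j → j < 7 → p j ≤ p i)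
    {h : ℝ} (hh : 0 ≤ h) (hD : ∀ i < 7, 3 ≤ i → 271 / 10000 * h ≤ p i)
    (hP : ∀ m, 3 ≤ m → m ≤ 4 → PF 7 p h m) :
    23 / 100 * h ≤ ∑ i ∈ Ico 3 7, p i := by
  sorry

theorem chain8_5 {p : ℕ → ℝ} (hp : ∀ i < 8, 0 < p i) (ha : ∀ i j, i ≤ j → j < 8 → p j ≤ p i)
    {h : ℝ} (hh : 0 ≤ h) (hP : ∀ m, 5 ≤ m → m ≤ 7 → PF 8 p h m) :
    54 / 1000 * h ≤ ∑ i ∈ Ico 5 8, p i := by
  sorry

theorem chain8_4 {p : ℕ → ℝ} (hp : ∀ i < 8, 0 < p i) (ha : ∀ i j, i ≤ j → j < 8 → p j ≤ p i)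
    {h : ℝ} (hh : 0 ≤ h) (hP : ∀ m, 4 ≤ m → m ≤ 7 → PF 8 p h m) :
    1155 / 10000 * h ≤ ∑ i ∈ Ico 4 8, p i := by
  sorry

theorem chain8_3 {p : ℕ → ℝ} (hp : ∀ i < 8, 0 < p i) (ha : ∀ i j, i ≤ j → j < 8 → p j ≤ p i)
    {h : ℝ} (hh : 0 ≤ h) (hP : ∀ m, 3 ≤ m → m ≤ 7 → PF 8 p h m) :
    23 / 100 * h ≤ ∑ i ∈ Ico 3 8, p i := by
  sorry

theorem chain9_5 {k : ℕ} (hk : 9 ≤ k) {p : ℕ → ℝ} (hp : ∀ i < k, 0 < p i)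
    (ha : ∀ i j, i ≤ j → j < k → p j ≤ p i)
    {h : ℝ} (hh : 0 ≤ h) (hP : ∀ m, 5 ≤ m → m ≤ 8 → PF k p h m) :
    935 / 10000 * h ≤ ∑ i ∈ Ico 5 k, p i := by
  sorry

theorem chain9_4 {k : ℕ} (hk : 9 ≤ k) {p : ℕ → ℝ} (hp : ∀ i < k, 0 < p i)
    (ha : ∀ i j, i ≤ j → j < k → p j ≤ p i)
    {h : ℝ} (hh : 0 ≤ h) (hP : ∀ m, 4 ≤ m → m ≤ 8 → PF k p h m) :
    174 / 1000 * h ≤ ∑ i ∈ Ico 4 k, p i := by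
  sorry

theorem chain9_3 {k : ℕ} (hk : 9 ≤ k) {p : ℕ → ℝ} (hp : ∀ i < k, 0 < p i)
    (ha : ∀ i j, i ≤ j → j < k → p j ≤ p i)
    {h : ℝ} (hh : 0 ≤ h) (hP : ∀ m, 3 ≤ m → m ≤ 8 → PF k p h m) :
    31 / 100 * h ≤ ∑ i ∈ Ico 3 k, p i := by
  sorry

theorem chain11_6 {k : ℕ} (hk : 11 ≤ k) {p : ℕ → ℝ} (hp : ∀ i < k, 0 < p i)
    (ha : ∀ i j, i ≤ j → j < k → p j ≤ p i)
    {h : ℝ} (hh : 0 ≤ h) (hP : ∀ m, 6 ≤ m → m ≤ 10 → PF k p h m) :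
    1 / 10 * h ≤ ∑ i ∈ Ico 6 k, p i := by
  sorry

theorem chain11_5 {k : ℕ} (hk : 11 ≤ k) {p : ℕ → ℝ} (hp : ∀ i < k, 0 < p i)
    (ha : ∀ i j, i ≤ j → j < k → p j ≤ p i)
    {h : ℝ} (hh : 0 ≤ h) (hP : ∀ m, 5 ≤ m → m ≤ 10 → PF k p h m) :
    168 / 1000 * h ≤ ∑ i ∈ Ico 5 k, p i := by
  sorry

theorem chain11_4 {k : ℕ} (hk : 11 ≤ k) {p : ℕ → ℝ} (hp : ∀ i < k, 0 < p i)
    (ha : ∀ i j, i ≤ j → j < k → p j ≤ p i)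
    {h : ℝ} (hh : 0 ≤ h) (hP : ∀ m, 4 ≤ m → m ≤ 10 → PF k p h m) :
    275 / 1000 * h ≤ ∑ i ∈ Ico 4 k, p i := by
  sorry

theorem chain11_3 {k : ℕ} (hk : 11 ≤ k) {p : ℕ → ℝ} (hp : ∀ i < k, 0 < p i)
    (ha : ∀ i j, i ≤ j → j < k → p j ≤ p i)
    {h : ℝ} (hh : 0 ≤ h) (hP : ∀ m, 3 ≤ m → m ≤ 10 → PF k p h m) :
    45 / 100 * h ≤ ∑ i ∈ Ico 3 k, p i := by
  sorry

end Vale.Agent.P226
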