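import Mathlib
import Vale.Agent.P226.Full.Base

/-! [A] deletion inequalities. -/

open MeasureTheory ProbabilityTheory Set
open scoped RealInnerProductSpace ENNReal NNReal

set_option linter.unusedSectionVars false

namespace Vale.Agent.P226

variable {E : Type*} [NormedAddCommGroup E] [InnerProductSpace ℝ E] [FiniteDimensional ℝ E]
  [MeasurableSpace E] [BorelSpace E] {ι : Type*} [Fintype ι] [DecidableEq ι] [Nontrivial ι]

/-- `2 E max_j ⟪w_j, x⟫ ≤ C + ∑ ‖w_j‖ ^ 2` for `m` vectors when `Bd E C m`.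
Proof: `Em w = ∑ ⟪w_j, z(argCell w j)⟫ ≤ (∑ ‖w_j‖² + ∑ ‖z(argCell w j)‖²)/2`
(see `sum_inner_argCell`, `isPartition_argCell`). -/
theorem Bd.em_le {C : ℝ} {m : ℕ} (hB : Bd E C (m + 1)) (w : Fin (m + 1) → E) :
    2 * Em w ≤ C + ∑ j, ‖w j‖ ^ 2 := by
  sorry

/-- set deletion. Proof: let `w = rest u J`, `v_j = cvec u J j` for `j ∈ J` (`m` vectors).
`E cmax = E max_{j ∈ J} ⟪u j, x⟫ = ∑_{i ∈ J} ‖u i‖² + E[max_{J} ⟪u j,x⟫; outside]` because on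
`cone u i`, `i ∈ J`, the maximum is `⟪u i, x⟫` and `firstMoment (cone u i) = u i`; also
`E[⟪w,x⟫; outside] = ‖w‖²`. Then use `Bd.em_le` with the vectors `v_j`,
`∑_{j ∈ J} ‖v_j‖² = ∑_{j ∈ J} ‖u j‖² - ‖w‖²/m`. -/
theorem Opt.del {C : ℝ} {m : ℕ} (hB : Bd E C m) {u : ι → E} (hu : Opt u)
    (hF : C < ∑ i, ‖u i‖ ^ 2) (J : Finset ι) (hJ : J.Nonempty) (hm : J.card = m) :
    2 * ∫ x in outside u J, cmax u J x ∂(stdGaussian E) <
      ∑ i ∈ Jᶜ, ‖u i‖ ^ 2 + ‖rest u J‖ ^ 2 / m := by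
  sorry

/-- single deletion: `E (X_i - M_i)_+ > (K/(K-1)) ‖u i‖² / 2`.
Proof: `E max_{j ≠ i} X_j = E max_j X_j - dgap = ∑ ‖u j‖² - dgap`, and `Bd.em_le` with
`u j + (1/(K-1)) u i`, `j ≠ i`. -/
theorem Opt.del_single {C : ℝ} {m : ℕ} (hB : Bd E C m) {u : ι → E} (hu : Opt u)
    (hF : C < ∑ i, ‖u i‖ ^ 2) (hm : Fintype.card ι = m + 1) (i : ι) :
    ((m + 1 : ℝ) / m) * ‖u i‖ ^ 2 / 2 < dgap u i := by
  sorry

end Vale.Agent.P226
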