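import Mathlib

/-!
[J4] four cells, all of measure `≥ .085`.

For `p < 1/2` take `c = 1 - 2p`: `√y ≤ 4p(1-p)`, so `y ≤ f(p) := 16 p²(1-p)²`.
`f(p) ≤ 3p - 3/16` for `p ≥ .14` (tangent at `1/4`; equality of the sum at the regular
configuration `p = 1/4`, which is allowed). If some `p_4 = q < .14` use for the three others
the tangent of `f` at `s ≈ (1-q)/3 ∈ [.286, .305]` (fixed `s` on 3 or 4 subintervals of
`q ∈ [.085, .14]`; all `p_i ≥ .085`), and `y_4 ≤ min (f(q), 4πq²)`.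
Numbers: `3 f((1-q)/3) + min(f(q), 4πq²)` = 2.2476 (q=.085), 2.2425 (q=.1), 2.2411 (q=.12),
2.2387 (q=.14). If two of them are `< .14` the same argument works (the tangent line at `s` is
above `f` on `[.05, 1/2]`; for `p ≥ 1/2` use `y ≤ 1`). Tangents of `f` itself or the cap
inequality at fixed `c` may be used.
-/

open Finset

namespace Vale.Agent.P226

theorem jensen4 {y p : Fin 4 → ℝ} (hp : ∀ i, 85 / 1000 ≤ p i) (hsum : ∑ i, p i = 1)
    (hy0 : ∀ i, 0 ≤ y i) (hy1 : ∀ i, y i ≤ 1)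
    (hc : ∀ i c, 0 < c → c < 1 → Real.sqrt (y i) ≤ 4 * c * p i + (1 - c) ^ 2)
    (hk : ∀ i, y i ≤ 4 * Real.pi * p i ^ 2) : ∑ i, y i ≤ 9 / 4 := by
  sorry

end Vale.Agent.P226
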