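import Mathlib
import Vale.Agent.P226.Full.Dat
import Vale.Agent.P226.Full.DelA
import Vale.Agent.P226.Full.PrekB
import Vale.Agent.P226.Full.DgapSmall
import Vale.Agent.P226.Full.SmallBall

/-!
[HD] Heron lemma and the normalised inequalities, `ynorm u i = 2 π ‖u i‖²`.

HERON. Let `w ≠ 0` with `⟪u j, w⟫ ≤ 0` for `j ∈ J`; `W = ‖w‖²`, `β_j = -⟪u j, w⟫ ≥ 0`,
`α_j = ‖u j‖² - β_j²/W`, `c_ij = -⟪u i, u j⟫ + β_i β_j / W ≥ 0` (minus the inner product of the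
components orthogonal to `w`). If the components orthogonal to `w` of the `u j`, `j ∈ J`, add
up to zero, then `∑_{j ∈ J, j ≠ a} c_aj = α_a`, so for distinct `a, b, c ∈ J`:
`c_ab + c_ac ≤ α_a` etc. Hence for some pair `(i,j)` of `{a,b,c}`, with third element `l`,
`c_ij ≤ (α_i + α_j - α_l)/2` (otherwise `c_ab + c_ac > α_a`), and then
`4 (α_i α_j - c_ij²) ≥ 4 α_i α_j - (α_i+α_j-α_l)² = f3 α_a α_b α_c` (`f3` is symmetric).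
Moreover `∑_{j ∈ J} β_j = W` (single case `w = u l`, `J = all others`: `∑_j ⟪u j, w⟫ = -W`;
set case `w = rest u J`: the same), so `ε_j = β_j²/W` satisfies `∑_J ε_j ≤ W`
(`ε_j ≤ β_j` as `β_j ≤ W`), and for `y_c ≤ y_a, y_b`:
`f3 (y_a-ε_a) (y_b-ε_b) (y_c-ε_c) ≥ f3 y_a y_b y_c - 2W(y_a+y_b-y_c) - W² = f3 y_a y_b (y_c - W)`
(`W ≥ ε_a+ε_b+ε_c`; `f3(y-ε) = f3 y - 2∑ ε_j (y_i+y_l-y_j) + f3 ε`, `f3 ε ≥ -(∑ε)²`).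
`f3 y_a y_b (y_c - W)` is decreasing in `W ≥ 0`.

SINGLE. `w = u l`. `Opt.del_single` (with `m = k-1`) and `Opt.dgap_small'` give
`‖u l‖² > (3π/(φ(0) k²))² Δ²`, `4Δ² ≥ f3 α`; scale by `2π` (`φ(0)² = 1/(2π)`).
(If `f3 ... ≤ 0` the claim is trivial.)

P-FORM. `w = rest u J` (`≠ 0`: `⟪w, u a⟫ < 0`). `Opt.pform'` with `S = outside u J`
(its measure is `∑_{Jᶜ} pr u i`, see `Opt.aedisjoint` etc. in DelA), `Opt.del` with `m = |J|`,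
`‖w‖² ≤ σ² = ∑_{Jᶜ} ‖u i‖²` (negative inner products), `σ² ≤ 2Q`, `Q = ∑_{Jᶜ} pr²`:
`(4/3) π_J √(4πΔπ_J)/m < σ²(1+1/m) ≤ 2Q(m+1)/m`, so `Q² > (4/9) 4πΔ π_J³/(m+1)²`, and
`4πΔ ≥ 2π √(f3 α) ≥ h`.

PREKOPA. `Opt.del_single` and `Opt.dgap_le`: `‖u i‖² < 2 pr²`.
-/

open MeasureTheory ProbabilityTheory Set Finset
open scoped RealInnerProductSpace ENNReal NNReal

set_option linter.unusedSectionVars false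

namespace Vale.Agent.P226

/-- [HE] Heron lemma, used with `w = u l`, `J = univ.erase l`, `W = ‖u l‖²`, and with
`w = rest u J`, `W = ∑_{Jᶜ} ‖u i‖²`. -/
theorem heron_core {E : Type*} [NormedAddCommGroup E] [InnerProductSpace ℝ E] {ι : Type*}
    [DecidableEq ι] {u : ι → E} {w : E} (hw : w ≠ 0) {J : Finset ι}
    (hneg : ∀ i ∈ J, ∀ j ∈ J, i ≠ j → ⟪u i, u j⟫ ≤ 0) (hwneg : ∀ j ∈ J, ⟪w, u j⟫ ≤ 0)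
    (hsum : ∑ j ∈ J, u j = -w) {a b c : ι} (ha : a ∈ J) (hb : b ∈ J) (hc : c ∈ J)
    (hab : a ≠ b) (hac : a ≠ c) (hbc : b ≠ c) (hca : ‖u c‖ ^ 2 ≤ ‖u a‖ ^ 2)
    (hcb : ‖u c‖ ^ 2 ≤ ‖u b‖ ^ 2) {W : ℝ} (hW : ‖w‖ ^ 2 ≤ W)
    (hpos : 0 < f3 (‖u a‖ ^ 2) (‖u b‖ ^ 2) (‖u c‖ ^ 2 - W)) :
    ∃ i ∈ J, ∃ j ∈ J, i ≠ j ∧ ∃ Δ : ℝ, 0 < Δ ∧
      Δ ^ 2 = (‖u i‖ ^ 2 - ⟪w, u i⟫ ^ 2 / ‖w‖ ^ 2) * (‖u j‖ ^ 2 - ⟪w, u j⟫ ^ 2 / ‖w‖ ^ 2) -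
        (⟪u i, u j⟫ - ⟪w, u i⟫ * ⟪w, u j⟫ / ‖w‖ ^ 2) ^ 2 ∧
      f3 (‖u a‖ ^ 2) (‖u b‖ ^ 2) (‖u c‖ ^ 2 - W) ≤ 4 * Δ ^ 2 := by
  sorry

/-- normalised squared norm -/
noncomputable def ynorm {n k : ℕ} (u : Fin k → EuclideanSpace ℝ (Fin n)) (i : Fin k) : ℝ :=
  2 * Real.pi * ‖u i‖ ^ 2

variable {n k : ℕ} {u : Fin k → EuclideanSpace ℝ (Fin n)}

/-- [HD0] -/
theorem Opt.prek_ineq (hu : Opt u) (hk : 4 ≤ k)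
    (hB : ∀ m < k, Bd (EuclideanSpace ℝ (Fin n)) (9 / (8 * Real.pi)) m)
    (hF : 9 / (8 * Real.pi) < ∑ i, ‖u i‖ ^ 2) (i : Fin k) :
    ynorm u i ≤ 4 * Real.pi * pr u i ^ 2 := by
  sorry

/-- [HD1] -/
theorem Opt.single_ineq (hu : Opt u) (hk : 4 ≤ k)
    (hB : ∀ m < k, Bd (EuclideanSpace ℝ (Fin n)) (9 / (8 * Real.pi)) m)
    (hF : 9 / (8 * Real.pi) < ∑ i, ‖u i‖ ^ 2) {l a b c : Fin k} (hla : l ≠ a) (hlb : l ≠ b)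
    (hlc : l ≠ c) (hab : a ≠ b) (hac : a ≠ c) (hbc : b ≠ c)
    (hca : ynorm u c ≤ ynorm u a) (hcb : ynorm u c ≤ ynorm u b) :
    9 * Real.pi ^ 2 / (4 * (k : ℝ) ^ 4) * f3 (ynorm u a) (ynorm u b) (ynorm u c - ynorm u l) ≤
      ynorm u l := by
  sorry

/-- [HD2] -/
theorem Opt.set_ineq (hu : Opt u) (hk : 4 ≤ k)
    (hB : ∀ m < k, Bd (EuclideanSpace ℝ (Fin n)) (9 / (8 * Real.pi)) m)
    (hF : 9 / (8 * Real.pi) < ∑ i, ‖u i‖ ^ 2) (J : Finset (Fin k)) (h3 : 3 ≤ J.card)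
    (hJ : J.card < k) {a b c : Fin k} (ha : a ∈ J) (hb : b ∈ J) (hc : c ∈ J) (hab : a ≠ b)
    (hac : a ≠ c) (hbc : b ≠ c)
    (hca : ynorm u c ≤ ynorm u a) (hcb : ynorm u c ≤ ynorm u b) {h : ℝ} (hh : 0 ≤ h)
    (hf : h ^ 2 ≤ f3 (ynorm u a) (ynorm u b) (ynorm u c - ∑ i ∈ Jᶜ, ynorm u i)) :
    4 / 9 * h * (∑ i ∈ Jᶜ, pr u i) ^ 3 / ((J.card : ℝ) + 1) ^ 2 ≤
      (∑ i ∈ Jᶜ, pr u i ^ 2) ^ 2 := by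
  sorry

end Vale.Agent.P226
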