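import Mathlib
import Vale.Agent.P226.Full.AsmB

/-! partitions up to null sets, general Euclidean spaces -/

open MeasureTheory ProbabilityTheory Set Finset

set_option linter.unusedSectionVars false

namespace Vale.Agent.P226

variable {E : Type*} [NormedAddCommGroup E] [InnerProductSpace ℝ E] [FiniteDimensional ℝ E]
  [MeasurableSpace E] [BorelSpace E]

/-- the exact partition attached to a partition up to null sets -/
def exactPart {k : ℕ} (A : Fin (k + 1) → Set E) (i : Fin (k + 1)) : Set E :=
  (A i \ ⋃ j : {j // j < i}, A j) ∪ (if i = 0 then (⋃ j, A j)ᶜ else ∅)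

theorem exactPart_isPartition {k : ℕ} {A : Fin (k + 1) → Set E} (hm : ∀ i, MeasurableSet (A i)) :
    IsPartition (exactPart A) := by
  refine ⟨?_, ?_, ?_⟩
  · intro i
    unfold exactPart
    refine ((hm i).diff (MeasurableSet.iUnion fun (j : {j // j < i}) => hm j.1)).union ?_
    split_ifs
    · exact (MeasurableSet.iUnion hm).compl
    · exact MeasurableSet.empty
  · have key : ∀ i j : Fin (k + 1), i < j → Disjoint (exactPart A i) (exactPart A j) := by
      intro i j hij
      rw [Set.disjoint_left]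
      intro x hx hy
      have hj0 : j ≠ 0 := by
        intro h; rw [h] at hij; exact absurd hij (Fin.not_lt_zero i)
      unfold exactPart at hx hy
      rw [if_neg hj0, Set.union_empty] at hy
      rcases hx with hx | hx
      · exact hy.2 (Set.mem_iUnion.mpr ⟨⟨i, hij⟩, hx.1⟩)
      · split_ifs at hx with h0
        · exact hx (Set.mem_iUnion.mpr ⟨j, hy.1⟩)
        · exact hx
    intro i j hij
    rcases lt_or_gt_of_ne hij with h | h
    · exact key i j h
    · exact (key j i h).symm
  · classical
    rw [Set.eq_univ_iff_forall]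
    intro x
    by_cases hx : x ∈ ⋃ j, A j
    · rw [Set.mem_iUnion] at hx
      obtain ⟨j, hj⟩ := hx
      have hne : (Finset.univ.filter fun j => x ∈ A j).Nonempty :=
        ⟨j, by simp [hj]⟩
      set i := (Finset.univ.filter fun j => x ∈ A j).min' hne with hi
      have himem := Finset.min'_mem _ hne
      rw [← hi, Finset.mem_filter] at himem
      refine Set.mem_iUnion.mpr ⟨i, Or.inl ⟨himem.2, ?_⟩⟩
      intro hcon
      rw [Set.mem_iUnion] at hcon
      obtain ⟨⟨l, hl⟩, hxl⟩ := hcon
      have : i ≤ l := Finset.min'_le _ _ (by simp [hxl])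
      exact absurd hl (not_lt.mpr this)
    · refine Set.mem_iUnion.mpr ⟨0, Or.inr ?_⟩
      rw [if_pos rfl]
      exact hx

theorem exactPart_ae {k : ℕ} {A : Fin (k + 1) → Set E}
    (hd : Pairwise fun i j => stdGaussian E (A i ∩ A j) = 0)
    (hc : stdGaussian E (⋃ i, A i)ᶜ = 0) (i : Fin (k + 1)) :
    exactPart A i =ᵐ[stdGaussian E] A i := by
  have h1 : stdGaussian E ((⋃ j, A j)ᶜ ∪ ⋃ j : {j // j < i}, (A i ∩ A j)) = 0 := by
    rw [measure_union_null_iff]
    refine ⟨hc, ?_⟩
    rw [measure_iUnion_null_iff]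
    intro j
    exact hd (ne_of_gt j.2)
  have h2 : ∀ᵐ x ∂(stdGaussian E), x ∉ ((⋃ j, A j)ᶜ ∪ ⋃ j : {j // j < i}, (A i ∩ A j)) :=
    measure_eq_zero_iff_ae_notMem.mp h1
  filter_upwards [h2] with x hx
  simp only [Set.mem_union, not_or, Set.mem_iUnion, not_exists, Set.mem_inter_iff] at hx
  apply propext
  constructor
  · intro h
    rcases h with h | h
    · exact h.1
    · split_ifs at h
      · exact absurd h hx.1
      · exact absurd h (by simp)
  · intro h
    refine Or.inl ⟨h, ?_⟩
    intro hcon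
    rw [Set.mem_iUnion] at hcon
    obtain ⟨j, hj⟩ := hcon
    exact hx.2 j ⟨h, hj⟩

theorem bd_ae {d k : ℕ} (A : Fin k → Set (EuclideanSpace ℝ (Fin d)))
    (hm : ∀ i, MeasurableSet (A i))
    (hd : Pairwise fun i j => stdGaussian (EuclideanSpace ℝ (Fin d)) (A i ∩ A j) = 0)
    (hc : stdGaussian (EuclideanSpace ℝ (Fin d)) (⋃ i, A i)ᶜ = 0) :
    ∑ i, ‖∫ x in A i, x ∂(stdGaussian (EuclideanSpace ℝ (Fin d)))‖ ^ 2 ≤ 9 / (8 * Real.pi) := by
  rcases k with _ | k
  · simp only [Finset.univ_eq_empty, Finset.sum_empty]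
    have := Real.pi_pos
    positivity
  · have h1 := bd_eucl (k + 1) d (exactPart A) (exactPart_isPartition hm)
    unfold momentSum firstMoment at h1
    have h2 : ∀ i, ∫ x in exactPart A i, x ∂(stdGaussian (EuclideanSpace ℝ (Fin d))) =
        ∫ x in A i, x ∂(stdGaussian (EuclideanSpace ℝ (Fin d))) :=
      fun i => setIntegral_congr_set (exactPart_ae hd hc i)
    simp_rw [h2] at h1
    exact h1

end Vale.Agent.P226
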