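import Mathlib
import Vale.Agent.P226.Full.Base
import Vale.Agent.P074.PL

/-! [B] Prekopa bound for `dgap`. -/

open MeasureTheory ProbabilityTheory Set
open scoped RealInnerProductSpace ENNReal NNReal

set_option linter.unusedSectionVars false

namespace Vale.Agent.P226

variable {ι : Type*} [Fintype ι] [DecidableEq ι] [Nontrivial ι]

/-- `E (X_i - max_{j≠i} X_j)_+ ≤ (K/(K-1)) γ(A_i)²`, `K` = number of cells.

Proof. Let `a` be a vector with `⟪u i - u j, a⟫ = 1` for all `j ≠ i` (sum over `j` of the vectors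
of `exists_dual` in `Lin.lean`); as `∑ u = 0`, `⟪u i, a⟫ = (K-1)/K`. Put
`q τ = γ {x | τ ≤ X_i - max_{j≠i} X_j} = γ (A_i + τ a) = ∫_{A_i} exp(-τ⟪a,x⟫ - τ²‖a‖²/2) dγ`.
Then `q' (0+) = -⟪a, firstMoment A_i⟫ = -⟪a, u i⟫ = -(K-1)/K`. By `prekopa_half` (P074/PL.lean,
density of the standard Gaussian with respect to volume on `EuclideanSpace ℝ (Fin n)`),
`q s * q t ≤ q ((s+t)/2)^2`, so `q τ / q 0 ≤ (q (τ/2^N) / q 0)^(2^N) → exp (-(K-1)/K τ / q 0)`.
Hence `dgap = ∫_0^∞ q ≤ q(0)² K/(K-1)`. -/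
theorem Opt.dgap_le {n : ℕ} {u : ι → EuclideanSpace ℝ (Fin n)} (hu : Opt u) (i : ι) :
    dgap u i ≤ ((Fintype.card ι : ℝ) / (Fintype.card ι - 1)) * pr u i ^ 2 := by
  sorry

end Vale.Agent.P226
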