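import Mathlib
import Vale.Agent.P226.Full.Base

/-! [C], [D] two dimensional small ball estimates. -/

open MeasureTheory ProbabilityTheory Set
open scoped RealInnerProductSpace ENNReal NNReal

set_option linter.unusedSectionVars false

namespace Vale.Agent.P226

variable {E : Type*} [NormedAddCommGroup E] [InnerProductSpace ℝ E] [FiniteDimensional ℝ E]
  [MeasurableSpace E] [BorelSpace E] {ι : Type*} [Fintype ι] [DecidableEq ι]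

/-- [C0] two dimensional density bound. `f ≥ 0` measurable on `E × ℝ × ℝ`-ish: the function
depends on `x` through `⟪g, x⟫` (`g` orthogonal to the plane of `v`, `w`) and through
`⟪v,x⟫`, `⟪w,x⟫`. Here `v, w ⟂ g`, `Δ² = ‖v‖²‖w‖² - ⟪v,w⟫²`:
`E f(⟪g,x⟫, ⟪v,x⟫, ⟪w,x⟫) ≤ (1/(2πΔ)) E_x ∫∫ f(⟪g,x⟫, A, B) dA dB`. -/
theorem plane_bound {g v w : E} (hv : ⟪g, v⟫ = 0) (hw : ⟪g, w⟫ = 0) {Δ : ℝ} (hΔ : 0 < Δ)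
    (hD : Δ ^ 2 = ‖v‖ ^ 2 * ‖w‖ ^ 2 - ⟪v, w⟫ ^ 2) (f : ℝ → ℝ → ℝ → ℝ≥0∞)
    (hf : Measurable (fun p : ℝ × ℝ × ℝ => f p.1 p.2.1 p.2.2)) :
    ∫⁻ x, f ⟪g, x⟫ ⟪v, x⟫ ⟪w, x⟫ ∂(stdGaussian E) ≤
      ENNReal.ofReal (1 / (2 * Real.pi * Δ)) *
        ∫⁻ x, (∫⁻ A, ∫⁻ B, f ⟪g, x⟫ A B) ∂(stdGaussian E) := by
  sorry

/-- [D1] small ball: `γ {cmax ≤ t} ≤ (m t)² / (4 π Δ)`, `m = |J| ≥ 3`, where `Δ²` is the Gram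
determinant of the components of `u a`, `u b` orthogonal to `w = rest u J`.
Proof: `plane_bound` with `g = w`, `v = u a - (⟪w,u a⟫/‖w‖²) w`, same for `b`. The recentred
functionals `A' = ⟪cvec a, x⟫ = ⟪v,x⟫ + const * ⟪w,x⟫`, `B'` satisfy, on `cmax ≤ t`:
`A' ≤ t`, `B' ≤ t`, `A' + B' ≥ -(m-2) t` (the sum of the recentred vectors over `J` is zero);
for fixed `⟪w,x⟫` this is a translate of a triangle of area `(m t)²/2`. -/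
theorem Opt.small_ball {u : ι → E} (hu : Opt u) (J : Finset ι) (h3 : 3 ≤ J.card) {a b : ι}
    (ha : a ∈ J) (hb : b ∈ J) (hab : a ≠ b) (hw : rest u J ≠ 0) {Δ : ℝ} (hΔ : 0 < Δ)
    (hD : Δ ^ 2 = (‖u a‖ ^ 2 - ⟪rest u J, u a⟫ ^ 2 / ‖rest u J‖ ^ 2) *
      (‖u b‖ ^ 2 - ⟪rest u J, u b⟫ ^ 2 / ‖rest u J‖ ^ 2) -
      (⟪u a, u b⟫ - ⟪rest u J, u a⟫ * ⟪rest u J, u b⟫ / ‖rest u J‖ ^ 2) ^ 2)
    (t : ℝ) (ht : 0 ≤ t) :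
    (stdGaussian E).real {x | cmax u J x ≤ t} ≤ ((J.card : ℝ) * t) ^ 2 / (4 * Real.pi * Δ) := by
  sorry

/-- [D] p-form: for every measurable `S`,
`E[cmax; S] ≥ (2/3) γ(S)^{3/2} √(4πΔ) / m`.
Proof: `cmax ≥ 0`; `P(cmax ≤ t, S) ≤ min(κt², γ(S))`, `κ = m²/(4πΔ)`, layer cake
`E[cmax; S] = ∫_0^∞ (γ(S) - γ(S ∩ {cmax ≤ t})) dt ≥ ∫_0^{√(γ(S)/κ)} (γ(S) - κ t²) dt`. -/
theorem Opt.pform {u : ι → E} (hu : Opt u) (J : Finset ι) (h3 : 3 ≤ J.card) {a b : ι}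
    (ha : a ∈ J) (hb : b ∈ J) (hab : a ≠ b) (hw : rest u J ≠ 0) {Δ : ℝ} (hΔ : 0 < Δ)
    (hD : Δ ^ 2 = (‖u a‖ ^ 2 - ⟪rest u J, u a⟫ ^ 2 / ‖rest u J‖ ^ 2) *
      (‖u b‖ ^ 2 - ⟪rest u J, u b⟫ ^ 2 / ‖rest u J‖ ^ 2) -
      (⟪u a, u b⟫ - ⟪rest u J, u a⟫ * ⟪rest u J, u b⟫ / ‖rest u J‖ ^ 2) ^ 2)
    (S : Set E) (hS : MeasurableSet S) :
    (2 / 3) * (stdGaussian E).real S * Real.sqrt (4 * Real.pi * Δ * (stdGaussian E).real S) /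
        J.card ≤ ∫ x in S, cmax u J x ∂(stdGaussian E) := by
  sorry

/-- [C] `dgap u i ≤ K³ (2 φ(0)) ‖u i‖³ / (12 π (K-1) Δ)`, where `Δ²` is the Gram determinant of
the components of `u a`, `u b` orthogonal to `u i`.
Proof. `m = K - 1`. For `x = s e + x'` (`e = dir u i`), `W = ‖u i‖ s = X_i`; the other functionals
add up to `-W`, so with `A = X_a`, `B = X_b`:
`(X_i - M)_+ ≤ (W - max(A, B, -(W+A+B)/(m-2)))_+ =: G_W(A,B)` and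
`∫∫ G_W dA dB = (K W)³/(6 m)` for `W ≥ 0` (layer cake in `t ≤ W`: the triangle
`A ≤ t, B ≤ t, A + B ≥ -W-(m-2)t` has area `(m t + W)²/2`), `0` for `W ≤ 0`.
Use `plane_bound` with `g = e`, `v = u a - ⟪e, u a⟫ e`, `w = u b - ⟪e, u b⟫ e` (shift `A`, `B` by
`⟪e,u a⟫ s`, `⟪e,u b⟫ s`, Lebesgue is translation invariant) and `E[s³; s>0] = 2 φ(0)`. -/
theorem Opt.dgap_small {u : ι → E} (hu : Opt u) (hK : 4 ≤ Fintype.card ι) {i a b : ι}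
    (ha : a ≠ i) (hb : b ≠ i) (hab : a ≠ b) {Δ : ℝ} (hΔ : 0 < Δ)
    (hD : Δ ^ 2 = (‖u a‖ ^ 2 - ⟪u i, u a⟫ ^ 2 / ‖u i‖ ^ 2) *
      (‖u b‖ ^ 2 - ⟪u i, u b⟫ ^ 2 / ‖u i‖ ^ 2) -
      (⟪u a, u b⟫ - ⟪u i, u a⟫ * ⟪u i, u b⟫ / ‖u i‖ ^ 2) ^ 2) :
    dgap u i ≤ (Fintype.card ι : ℝ) ^ 3 * (2 * phi 0) * ‖u i‖ ^ 3 /
      (12 * Real.pi * (Fintype.card ι - 1) * Δ) := by
  sorry

end Vale.Agent.P226
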