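import Mathlib
import Vale.Agent.P226.Full.Base

/-! [F] three cells. -/

open MeasureTheory ProbabilityTheory Set
open scoped RealInnerProductSpace ENNReal NNReal

set_option linter.unusedSectionVars false

namespace Vale.Agent.P226

variable {E : Type*} [NormedAddCommGroup E] [InnerProductSpace ℝ E] [FiniteDimensional ℝ E]
  [MeasurableSpace E] [BorelSpace E]

/-- `M(d,3) ≤ 9/(8π)`. Proof: `momentSum A ≤ Em z` (`momentSum_le_Em`), `z = firstMoment ∘ A`.
For three numbers `2 (max - min) = |x-y| + |y-z| + |z-x|` and `E max = - E min` (symmetry of the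
Gaussian), so `Em z = (1/4) ∑_{i<j} E|⟪z i - z j, x⟫| = (1/4) √(2/π) ∑_{i<j} ‖z i - z j‖`, and by
Cauchy-Schwarz with `∑_{i<j} ‖z i - z j‖² = 3 ∑ ‖z i‖²` (sum zero): `F ≤ (3/(2√(2π))) √F`. -/
theorem bd_three : Bd E (9 / (8 * Real.pi)) 3 := by
  sorry

end Vale.Agent.P226
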